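import Mathlib

/-!
# Row 246, Theorem T, module BR: `k⟦x₀, x₁⟧ ≃ k⟦t⟧⟦s⟧`, and the two partial derivatives of `k⟦t⟧⟦s⟧`

`s = X`, `t = C X`.  `x₀ ↦ s`, `x₁ ↦ t`.
-/

set_option autoImplicit false

namespace Claimed.Agent.R246.T

open scoped PowerSeries

section Bridge

variable (k : Type*) [CommRing k]

/-- `Fin 2 ≃ Option Unit`, `0 ↦ none`, `1 ↦ some ()` -/
def tbE : Fin 2 ≃ Option Unit where
  toFun i := if i = 0 then none else some ()
  invFun o := o.elim 0 (fun _ => 1)
  left_inv i := by fin_cases i <;> rfl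
  right_inv o := by rcases o with _ | ⟨⟩ <;> rfl

/-- **BR.** the isomorphism `k⟦x₀, x₁⟧ ≃ k⟦t⟧⟦s⟧` -/
noncomputable def tbeta : MvPowerSeries (Fin 2) k ≃ₐ[k] (k⟦X⟧)⟦X⟧ :=
  (MvPowerSeries.renameEquiv k tbE).trans (MvPowerSeries.optionEquivLeft Unit k)

@[simp] theorem tbeta_X_zero : tbeta k (MvPowerSeries.X 0) = PowerSeries.X := by
  simp [tbeta, tbE]

@[simp] theorem tbeta_X_one : tbeta k (MvPowerSeries.X 1) = PowerSeries.C PowerSeries.X := by
  simp [tbeta, tbE]
  rfl

@[simp] theorem tbeta_C (r : k) : tbeta k (MvPowerSeries.C r) = PowerSeries.C (PowerSeries.C r) := by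
  simp [tbeta]
  rfl

/-- the exponent `x₀ ^ i * x₁ ^ j` -/
noncomputable def tbIdx (i j : ℕ) : Fin 2 →₀ ℕ := Finsupp.single 0 i + Finsupp.single 1 j

@[simp] theorem tbIdx_zero (i j : ℕ) : tbIdx i j 0 = i := by simp [tbIdx]

@[simp] theorem tbIdx_one (i j : ℕ) : tbIdx i j 1 = j := by simp [tbIdx]

theorem tbIdx_eta (m : Fin 2 →₀ ℕ) : tbIdx (m 0) (m 1) = m := by
  ext a
  fin_cases a <;> simp

/-- coefficient formula for `tbeta` -/
theorem coeff_coeff_tbeta (p : MvPowerSeries (Fin 2) k) (i j : ℕ) :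
    PowerSeries.coeff j (PowerSeries.coeff i (tbeta k p)) = MvPowerSeries.coeff (tbIdx i j) p := by
  have h1 : (Finsupp.single () j).optionElim i = Finsupp.embDomain tbE.toEmbedding (tbIdx i j) := by
    ext a
    rcases a with _ | ⟨⟩
    · have : (none : Option Unit) = tbE.toEmbedding 0 := rfl
      rw [this, Finsupp.embDomain_apply_self, ← this]
      simp
    · have : (some () : Option Unit) = tbE.toEmbedding 1 := rfl
      rw [this, Finsupp.embDomain_apply_self, ← this]
      simp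
  have h2 := MvPowerSeries.coeff_coeff_optionEquivLeft
    (MvPowerSeries.rename tbE p) i (Finsupp.single () j)
  rw [h1] at h2
  have h3 := MvPowerSeries.coeff_embDomain_rename tbE.toEmbedding p (tbIdx i j)
  exact h2.trans h3

end Bridge

section Der

variable {k A : Type*} [CommRing k] [CommRing A] [Algebra k A]

/-- the coefficientwise extension of a derivation of `A` to `A⟦X⟧` -/
noncomputable def tcoeffDer (d : Derivation k A A) : Derivation k A⟦X⟧ A⟦X⟧ :=
  Derivation.mk'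
    { toFun := fun f => PowerSeries.mk fun n => d (PowerSeries.coeff n f)
      map_add' := fun f g => by ext n; simp
      map_smul' := fun r f => by ext n; simp }
    (fun f g => by
      ext n
      simp only [LinearMap.coe_mk, AddHom.coe_mk, PowerSeries.coeff_mk, PowerSeries.coeff_mul,
        map_sum, Derivation.leibniz, smul_eq_mul, map_add, Finset.sum_add_distrib]
      congr 1
      rw [← Finset.Nat.sum_antidiagonal_swap]
      simp)

@[simp] theorem coeff_tcoeffDer (d : Derivation k A A) (f : A⟦X⟧) (n : ℕ) :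
    PowerSeries.coeff n (tcoeffDer d f) = d (PowerSeries.coeff n f) := by
  simp [tcoeffDer]

@[simp] theorem tcoeffDer_X (d : Derivation k A A) : tcoeffDer d (PowerSeries.X : A⟦X⟧) = 0 := by
  ext n
  rw [coeff_tcoeffDer, PowerSeries.coeff_X]
  split_ifs <;> simp

@[simp] theorem tcoeffDer_C (d : Derivation k A A) (a : A) :
    tcoeffDer d (PowerSeries.C a) = PowerSeries.C (d a) := by
  ext n
  rw [coeff_tcoeffDer, PowerSeries.coeff_C, PowerSeries.coeff_C]
  split_ifs <;> simp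

set_option backward.isDefEq.respectTransparency false in
/-- the coefficientwise extension of a derivation of `A` to `A[X]` -/
noncomputable def tcoeffDerPoly (d : Derivation k A A) : Derivation k (Polynomial A) (Polynomial A) :=
  PolynomialModule.equivPolynomialSelf.compDer d.mapCoeffs

@[simp] theorem coeff_tcoeffDerPoly (d : Derivation k A A) (p : Polynomial A) (n : ℕ) :
    (tcoeffDerPoly d p).coeff n = d (p.coeff n) := rfl

theorem tcoeffDer_coe (d : Derivation k A A) (p : Polynomial A) :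
    tcoeffDer d (p : A⟦X⟧) = ((tcoeffDerPoly d p : Polynomial A) : A⟦X⟧) := by
  ext n
  simp

/-- `∂/∂X` on `A⟦X⟧` as a `k`-derivation -/
noncomputable def tdX (k A : Type*) [CommRing k] [CommRing A] [Algebra k A] :
    Derivation k A⟦X⟧ A⟦X⟧ :=
  (PowerSeries.derivative A).restrictScalars k

theorem tdX_apply (f : A⟦X⟧) : tdX k A f = PowerSeries.derivative A f := rfl

end Der

section Partial

variable (k : Type*) [CommRing k]

/-- `∂/∂s` on `k⟦t⟧⟦s⟧` -/
noncomputable def tds : Derivation k (k⟦X⟧)⟦X⟧ (k⟦X⟧)⟦X⟧ := tdX k (k⟦X⟧)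

/-- `∂/∂t` on `k⟦t⟧⟦s⟧` -/
noncomputable def tdt : Derivation k (k⟦X⟧)⟦X⟧ (k⟦X⟧)⟦X⟧ :=
  tcoeffDer (PowerSeries.derivative k)

theorem coeff_tds (f : (k⟦X⟧)⟦X⟧) (n : ℕ) :
    PowerSeries.coeff n (tds k f) = PowerSeries.coeff (n + 1) f * (n + 1) :=
  PowerSeries.coeff_derivative f n

theorem coeff_tdt (f : (k⟦X⟧)⟦X⟧) (n : ℕ) :
    PowerSeries.coeff n (tdt k f) = PowerSeries.derivative k (PowerSeries.coeff n f) :=
  coeff_tcoeffDer _ f n

@[simp] theorem tds_X : tds k (PowerSeries.X : (k⟦X⟧)⟦X⟧) = 1 := PowerSeries.derivative_X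

@[simp] theorem tds_C (a : k⟦X⟧) : tds k (PowerSeries.C a) = 0 := PowerSeries.derivative_C

@[simp] theorem tdt_X : tdt k (PowerSeries.X : (k⟦X⟧)⟦X⟧) = 0 := tcoeffDer_X _

@[simp] theorem tdt_C (a : k⟦X⟧) :
    tdt k (PowerSeries.C a) = PowerSeries.C (PowerSeries.derivative k a) := tcoeffDer_C _ a

theorem tdt_t : tdt k (PowerSeries.C PowerSeries.X) = 1 := by simp

theorem tds_coe (p : Polynomial (k⟦X⟧)) :
    tds k (p : (k⟦X⟧)⟦X⟧) = ((Polynomial.derivative p : Polynomial (k⟦X⟧)) : (k⟦X⟧)⟦X⟧) :=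
  PowerSeries.derivative_coe p

theorem tdt_coe (p : Polynomial (k⟦X⟧)) :
    tdt k (p : (k⟦X⟧)⟦X⟧)
      = ((tcoeffDerPoly (PowerSeries.derivative k) p : Polynomial (k⟦X⟧)) : (k⟦X⟧)⟦X⟧) :=
  tcoeffDer_coe _ p

/-- the two partial derivatives commute -/
theorem tds_tdt_comm (f : (k⟦X⟧)⟦X⟧) : tds k (tdt k f) = tdt k (tds k f) := by
  ext n
  rw [coeff_tds, coeff_tdt, coeff_tdt, coeff_tds]
  have h : ((n : k⟦X⟧) + 1) = PowerSeries.C ((n : k) + 1) := by simp
  rw [h, Derivation.leibniz, PowerSeries.derivative_C]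
  simp [mul_comm]

theorem tbeta_pderiv_zero (p : MvPowerSeries (Fin 2) k) :
    tbeta k (MvPowerSeries.pderiv k 0 p) = tds k (tbeta k p) := by
  ext i j
  rw [coeff_coeff_tbeta, MvPowerSeries.coeff_pderiv, coeff_tds]
  have h : ((i : k⟦X⟧) + 1) = PowerSeries.C ((i : k) + 1) := by simp
  rw [h, mul_comm (PowerSeries.coeff (i + 1) _), PowerSeries.coeff_C_mul, coeff_coeff_tbeta]
  have h2 : tbIdx i j + Finsupp.single 0 1 = tbIdx (i + 1) j := by
    ext a
    fin_cases a <;> simp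
  rw [h2]
  simp [mul_comm]

theorem tbeta_pderiv_one (p : MvPowerSeries (Fin 2) k) :
    tbeta k (MvPowerSeries.pderiv k 1 p) = tdt k (tbeta k p) := by
  ext i j
  rw [coeff_coeff_tbeta, MvPowerSeries.coeff_pderiv, coeff_tdt, PowerSeries.coeff_derivative,
    coeff_coeff_tbeta]
  have h2 : tbIdx i j + Finsupp.single 1 1 = tbIdx i (j + 1) := by
    ext a
    fin_cases a <;> simp
  rw [h2]
  simp

end Partial

end Claimed.Agent.R246.T
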