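import Mathlib
import Claimed.Agent.R246.DS6
import Claimed.Agent.R246.T.Bridge

/-!
# Row 246, Theorem T: `k⟦t⟧⟦s⟧` as a `DSBase` with the explicit data `x = ![s, t]`, `d = ![tds, tdt]`
-/

set_option autoImplicit false

namespace Claimed.Agent.R246

open scoped PowerSeries

variable (k : Type*) [Field k] [CharZero k]

/-- auxiliary: transport of `dsBaseMv` along `tbeta` -/
noncomputable def dsBaseT0 : DSBase k (k⟦X⟧)⟦X⟧ := (dsBaseMv k).transport (T.tbeta k)

theorem dsBaseT0_x : (dsBaseT0 k).x = ![PowerSeries.X, PowerSeries.C PowerSeries.X] := by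
  funext i
  fin_cases i
  · exact T.tbeta_X_zero k
  · exact T.tbeta_X_one k

theorem dsBaseT0_d : (dsBaseT0 k).d = ![T.tds k, T.tdt k] := by
  funext i
  ext1 f
  obtain ⟨p, rfl⟩ := (T.tbeta k).surjective f
  have h : (dsBaseT0 k).d i (T.tbeta k p) = T.tbeta k ((dsBaseMv k).d i p) := by
    have hd : ∀ x, T.tbeta k x = 0 → T.tbeta k ((dsBaseMv k).d i x) = 0 := by
      intro x hx
      have : x = 0 := by simpa using hx
      rw [this]; simp
    exact Derivation.liftOfSurjective_apply (f := T.tbeta k) (T.tbeta k).surjective hd p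
  rw [h]
  fin_cases i
  · exact T.tbeta_pderiv_zero k p
  · exact T.tbeta_pderiv_one k p

/-- **`k⟦t⟧⟦s⟧` as a `DSBase`**, `x = ![s, t]`, `d = ![∂/∂s, ∂/∂t]`. -/
noncomputable def dsBaseT : DSBase k (k⟦X⟧)⟦X⟧ where
  x := ![PowerSeries.X, PowerSeries.C PowerSeries.X]
  d := ![T.tds k, T.tdt k]
  d_x := by
    have := (dsBaseT0 k).d_x
    rwa [dsBaseT0_x, dsBaseT0_d] at this
  approx := by
    have := (dsBaseT0 k).approx
    rwa [dsBaseT0_x] at this
  simple := by
    have := (dsBaseT0 k).simple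
    rwa [dsBaseT0_d] at this
  jac := by
    have := (dsBaseT0 k).jac
    rwa [dsBaseT0_x] at this

@[simp] theorem dsBaseT_x_zero : (dsBaseT k).x 0 = PowerSeries.X := rfl
@[simp] theorem dsBaseT_x_one : (dsBaseT k).x 1 = PowerSeries.C PowerSeries.X := rfl
@[simp] theorem dsBaseT_d_zero : (dsBaseT k).d 0 = T.tds k := rfl
@[simp] theorem dsBaseT_d_one : (dsBaseT k).d 1 = T.tdt k := rfl

theorem dsBaseT_comm (a a' : Fin 2) (p : (k⟦X⟧)⟦X⟧) :
    (dsBaseT k).d a ((dsBaseT k).d a' p) = (dsBaseT k).d a' ((dsBaseT k).d a p) := by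
  fin_cases a <;> fin_cases a'
  · rfl
  · exact T.tds_tdt_comm k p
  · exact (T.tds_tdt_comm k p).symm
  · rfl

end Claimed.Agent.R246
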