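import Mathlib
import Claimed.Agent.R246.FreeRegPair

/-!
# Row 246, Theorem T, module SC (end): a finite free algebra over a local ring with a point has a basis
containing `1`
-/

set_option autoImplicit false

namespace Claimed.Agent.R246

open Matrix

/-- replace the `j`-th vector of a basis by a vector whose `j`-th coordinate is a unit -/
theorem lzt_exists_basis_update {P A ι : Type*} [CommRing P] [AddCommGroup A] [Module P A]
    [Fintype ι] [DecidableEq ι] (c : Module.Basis ι P A) (j : ι) (x : A) (hx : IsUnit (c.repr x j)) :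
    ∃ b : Module.Basis ι P A, b j = x ∧ ∀ i, i ≠ j → b i = c i := by
  have hdet : c.det (Function.update c j x) = c.repr x j := by
    rw [Module.Basis.det_apply, Module.Basis.toMatrix_update, Module.Basis.toMatrix_self,
      ← Matrix.cramer_apply, Matrix.cramer_one]
    rfl
  have hu : IsUnit (c.det (Function.update c j x)) := by rw [hdet]; exact hx
  obtain ⟨hli, hsp⟩ := (Module.Basis.is_basis_iff_det c).mpr hu
  refine ⟨Module.Basis.mk hli hsp.ge, ?_, ?_⟩
  · simp
  · intro i hi
    simp [Function.update_of_ne hi]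

/-- **a basis containing `1`** -/
theorem lzt_exists_basis_one {P A k : Type*} [CommRing P] [IsLocalRing P] [CommRing A] [Algebra P A]
    [Module.Free P A] [Module.Finite P A] [CommRing k] [Nontrivial k] (ev : A →+* k)
    (hev : ∀ p : P, ¬ IsUnit p → ev (algebraMap P A p) = 0) :
    ∃ (n : ℕ) (_ : NeZero n) (b : Module.Basis (Fin n) P A), b 0 = 1 := by
  classical
  let c := Module.finBasis P A
  have h1 : ∃ j, IsUnit (c.repr (1 : A) j) := by
    by_contra hcon
    push Not at hcon
    have h2 : ev 1 = 0 := by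
      conv_lhs => rw [← c.sum_repr (1 : A)]
      rw [map_sum]
      refine Finset.sum_eq_zero fun i _ => ?_
      rw [Algebra.smul_def, map_mul, hev _ (hcon i), zero_mul]
    rw [map_one] at h2
    exact one_ne_zero h2
  obtain ⟨j, hj⟩ := h1
  obtain ⟨b, hb, -⟩ := lzt_exists_basis_update c j 1 hj
  have hn : NeZero (Module.finrank P A) := ⟨fun h0 => by
    have : Fin (Module.finrank P A) := j
    rw [h0] at this
    exact this.elim0⟩
  refine ⟨Module.finrank P A, hn, b.reindex (Equiv.swap j 0), ?_⟩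
  rw [Module.Basis.reindex_apply]
  simp [hb]

open scoped PowerSeries in
/-- the case `P = k⟦t⟧⟦s⟧` -/
theorem lzt_exists_basis_one_nested {k A : Type*} [Field k] [CommRing A] [Algebra (k⟦X⟧)⟦X⟧ A]
    [Module.Free (k⟦X⟧)⟦X⟧ A] [Module.Finite (k⟦X⟧)⟦X⟧ A] (ev : A →+* k)
    (hs : ev (algebraMap (k⟦X⟧)⟦X⟧ A PowerSeries.X) = 0)
    (ht : ev (algebraMap (k⟦X⟧)⟦X⟧ A (PowerSeries.C PowerSeries.X)) = 0) :
    ∃ (n : ℕ) (_ : NeZero n) (b : Module.Basis (Fin n) (k⟦X⟧)⟦X⟧ A), b 0 = 1 := by
  apply lzt_exists_basis_one ev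
  intro p hp
  have hm : p ∈ IsLocalRing.maximalIdeal (k⟦X⟧)⟦X⟧ := (IsLocalRing.mem_maximalIdeal p).mpr hp
  rw [frp_maximalIdeal_nested, Ideal.mem_span_pair] at hm
  obtain ⟨a, b, rfl⟩ := hm
  simp [hs, ht]

end Claimed.Agent.R246
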