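import Mathlib

/-!
# Row 246, Theorem T, toolbox item CO (coordinates)

`tau k l` : the `k`-algebra automorphism `s ↦ s`, `t ↦ t + l s` of `P^ = (k⟦X⟧)⟦X⟧` (`s = X`, `t = C X`).
`exists_tau_regular` : for `g ≠ 0` some `tau k l g` is regular in `s`, i.e. `g(s, l s) ≠ 0`.
-/

set_option autoImplicit false

namespace Claimed.Agent.R246.T

open MvPowerSeries

variable (k : Type) [Field k]

/-- the substitution `s ↦ s`, `t ↦ t + l s` (`s = X none`, `t = X (some ())`) -/
noncomputable def coB (l : k) : Option Unit → MvPowerSeries (Option Unit) k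
  | none => X none
  | some u => X (some u) + C l * X none

theorem coB_hasSubst (l : k) : HasSubst (coB k l) :=
  hasSubst_of_constantCoeff_zero (by rintro (_ | _) <;> simp [coB])

noncomputable def coHom (l : k) :
    MvPowerSeries (Option Unit) k →ₐ[k] MvPowerSeries (Option Unit) k :=
  substAlgHom (coB_hasSubst k l)

theorem coHom_apply (l : k) (f : MvPowerSeries (Option Unit) k) :
    coHom k l f = subst (coB k l) f := by
  rw [coHom, substAlgHom_apply]

theorem coHom_comp (l m : k) : (coHom k l).comp (coHom k m) = coHom k (l + m) := by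
  apply AlgHom.ext
  intro f
  rw [AlgHom.comp_apply, coHom_apply, coHom_apply, coHom_apply,
    subst_comp_subst_apply (coB_hasSubst k m) (coB_hasSubst k l)]
  congr 1
  funext s
  rcases s with _ | u
  · simp only [coB]
    rw [subst_X (coB_hasSubst k l)]
    rfl
  · simp only [coB]
    rw [subst_add (coB_hasSubst k l), subst_mul (coB_hasSubst k l), subst_X (coB_hasSubst k l),
      subst_X (coB_hasSubst k l), subst_C]
    simp only [coB, map_add]
    ring

theorem coHom_zero : coHom k 0 = AlgHom.id k _ := by
  apply AlgHom.ext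
  intro f
  rw [coHom_apply]
  have : coB k 0 = (X : Option Unit → MvPowerSeries (Option Unit) k) := by
    funext s
    rcases s with _ | u <;> simp [coB]
  rw [this, subst_self]
  rfl

noncomputable def coEquivMv (l : k) :
    MvPowerSeries (Option Unit) k ≃ₐ[k] MvPowerSeries (Option Unit) k :=
  AlgEquiv.ofAlgHom (coHom k l) (coHom k (-l))
    (by rw [coHom_comp, add_neg_cancel, coHom_zero])
    (by rw [coHom_comp, neg_add_cancel, coHom_zero])

/-- `tau k l` : `s ↦ s`, `t ↦ t + l s` on `(k⟦X⟧)⟦X⟧`, `s = X`, `t = C X`. -/
noncomputable def tau (l : k) :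
    PowerSeries (PowerSeries k) ≃ₐ[k] PowerSeries (PowerSeries k) :=
  (optionEquivLeft Unit k).symm.trans ((coEquivMv k l).trans (optionEquivLeft Unit k))

theorem tau_apply (l : k) (g : PowerSeries (PowerSeries k)) :
    tau k l g = optionEquivLeft Unit k (subst (coB k l) ((optionEquivLeft Unit k).symm g)) := by
  rw [← coHom_apply]
  rfl

theorem tau_symm (l : k) : (tau k l).symm = tau k (-l) := by
  apply AlgEquiv.ext
  intro g
  rw [AlgEquiv.symm_apply_eq]
  have h : coHom k l (coHom k (-l) ((optionEquivLeft Unit k).symm g)) =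
      (optionEquivLeft Unit k).symm g := by
    rw [← AlgHom.comp_apply, coHom_comp, add_neg_cancel, coHom_zero]
    rfl
  rw [tau_apply, tau_apply, AlgEquiv.symm_apply_apply, ← coHom_apply, ← coHom_apply, h,
    AlgEquiv.apply_symm_apply]

theorem tau_X (l : k) : tau k l PowerSeries.X = PowerSeries.X := by
  rw [tau_apply, ← optionEquivLeft_X_none (σ := Unit) (R := k), AlgEquiv.symm_apply_apply,
    subst_X (coB_hasSubst k l)]
  rfl

theorem tau_C_X (l : k) :
    tau k l (PowerSeries.C (PowerSeries.X : PowerSeries k)) =
      PowerSeries.C (PowerSeries.X : PowerSeries k) +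
        PowerSeries.C (PowerSeries.C l) * PowerSeries.X := by
  have h1 : (PowerSeries.C (PowerSeries.X : PowerSeries k) : PowerSeries (PowerSeries k)) =
      optionEquivLeft Unit k (X (some ())) := (optionEquivLeft_X_some (σ := Unit) (R := k) ()).symm
  rw [tau_apply, h1, AlgEquiv.symm_apply_apply, subst_X (coB_hasSubst k l)]
  simp only [coB, map_add, map_mul, optionEquivLeft_X_none, optionEquivLeft_C]
  rfl

/-- `coPsi f = f(s, 0)` -/
noncomputable def coPsi : MvPowerSeries (Option Unit) k →+* PowerSeries k :=
  (PowerSeries.map (PowerSeries.constantCoeff (R := k))).comp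
    (optionEquivLeft Unit k : MvPowerSeries (Option Unit) k →+* PowerSeries (PowerSeries k))

theorem coPsi_apply (f : MvPowerSeries (Option Unit) k) :
    coPsi k f = (optionEquivLeft Unit k f).map (PowerSeries.constantCoeff (R := k)) := rfl

theorem coeff_coPsi (f : MvPowerSeries (Option Unit) k) (n : ℕ) :
    PowerSeries.coeff n (coPsi k f) = coeff ((0 : Unit →₀ ℕ).optionElim n) f := by
  rw [coPsi_apply, PowerSeries.coeff_map, ← coeff_coeff_optionEquivLeft]
  rfl

theorem coPsi_X_none : coPsi k (X none) = PowerSeries.X := by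
  rw [coPsi_apply, optionEquivLeft_X_none, PowerSeries.map_X]

theorem coPsi_X_some (u : Unit) : coPsi k (X (some u)) = 0 := by
  rw [coPsi_apply, optionEquivLeft_X_some, PowerSeries.map_C]
  have : PowerSeries.constantCoeff (R := k) (X u : MvPowerSeries Unit k) = 0 :=
    PowerSeries.constantCoeff_X
  rw [this, map_zero]

theorem coPsi_C (a : k) : coPsi k (C a) = PowerSeries.C a := by
  rw [coPsi_apply, optionEquivLeft_C, PowerSeries.map_C]
  congr 1

theorem coPsi_prod (l : k) (d : Option Unit →₀ ℕ) :
    coPsi k (d.prod fun s e => coB k l s ^ e) =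
      PowerSeries.C (l ^ d (some ())) * PowerSeries.X ^ (d none + d (some ())) := by
  rw [Finsupp.prod_fintype _ _ (fun i => pow_zero _), Fintype.prod_option, Fintype.prod_unique]
  simp only [coB, map_mul, map_pow, map_add, coPsi_X_none, coPsi_X_some, coPsi_C, zero_add,
    mul_pow]
  ring

theorem coeff_coPsi_subst (l : k) (f : MvPowerSeries (Option Unit) k) (n : ℕ) :
    PowerSeries.coeff n (coPsi k (subst (coB k l) f)) =
      finsum fun d : Option Unit →₀ ℕ =>
        coeff d f * (if d none + d (some ()) = n then l ^ d (some ()) else 0) := by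
  rw [coeff_coPsi, coeff_subst (coB_hasSubst k l)]
  congr 1
  funext d
  rw [smul_eq_mul, ← coeff_coPsi, coPsi_prod, PowerSeries.coeff_C_mul, PowerSeries.coeff_X_pow]
  by_cases h : d none + d (some ()) = n
  · rw [if_pos h, if_pos h.symm, mul_one]
  · rw [if_neg h, if_neg (fun h' => h h'.symm), mul_zero]

/-- the exponent of `s ^ i * t ^ j` -/
noncomputable def coD (i j : ℕ) : Option Unit →₀ ℕ := (Finsupp.single () j).optionElim i

theorem coD_none (i j : ℕ) : coD i j none = i := by simp [coD]

theorem coD_some (i j : ℕ) : coD i j (some ()) = j := by simp [coD]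

theorem eq_coD (d : Option Unit →₀ ℕ) : d = coD (d none) (d (some ())) := by
  ext s
  rcases s with _ | u
  · rw [coD_none]
  · rw [coD_some]

theorem coeff_coPsi_subst' (l : k) (f : MvPowerSeries (Option Unit) k) (n : ℕ) :
    PowerSeries.coeff n (coPsi k (subst (coB k l) f)) =
      ∑ j ∈ Finset.range (n + 1), coeff (coD (n - j) j) f * l ^ j := by
  classical
  rw [coeff_coPsi_subst,
    finsum_eq_sum_of_support_subset (s := (Finset.range (n + 1)).image fun j => coD (n - j) j)]
  · rw [Finset.sum_image]
    · refine Finset.sum_congr rfl fun j hj => ?_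
      have hj' : j ≤ n := Nat.lt_succ_iff.1 (Finset.mem_range.1 hj)
      rw [coD_none, coD_some, if_pos (Nat.sub_add_cancel hj')]
    · intro a _ b _ hab
      have := congrArg (fun d : Option Unit →₀ ℕ => d (some ())) hab
      simpa [coD_some] using this
  · intro d hd
    rw [Function.mem_support] at hd
    have h : d none + d (some ()) = n := by
      by_contra h
      exact hd (by rw [if_neg h, mul_zero])
    rw [Finset.coe_image, Set.mem_image]
    refine ⟨d (some ()), ?_, ?_⟩
    · rw [Finset.mem_coe, Finset.mem_range]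
      omega
    · have : n - d (some ()) = d none := by omega
      rw [this]
      exact (eq_coD d).symm

theorem exists_regular_mv [Infinite k] (f : MvPowerSeries (Option Unit) k) (hf : f ≠ 0) :
    ∃ l : k, coPsi k (subst (coB k l) f) ≠ 0 := by
  by_contra hcon
  simp only [not_exists, not_not] at hcon
  apply hf
  have key : ∀ n j : ℕ, j ≤ n → coeff (coD (n - j) j) f = 0 := by
    intro n j hj
    set p : Polynomial k := ∑ j ∈ Finset.range (n + 1),
      Polynomial.C (coeff (coD (n - j) j) f) * Polynomial.X ^ j with hp
    have hp0 : p = 0 := by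
      apply Polynomial.funext
      intro l
      rw [Polynomial.eval_zero, hp, Polynomial.eval_finsetSum]
      have := coeff_coPsi_subst' k l f n
      rw [hcon l, map_zero] at this
      rw [this]
      refine Finset.sum_congr rfl fun j _ => ?_
      simp
    have hc : p.coeff j = coeff (coD (n - j) j) f := by
      rw [hp, Polynomial.finsetSum_coeff]
      simp only [Polynomial.coeff_C_mul_X_pow]
      rw [Finset.sum_eq_single j]
      · simp
      · intro b _ hb
        rw [if_neg (fun h => hb h.symm)]
      · intro h
        exact absurd (Finset.mem_range.2 (Nat.lt_succ_of_le hj)) h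
    rw [← hc, hp0, Polynomial.coeff_zero]
  ext d
  have := key (d none + d (some ())) (d (some ())) (Nat.le_add_left _ _)
  rw [Nat.add_sub_cancel, ← eq_coD] at this
  rw [this, map_zero]

/-- CO: for `g ≠ 0` there is `l` with `(tau l g)(s, 0) = g(s, l s) ≠ 0`. -/
theorem exists_tau_regular [Infinite k] (g : PowerSeries (PowerSeries k)) (hg : g ≠ 0) :
    ∃ l : k, (tau k l g).map (PowerSeries.constantCoeff (R := k)) ≠ 0 := by
  obtain ⟨l, hl⟩ := exists_regular_mv k ((optionEquivLeft Unit k).symm g)
    (by simpa using hg)
  refine ⟨l, ?_⟩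
  rw [tau_apply, ← coPsi_apply]
  exact hl

/-- the same with the residue map of the local ring `k⟦X⟧` (the form used by Mathlib's Weierstrass theorems) -/
theorem exists_tau_regular' [Infinite k] (g : PowerSeries (PowerSeries k)) (hg : g ≠ 0) :
    ∃ l : k, (tau k l g).map (IsLocalRing.residue (PowerSeries k)) ≠ 0 := by
  obtain ⟨l, hl⟩ := exists_tau_regular k g hg
  refine ⟨l, fun h => hl ?_⟩
  ext n
  have h1 := congrArg (PowerSeries.coeff n) h
  rw [PowerSeries.coeff_map, map_zero, IsLocalRing.residue_eq_zero_iff,
    ← PowerSeries.ker_coeff_eq_max_ideal, RingHom.mem_ker] at h1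
  rw [PowerSeries.coeff_map, h1, map_zero]

end Claimed.Agent.R246.T
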