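import Claimed.Agent.R246.T.Pert

/-!
# Row 246, Theorem T: descent of the package to a small subring

A package `LztPkg` over `B` involves only finitely many elements of `B`: there is a finite set `F ⊆ B` such that
the package descends along every injective ring hom `φ : B0 → B` whose range contains `F`
(and through which `M`, `x`, `y` factor).
Used twice in Theorem T: `P_1 → S[s][1/u]` (before the Artin hom `ψ`), and `P_2 → P_3` (step E2).
-/

set_option autoImplicit false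
set_option linter.unusedSectionVars false

namespace Claimed.Agent.R246

open Matrix

universe v

/-- finitely many coefficients suffice for a membership in a span -/
theorem lzt_span_desc {B : Type*} [CommRing B] (S : Set B) {z : B} (hz : z ∈ Ideal.span S) :
    ∃ F : Finset B, ∀ (B0 : Type v) [CommRing B0] (φ : B0 →+* B) (S0 : Set B0),
      (∀ s ∈ S, ∃ s0 ∈ S0, φ s0 = s) → (∀ b ∈ F, ∃ b0, φ b0 = b) →
      ∃ z0 ∈ Ideal.span S0, φ z0 = z := by
  classical
  refine Submodule.span_induction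
    (p := fun z _ => ∃ F : Finset B, ∀ (B0 : Type v) [CommRing B0] (φ : B0 →+* B) (S0 : Set B0),
      (∀ s ∈ S, ∃ s0 ∈ S0, φ s0 = s) → (∀ b ∈ F, ∃ b0, φ b0 = b) →
      ∃ z0 ∈ Ideal.span S0, φ z0 = z) ?_ ?_ ?_ ?_ hz
  · intro s hs
    refine ⟨∅, fun B0 _ φ S0 hS _ => ?_⟩
    obtain ⟨s0, hs0, h⟩ := hS s hs
    exact ⟨s0, Ideal.subset_span hs0, h⟩
  · exact ⟨∅, fun B0 _ φ S0 _ _ => ⟨0, Ideal.zero_mem _, map_zero φ⟩⟩
  · rintro a b _ _ ⟨Fa, ha⟩ ⟨Fb, hb⟩
    refine ⟨Fa ∪ Fb, fun B0 _ φ S0 hS hF => ?_⟩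
    obtain ⟨a0, ha0, ha1⟩ := ha B0 φ S0 hS fun b hb => hF b (Finset.mem_union_left _ hb)
    obtain ⟨b0, hb0, hb1⟩ := hb B0 φ S0 hS fun b hb => hF b (Finset.mem_union_right _ hb)
    exact ⟨a0 + b0, Ideal.add_mem _ ha0 hb0, by rw [map_add, ha1, hb1]⟩
  · rintro c a _ ⟨Fa, ha⟩
    refine ⟨insert c Fa, fun B0 _ φ S0 hS hF => ?_⟩
    obtain ⟨a0, ha0, ha1⟩ := ha B0 φ S0 hS fun b hb => hF b (Finset.mem_insert_of_mem hb)
    obtain ⟨c0, hc0⟩ := hF c (Finset.mem_insert_self _ _)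
    exact ⟨c0 * a0, Ideal.mul_mem_left _ _ ha0, by rw [map_mul, ha1, hc0, smul_eq_mul]⟩

section Desc

variable {k B m q L : Type*} [CommRing k] [CommRing B]
  [Fintype m] [Fintype q] [DecidableEq q] [Finite L] {ι : Type*} [Fintype ι] [DecidableEq ι]

/-- **DESC.**  The package descends to every subring containing a certain finite set. -/
theorem lzt_desc {M : Matrix m q B} {ev : B →+* k} {x : Fin 2 → B} {y : L → B} {c0 N0 M0 : ℕ}
    (h : LztPkg ι M ev x y c0 N0 M0) :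
    ∃ F : Finset B, ∀ (B0 : Type v) [CommRing B0] (φ : B0 →+* B), Function.Injective φ →
      ∀ (Ms : Matrix m q B0) (xs : Fin 2 → B0) (ys : L → B0),
      (∀ i j, φ (Ms i j) = M i j) → (∀ a, φ (xs a) = x a) → (∀ l, φ (ys l) = y l) →
      (∀ b ∈ F, ∃ b0, φ b0 = b) →
      LztPkg ι Ms (ev.comp φ) xs ys c0 N0 M0 := by
  classical
  cases nonempty_fintype L
  obtain ⟨u, hu, hJ⟩ := h.jac
  obtain ⟨vv, hMv, hevv, uW, huW, hW⟩ := h.frame
  choose u5 hu5 h5 using h.nil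
  choose FJ hFJ using fun a => lzt_span_desc.{v} _ (hJ a)
  choose FW hFW using fun a => lzt_span_desc.{v} _ (hW a)
  choose F5 hF5 using fun l => lzt_span_desc.{v} _ (h5 l)
  refine ⟨{u, uW} ∪ (Finset.univ.biUnion FJ) ∪ (Finset.univ.biUnion FW) ∪ (Finset.univ.biUnion F5)
    ∪ (Finset.univ.image fun p : Fin 2 × q => vv p.1 p.2) ∪ (Finset.univ.image u5), ?_⟩
  intro B0 _ φ hφ Ms xs ys hMs hxs hys hF
  have hF1 : ∀ b ∈ ({u, uW} : Finset B), ∃ b0, φ b0 = b := fun b hb => hF b (by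
    simp only [Finset.mem_union]; tauto)
  have hF2 : ∀ a, ∀ b ∈ FJ a, ∃ b0, φ b0 = b := fun a b hb => hF b (by
    have : b ∈ Finset.univ.biUnion FJ := Finset.mem_biUnion.2 ⟨a, Finset.mem_univ _, hb⟩
    simp only [Finset.mem_union]; tauto)
  have hF3 : ∀ a, ∀ b ∈ FW a, ∃ b0, φ b0 = b := fun a b hb => hF b (by
    have : b ∈ Finset.univ.biUnion FW := Finset.mem_biUnion.2 ⟨a, Finset.mem_univ _, hb⟩
    simp only [Finset.mem_union]; tauto)
  have hF4 : ∀ l, ∀ b ∈ F5 l, ∃ b0, φ b0 = b := fun l b hb => hF b (by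
    have : b ∈ Finset.univ.biUnion F5 := Finset.mem_biUnion.2 ⟨l, Finset.mem_univ _, hb⟩
    simp only [Finset.mem_union]; tauto)
  have hF5' : ∀ i z, ∃ b0, φ b0 = vv i z := fun i z => hF _ (by
    have : vv i z ∈ Finset.univ.image fun p : Fin 2 × q => vv p.1 p.2 :=
      Finset.mem_image.2 ⟨(i, z), Finset.mem_univ _, rfl⟩
    simp only [Finset.mem_union]; tauto)
  have hF6 : ∀ l, ∃ b0, φ b0 = u5 l := fun l => hF _ (by
    have : u5 l ∈ Finset.univ.image u5 := Finset.mem_image.2 ⟨l, Finset.mem_univ _, rfl⟩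
    simp only [Finset.mem_union]; tauto)
  obtain ⟨us, hus⟩ := hF1 u (by simp)
  obtain ⟨uWs, huWs⟩ := hF1 uW (by simp)
  choose vs hvs using hF5'
  choose u5s hu5s using hF6
  refine ⟨fun a => by simp [hxs, h.ev_x], ⟨us, by simpa [hus] using hu, fun a => ?_⟩,
    ⟨vs, fun i => ?_, fun i z => by simp [hvs, hevv], uWs, by simpa [huWs] using huW, fun a => ?_⟩,
    fun l => ⟨u5s l, by simpa [hu5s] using hu5 l, ?_⟩⟩
  · obtain ⟨z0, hz0, hz⟩ := hFJ a B0 φ {d | ∃ (I : ι → m) (J : ι → q), d = (Ms.submatrix I J).det}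
      (by
        rintro _ ⟨I, J, rfl⟩
        refine ⟨_, ⟨I, J, rfl⟩, ?_⟩
        rw [RingHom.map_det]
        congr 1
        ext a b
        simp [hMs]) (hF2 a)
    have : us * xs a ^ c0 = z0 := hφ (by simp [hz, hus, hxs])
    rw [this]
    exact hz0
  · funext j
    apply hφ
    have h1 : (M *ᵥ vv i) j = 0 := by rw [hMv i]; rfl
    simp only [Pi.zero_apply, map_zero]
    rw [← h1]
    simp [Matrix.mulVec, dotProduct, hMs, hvs]
  · obtain ⟨z0, hz0, hz⟩ := hFW a B0 φ {d | ∃ z z' : q, d = vs 0 z * vs 1 z' - vs 0 z' * vs 1 z}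
      (by
        rintro _ ⟨z, z', rfl⟩
        exact ⟨_, ⟨z, z', rfl⟩, by simp [hvs]⟩) (hF3 a)
    have : uWs * xs a ^ N0 = z0 := hφ (by simp [hz, huWs, hxs])
    rw [this]
    exact hz0
  · obtain ⟨z0, hz0, hz⟩ := hF5 l B0 φ (Set.range xs)
      (by
        rintro _ ⟨a, rfl⟩
        exact ⟨_, ⟨a, rfl⟩, hxs a⟩) (hF4 l)
    have : u5s l * ys l ^ M0 = z0 := hφ (by simp [hz, hu5s, hys])
    rw [this]
    exact hz0

end Desc

end Claimed.Agent.R246
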