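import Mathlib
import Claimed.Agent.R246.TLift

/-!
# Row 246, Theorem T (blueprint of helper350, `R246_T.md`), module JAC: the Jacobian matrix

Setting: `A` a commutative `P`-algebra with a finite basis `b : Module.Basis I P A`,
`d : J → Derivation k P P` a finite family of derivations of `P` (for us `J = Fin 2`, `d_s`, `d_t`).

* `jacOp b d v : A →ₗ[k] A` for `v : J ⊕ I → A`: the operator
  `x = ∑ p_l b_l ↦ ∑_a v_a * ∑_l d_a(p_l) b_l + ∑_l v_l * p_l`.
* `jacDefect φ x y = φ x * y + x * φ y - φ (x * y)`: the Leibniz defect.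
* `jacMat b d : Matrix (I × I) (J ⊕ I) A`, with `(jacMat b d *ᵥ v) (i,j) = jacDefect (jacOp b d v) (b i) (b j)`.
* `jacDer` (JAC1): `jacMat b d *ᵥ v = 0` gives a derivation; `jacMat_mulVec_of_derivation` (JAC2): the converse.
-/

set_option autoImplicit false
set_option linter.unusedSectionVars false

namespace Claimed.Agent.R246

open Finset Matrix

section Jac

variable {k P A I J : Type*} [CommRing k] [CommRing P] [CommRing A] [Algebra k P] [Algebra P A]
  [Algebra k A] [IsScalarTower k P A] [Fintype I] [DecidableEq I] [Fintype J] [DecidableEq J]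

/-- the Leibniz defect of a map -/
def jacDefect (φ : A → A) (x y : A) : A := φ x * y + x * φ y - φ (x * y)

variable (b : Module.Basis I P A) (d : J → Derivation k P P)

/-- coefficientwise derivative w.r.t. the basis `b` -/
noncomputable def jacNabla (a : J) (x : A) : A := ∑ l, algebraMap P A (d a (b.repr x l)) * b l

theorem jacNabla_add (a : J) (x y : A) :
    jacNabla b d a (x + y) = jacNabla b d a x + jacNabla b d a y := by
  simp only [jacNabla, map_add, Finsupp.add_apply, add_mul, Finset.sum_add_distrib]

theorem jacNabla_smul (a : J) (p : P) (x : A) :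
    jacNabla b d a (p • x) = algebraMap P A p * jacNabla b d a x + algebraMap P A (d a p) * x := by
  have hx : algebraMap P A (d a p) * x = ∑ l, algebraMap P A (d a p) * (algebraMap P A (b.repr x l) * b l) := by
    conv_lhs => rw [← b.sum_repr x, Finset.mul_sum]
    simp only [Algebra.smul_def]
  rw [hx]
  simp only [jacNabla, map_smul, Finsupp.smul_apply, smul_eq_mul, Derivation.leibniz, map_add,
    map_mul, Finset.mul_sum, ← Finset.sum_add_distrib]
  refine Finset.sum_congr rfl fun l _ => ?_
  ring

theorem jacNabla_basis (a : J) (i : I) : jacNabla b d a (b i) = 0 := by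
  simp only [jacNabla, b.repr_self, Finsupp.single_apply]
  refine Finset.sum_eq_zero fun l _ => ?_
  split_ifs <;> simp

theorem jacNabla_repr (a : J) (x : A) (l : I) : b.repr (jacNabla b d a x) l = d a (b.repr x l) := by
  simp only [jacNabla, ← Algebra.smul_def, map_sum, map_smul, b.repr_self, Finsupp.finsetSum_apply,
    Finsupp.smul_apply, Finsupp.single_apply, smul_eq_mul]
  rw [Finset.sum_eq_single l]
  · simp
  · intro i _ hi; simp [hi]
  · intro h; exact absurd (Finset.mem_univ _) h

/-- the symbol of the operator `jacOp b d v` -/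
noncomputable def jacSymb (w : J → A) (p : P) : A := ∑ a, w a * algebraMap P A (d a p)

/-- the operator attached to a vector `v` -/
noncomputable def jacFun (v : J ⊕ I → A) (x : A) : A :=
  ∑ a, v (Sum.inl a) * jacNabla b d a x + ∑ l, v (Sum.inr l) * algebraMap P A (b.repr x l)

theorem jacFun_add (v : J ⊕ I → A) (x y : A) :
    jacFun b d v (x + y) = jacFun b d v x + jacFun b d v y := by
  simp only [jacFun, jacNabla_add, map_add, Finsupp.add_apply, mul_add, Finset.sum_add_distrib]
  ring

theorem jacFun_smul (v : J ⊕ I → A) (p : P) (x : A) :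
    jacFun b d v (p • x)
      = algebraMap P A p * jacFun b d v x + jacSymb d (fun a => v (Sum.inl a)) p * x := by
  simp only [jacFun, jacSymb, jacNabla_smul, map_smul, Finsupp.smul_apply, smul_eq_mul, map_mul,
    mul_add, Finset.sum_add_distrib, Finset.mul_sum, Finset.sum_mul]
  have h1 : ∀ a, v (Sum.inl a) * (algebraMap P A p * jacNabla b d a x)
      = algebraMap P A p * (v (Sum.inl a) * jacNabla b d a x) := fun a => by ring
  have h2 : ∀ a, v (Sum.inl a) * (algebraMap P A (d a p) * x)
      = v (Sum.inl a) * algebraMap P A (d a p) * x := fun a => by ring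
  have h3 : ∀ l, v (Sum.inr l) * (algebraMap P A p * algebraMap P A (b.repr x l))
      = algebraMap P A p * (v (Sum.inr l) * algebraMap P A (b.repr x l)) := fun l => by ring
  simp only [h1, h2, h3]
  ring

theorem jacFun_basis (v : J ⊕ I → A) (i : I) : jacFun b d v (b i) = v (Sum.inr i) := by
  simp only [jacFun, jacNabla_basis, mul_zero, Finset.sum_const_zero, zero_add, b.repr_self,
    Finsupp.single_apply]
  rw [Finset.sum_eq_single i]
  · simp
  · intro l _ hl; simp [Ne.symm hl]
  · intro h; exact absurd (Finset.mem_univ _) h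

/-- the operator attached to a vector `v`, as a `k`-linear map -/
noncomputable def jacOp (v : J ⊕ I → A) : A →ₗ[k] A where
  toFun := jacFun b d v
  map_add' := jacFun_add b d v
  map_smul' c x := by
    have h : c • x = (algebraMap k P c) • x := by
      rw [algebraMap_smul]
    rw [h, jacFun_smul]
    simp only [jacSymb, Derivation.map_algebraMap, map_zero, mul_zero, Finset.sum_const_zero,
      zero_mul, add_zero, RingHom.id_apply]
    rw [← IsScalarTower.algebraMap_apply, ← Algebra.smul_def]

theorem jacOp_apply (v : J ⊕ I → A) (x : A) : jacOp b d v x = jacFun b d v x := rfl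

theorem jacOp_smul (v : J ⊕ I → A) (p : P) (x : A) :
    jacOp b d v (p • x)
      = algebraMap P A p * jacOp b d v x + jacSymb d (fun a => v (Sum.inl a)) p * x :=
  jacFun_smul b d v p x

theorem jacOp_basis (v : J ⊕ I → A) (i : I) : jacOp b d v (b i) = v (Sum.inr i) :=
  jacFun_basis b d v i

/-- **Uniqueness**: an additive map with symbol `∑ w_a d_a` is `jacOp`. -/
theorem jacOp_unique (Ψ : A → A) (hadd : ∀ x y, Ψ (x + y) = Ψ x + Ψ y) (w : J → A)
    (hs : ∀ (p : P) (x : A), Ψ (p • x) = algebraMap P A p * Ψ x + jacSymb d w p * x) (x : A) :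
    Ψ x = jacOp b d (Sum.elim w (fun l => Ψ (b l))) x := by
  have hsum : ∀ (s : Finset I) (f : I → A), Ψ (∑ l ∈ s, f l) = ∑ l ∈ s, Ψ (f l) := by
    intro s f
    have h0 : Ψ 0 = 0 := by
      have := hadd 0 0
      rw [add_zero] at this
      exact left_eq_add.mp this
    induction s using Finset.induction_on with
    | empty => simpa using h0
    | insert a s ha ih => rw [Finset.sum_insert ha, Finset.sum_insert ha, hadd, ih]
  conv_lhs => rw [← b.sum_repr x, hsum]
  simp only [hs, jacOp_apply, jacFun, Sum.elim_inl, Sum.elim_inr, jacNabla, jacSymb,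
    Finset.sum_add_distrib, Finset.mul_sum, Finset.sum_mul]
  rw [add_comm]
  congr 1
  · rw [Finset.sum_comm]
    refine Finset.sum_congr rfl fun a _ => Finset.sum_congr rfl fun l _ => ?_
    ring
  · refine Finset.sum_congr rfl fun l _ => ?_
    ring

/-! ### the defect of `jacOp` is `P`-bilinear -/

theorem jacDefect_comm (φ : A → A) (x y : A) : jacDefect φ x y = jacDefect φ y x := by
  simp only [jacDefect, mul_comm x y]
  ring

theorem jacDefect_add_left (φ : A → A) (hadd : ∀ x y, φ (x + y) = φ x + φ y) (x x' y : A) :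
    jacDefect φ (x + x') y = jacDefect φ x y + jacDefect φ x' y := by
  simp only [jacDefect, add_mul, hadd]
  ring

theorem jacDefect_smul_left (v : J ⊕ I → A) (p : P) (x y : A) :
    jacDefect (jacOp b d v) (p • x) y = algebraMap P A p * jacDefect (jacOp b d v) x y := by
  simp only [jacDefect, smul_mul_assoc, jacOp_smul]
  simp only [Algebra.smul_def]
  ring

theorem jacDefect_sum_left (φ : A → A) (hadd : ∀ x y, φ (x + y) = φ x + φ y)
    {ι : Type*} (s : Finset ι) (f : ι → A) (y : A) :
    jacDefect φ (∑ l ∈ s, f l) y = ∑ l ∈ s, jacDefect φ (f l) y := by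
  classical
  have h0 : φ 0 = 0 := by
    have := hadd 0 0
    rw [add_zero] at this
    exact left_eq_add.mp this
  induction s using Finset.induction_on with
  | empty => simp [jacDefect, h0]
  | insert a s ha ih => rw [Finset.sum_insert ha, Finset.sum_insert ha, jacDefect_add_left φ hadd, ih]

/-- bilinear expansion of the defect -/
theorem jacDefect_expand (v : J ⊕ I → A) (x y : A) :
    jacDefect (jacOp b d v) x y = ∑ i, ∑ j, algebraMap P A (b.repr x i) * algebraMap P A (b.repr y j)
      * jacDefect (jacOp b d v) (b i) (b j) := by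
  have hadd : ∀ x y, jacOp b d v (x + y) = jacOp b d v x + jacOp b d v y := map_add _
  have h1 : ∀ x y : A, jacDefect (jacOp b d v) x y
      = ∑ i, algebraMap P A (b.repr x i) * jacDefect (jacOp b d v) (b i) y := by
    intro x y
    conv_lhs => rw [← b.sum_repr x, jacDefect_sum_left _ hadd]
    simp only [jacDefect_smul_left]
  rw [h1 x y]
  refine Finset.sum_congr rfl fun i _ => ?_
  rw [jacDefect_comm, h1 y (b i), Finset.mul_sum]
  refine Finset.sum_congr rfl fun j _ => ?_
  rw [jacDefect_comm _ (b j) (b i)]
  ring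

/-! ### the Jacobian matrix -/

/-- **The Jacobian matrix** `M(c)` of the blueprint: rows `(i,j)`, columns `d_a` (`a : J`) and `Y_l` (`l : I`). -/
noncomputable def jacMat : Matrix (I × I) (J ⊕ I) A := fun ij z =>
  match z with
  | Sum.inl a => - jacNabla b d a (b ij.1 * b ij.2)
  | Sum.inr l => (if ij.1 = l then b ij.2 else 0) + (if ij.2 = l then b ij.1 else 0)
      - algebraMap P A (b.repr (b ij.1 * b ij.2) l)

theorem jacMat_inl (i j : I) (a : J) :
    jacMat b d (i, j) (Sum.inl a) = - ∑ l, algebraMap P A (d a (b.repr (b i * b j) l)) * b l := rfl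

theorem jacMat_inr (i j l : I) :
    jacMat b d (i, j) (Sum.inr l) = (if i = l then b j else 0) + (if j = l then b i else 0)
      - algebraMap P A (b.repr (b i * b j) l) := rfl

theorem jacMat_mulVec (v : J ⊕ I → A) (i j : I) :
    (jacMat b d *ᵥ v) (i, j) = jacDefect (jacOp b d v) (b i) (b j) := by
  simp only [Matrix.mulVec, dotProduct, Fintype.sum_sum_type, jacDefect, jacOp_basis]
  rw [jacOp_apply, jacFun]
  have h1 : ∑ a, jacMat b d (i, j) (Sum.inl a) * v (Sum.inl a)
      = - ∑ a, v (Sum.inl a) * jacNabla b d a (b i * b j) := by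
    rw [← Finset.sum_neg_distrib]
    refine Finset.sum_congr rfl fun a _ => ?_
    change (- jacNabla b d a (b i * b j)) * _ = _
    ring
  have h2 : ∑ l, jacMat b d (i, j) (Sum.inr l) * v (Sum.inr l)
      = v (Sum.inr i) * b j + b i * v (Sum.inr j)
        - ∑ l, v (Sum.inr l) * algebraMap P A (b.repr (b i * b j) l) := by
    simp only [jacMat_inr, sub_mul, add_mul, Finset.sum_sub_distrib, Finset.sum_add_distrib,
      ite_mul, zero_mul, Finset.sum_ite_eq, Finset.mem_univ, if_true]
    congr 1
    · ring
    · refine Finset.sum_congr rfl fun l _ => ?_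
      ring
  rw [h1, h2]
  ring

theorem jacMat_col (i j : I) (z : J ⊕ I) :
    jacMat b d (i, j) z = jacDefect (jacOp b d (Pi.single z 1)) (b i) (b j) := by
  rw [← jacMat_mulVec, Matrix.mulVec_single_one]
  rfl

/-- **JAC1**: a vector killed by the Jacobian matrix defines a derivation. -/
noncomputable def jacDer (v : J ⊕ I → A) (h : jacMat b d *ᵥ v = 0) : Derivation k A A :=
  Derivation.mk' (jacOp b d v) (fun x y => by
    have h0 : jacDefect (jacOp b d v) x y = 0 := by
      rw [jacDefect_expand]
      refine Finset.sum_eq_zero fun i _ => Finset.sum_eq_zero fun j _ => ?_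
      rw [← jacMat_mulVec, h]
      simp
    rw [jacDefect, sub_eq_zero] at h0
    rw [← h0, smul_eq_mul, smul_eq_mul]
    ring)

theorem jacDer_apply (v : J ⊕ I → A) (h : jacMat b d *ᵥ v = 0) (x : A) :
    jacDer b d v h x = jacOp b d v x := rfl

theorem jacDer_basis (v : J ⊕ I → A) (h : jacMat b d *ᵥ v = 0) (l : I) :
    jacDer b d v h (b l) = v (Sum.inr l) := jacOp_basis b d v l

theorem jacDer_algebraMap (v : J ⊕ I → A) (h : jacMat b d *ᵥ v = 0) (p : P) :
    jacDer b d v h (algebraMap P A p) = ∑ a, v (Sum.inl a) * algebraMap P A (d a p) := by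
  have h1 : jacDer b d v h (1 : A) = 0 := Derivation.map_one_eq_zero _
  rw [Algebra.algebraMap_eq_smul_one, jacDer_apply, jacOp_smul, ← jacDer_apply b d v h, h1]
  simp [jacSymb]

/-- coordinates of `jacDer` -/
theorem jacDer_eq (v : J ⊕ I → A) (h : jacMat b d *ᵥ v = 0) (x : A) :
    jacDer b d v h x = ∑ a, v (Sum.inl a) * (∑ l, algebraMap P A (d a (b.repr x l)) * b l)
      + ∑ l, v (Sum.inr l) * algebraMap P A (b.repr x l) := rfl

/-- the vector of a derivation with symbol `∑ α_a d_a` -/
noncomputable def jacVec (D : A → A) (α : J → A) : J ⊕ I → A := Sum.elim α (fun l => D (b l))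

/-- a derivation satisfying the chain rule is `jacOp` of its vector -/
theorem jacOp_of_derivation (D : Derivation k A A) (α : J → A)
    (hD : ∀ p, D (algebraMap P A p) = ∑ a, α a * algebraMap P A (d a p)) (x : A) :
    D x = jacOp b d (jacVec b D α) x := by
  refine jacOp_unique b d D (map_add D) α ?_ x
  intro p x
  rw [Algebra.smul_def, Derivation.leibniz, hD, jacSymb, smul_eq_mul, smul_eq_mul]
  ring

/-- **JAC2**: the vector of a derivation satisfying the chain rule is killed by the Jacobian matrix. -/
theorem jacMat_mulVec_of_derivation (D : Derivation k A A) (α : J → A)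
    (hD : ∀ p, D (algebraMap P A p) = ∑ a, α a * algebraMap P A (d a p)) :
    jacMat b d *ᵥ jacVec b D α = 0 := by
  funext ⟨i, j⟩
  rw [jacMat_mulVec, jacDefect, ← jacOp_of_derivation b d D α hD, ← jacOp_of_derivation b d D α hD,
    ← jacOp_of_derivation b d D α hD, Derivation.leibniz, smul_eq_mul, smul_eq_mul]
  simp
  ring

end Jac

end Claimed.Agent.R246
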