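import Claimed.Agent.R246.Local
import Claimed.Agent.R246.T.Desc
import Claimed.Agent.R246.T.Jac
import Claimed.Agent.R246.TDP

/-!
# Row 246, Theorem T, module FINAL (T5 of `R246_T.md`: E1, E2), abstract form

`lzt_final_fg` (A1): a package `LztPkg` for the Jacobian matrix of a free algebra `B` over a finitely generated
`ℂ`-domain `Q` of transcendence degree two gives the frozen statement.
-/

set_option autoImplicit false
set_option linter.unusedSectionVars false

namespace Claimed.Agent.R246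

open Matrix

/-- generator form of the local certificate with `u`, `N` depending on the generator -/
theorem result_of_gens'' {B : Type} [CommRing B] [IsDomain B] [Algebra ℂ B]
    (S : Finset B) (hS : Algebra.adjoin ℂ (S : Set B) = ⊤)
    (x : Fin 2 → B) (hx : IsTranscendenceBasis ℂ x)
    (D : Fin 2 → Derivation ℂ B B) (ev : B →ₐ[ℂ] ℂ) (hD : ∀ i, ∀ g ∈ S, ev (D i g) = 0)
    (hmin : ∀ g ∈ S, ∃ (u : B) (N : ℕ), ev u ≠ 0 ∧
      u * (g - algebraMap ℂ B (ev g)) ^ N ∈ lzMinorIdeal D) : LZGoal := by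
  classical
  choose! u N hu hmem using hmin
  refine result_of_gens' S hS x hx D ev hD (∏ g ∈ S, u g) ?_ (∑ g ∈ S, N g) ?_
  · rw [map_prod]
    exact Finset.prod_ne_zero_iff.mpr hu
  · intro g hg
    have h1 : ∏ g ∈ S, u g = u g * ∏ g' ∈ S.erase g, u g' := (Finset.mul_prod_erase S u hg).symm
    have h2 : N g ≤ ∑ g ∈ S, N g := Finset.single_le_sum (fun _ _ => Nat.zero_le _) hg
    obtain ⟨r, hr⟩ := Nat.exists_eq_add_of_le h2
    rw [h1, hr, pow_add]
    generalize (∏ g' ∈ S.erase g, u g') = Pr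
    have : u g * Pr *
        ((g - algebraMap ℂ B (ev g)) ^ N g * (g - algebraMap ℂ B (ev g)) ^ r)
        = (Pr * (g - algebraMap ℂ B (ev g)) ^ r) *
          (u g * (g - algebraMap ℂ B (ev g)) ^ N g) := by ring
    rw [this]
    exact Ideal.mul_mem_left _ _ (hmem g hg)

/-- **E1.**  passage to the quotient by a prime ideal which is stable under the derivations -/
theorem result_of_quot {B : Type} [CommRing B] [Algebra ℂ B] (q : Ideal B) [q.IsPrime]
    (D : Fin 2 → Derivation ℂ B B) (hq : ∀ i, ∀ x ∈ q, D i x ∈ q)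
    (ev : B →ₐ[ℂ] ℂ) (hqev : ∀ x ∈ q, ev x = 0)
    (S : Finset B) (hS : Algebra.adjoin ℂ (S : Set B) = ⊤)
    (x : Fin 2 → B) (hx : IsTranscendenceBasis ℂ (fun a => Ideal.Quotient.mk q (x a)))
    (hD : ∀ i b, ev (D i b) = 0)
    (hmin : ∀ g ∈ S, ∃ (u : B) (N : ℕ), ev u ≠ 0 ∧
      u * (g - algebraMap ℂ B (ev g)) ^ N ∈ lzMinorIdeal D) : LZGoal := by
  classical
  let π : B →ₐ[ℂ] B ⧸ q := Ideal.Quotient.mkₐ ℂ q
  have hπ : Function.Surjective π := Ideal.Quotient.mkₐ_surjective ℂ q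
  have hπ0 : ∀ b, π b = 0 ↔ b ∈ q := fun b => Ideal.Quotient.eq_zero_iff_mem
  let DE : Fin 2 → Derivation ℂ (B ⧸ q) (B ⧸ q) := fun i =>
    Derivation.liftOfSurjective (f := π) hπ (d := D i)
      (fun b hb => (hπ0 _).mpr (hq i b ((hπ0 b).mp hb)))
  have hDE : ∀ i b, DE i (π b) = π (D i b) := fun i b =>
    Derivation.liftOfSurjective_apply hπ _ b
  let evE : B ⧸ q →ₐ[ℂ] ℂ := Ideal.Quotient.liftₐ q ev hqev
  have hevE : ∀ b, evE (π b) = ev b := fun b => Ideal.Quotient.liftₐ_apply q ev hqev _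
  have hmap : ∀ z ∈ lzMinorIdeal D, π z ∈ lzMinorIdeal DE := by
    intro z hz
    have h2 : (lzMinorIdeal D).map (π : B →+* B ⧸ q) ≤ lzMinorIdeal DE := by
      rw [lzMinorIdeal, Ideal.map_span, Ideal.span_le]
      rintro _ ⟨_, ⟨g, h, rfl⟩, rfl⟩
      refine Ideal.subset_span ⟨π g, π h, ?_⟩
      simp [hDE]
    exact h2 (Ideal.mem_map_of_mem _ hz)
  refine result_of_gens'' (S.image π) ?_ (fun a => Ideal.Quotient.mk q (x a)) hx DE evE ?_ ?_
  · rw [Finset.coe_image, ← AlgHom.map_adjoin, hS, Algebra.map_top, AlgHom.range_eq_top]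
    exact hπ
  · intro i g hg
    obtain ⟨b, _, rfl⟩ := Finset.mem_image.mp hg
    rw [hDE, hevE]
    exact hD i b
  · intro g hg
    obtain ⟨b, hb, rfl⟩ := Finset.mem_image.mp hg
    obtain ⟨u, N, hu, hm⟩ := hmin b hb
    refine ⟨π u, N, by rwa [hevE], ?_⟩
    have := hmap _ hm
    rw [hevE]
    simpa using this

section A1

variable {Q B I : Type} [CommRing Q] [Algebra ℂ Q] [CommRing B] [Algebra Q B]
  [Algebra ℂ B] [IsScalarTower ℂ Q B] [Fintype I] [DecidableEq I]

/-- the generators `s, t, e_l` -/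
noncomputable def lztGen (b : Module.Basis I Q B) (p : Fin 2 → Q) : Fin 2 ⊕ I → B :=
  Sum.elim (fun a => algebraMap Q B (p a)) b

theorem lzt_jacDer_gen (b : Module.Basis I Q B) (d : Fin 2 → Derivation ℂ Q Q) (p : Fin 2 → Q)
    (hdp : ∀ a a', d a (p a') = if a = a' then 1 else 0)
    (v : Fin 2 ⊕ I → B) (h : jacMat b d *ᵥ v = 0) (z : Fin 2 ⊕ I) :
    jacDer b d v h (lztGen b p z) = v z := by
  rcases z with a | l
  · simp only [lztGen, Sum.elim_inl]
    rw [jacDer_algebraMap]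
    simp [hdp]
  · exact jacDer_basis b d v h l

theorem lzt_frame_le (b : Module.Basis I Q B) (d : Fin 2 → Derivation ℂ Q Q) (p : Fin 2 → Q)
    (hdp : ∀ a a', d a (p a') = if a = a' then 1 else 0)
    (v : Fin 2 → Fin 2 ⊕ I → B) (h : ∀ i, jacMat b d *ᵥ v i = 0) :
    lztFrameIdeal v ≤ lzMinorIdeal (fun i => jacDer b d (v i) (h i)) := by
  rw [lztFrameIdeal, Ideal.span_le]
  rintro _ ⟨z, z', rfl⟩
  refine Ideal.subset_span ⟨lztGen b p z, lztGen b p z', ?_⟩
  simp only [lzt_jacDer_gen b d p hdp]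

theorem lzt_ev_jacDer (b : Module.Basis I Q B) (d : Fin 2 → Derivation ℂ Q Q)
    (v : Fin 2 ⊕ I → B) (h : jacMat b d *ᵥ v = 0) (ev : B →+* ℂ) (hv : ∀ z, ev (v z) = 0) (x : B) :
    ev (jacDer b d v h x) = 0 := by
  rw [jacDer_eq]
  simp [hv]

/-- the algebra is generated by generators of `Q` and the basis -/
theorem lzt_adjoin_top [DecidableEq B] (b : Module.Basis I Q B) (SQ : Finset Q)
    (hSQ : Algebra.adjoin ℂ (SQ : Set Q) = ⊤) :
    Algebra.adjoin ℂ ((SQ.image (algebraMap Q B) ∪ Finset.univ.image b : Finset B) : Set B) = ⊤ := by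
  set T : Subalgebra ℂ B :=
    Algebra.adjoin ℂ ((SQ.image (algebraMap Q B) ∪ Finset.univ.image b : Finset B) : Set B) with hT
  have h1 : ∀ f : Q, algebraMap Q B f ∈ T := by
    intro f
    have hf : f ∈ Algebra.adjoin ℂ (SQ : Set Q) := hSQ ▸ Algebra.mem_top
    refine Algebra.adjoin_induction (p := fun f _ => algebraMap Q B f ∈ T) ?_ ?_ ?_ ?_ hf
    · intro g hg
      apply Algebra.subset_adjoin
      simp only [Finset.coe_union, Finset.coe_image, Set.mem_union, Set.mem_image]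
      exact Or.inl ⟨g, hg, rfl⟩
    · intro r
      rw [← IsScalarTower.algebraMap_apply ℂ Q B]
      exact Subalgebra.algebraMap_mem _ r
    · intro x y _ _ hx hy
      rw [map_add]
      exact add_mem hx hy
    · intro x y _ _ hx hy
      rw [map_mul]
      exact mul_mem hx hy
  have h2 : ∀ l, b l ∈ T := by
    intro l
    apply Algebra.subset_adjoin
    simp only [Finset.coe_union, Finset.coe_image, Set.mem_union, Set.mem_image]
    exact Or.inr ⟨l, by simp, rfl⟩
  rw [eq_top_iff]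
  intro x _
  rw [← b.sum_repr x]
  refine Subalgebra.sum_mem _ fun l _ => ?_
  rw [Algebra.smul_def]
  exact mul_mem (h1 _) (h2 l)

/-- **FINAL, A1.**  The package over a free algebra `B` over a finitely generated `ℂ`-domain `Q` of
transcendence degree two gives the frozen statement. -/
theorem lzt_final_fg [IsDomain Q] [Algebra.FiniteType ℂ Q]
    (b : Module.Basis I Q B) (d : Fin 2 → Derivation ℂ Q Q) (p : Fin 2 → Q)
    (hdp : ∀ a a', d a (p a') = if a = a' then 1 else 0)
    (htb : IsTranscendenceBasis ℂ p) (evQ : Q →ₐ[ℂ] ℂ)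
    (hnil : ∀ f, evQ f = 0 → ∃ (h : Q) (n : ℕ), evQ h ≠ 0 ∧ h * f ^ n ∈ Ideal.span (Set.range p))
    (ev : B →ₐ[ℂ] ℂ) (hev : ∀ f, ev (algebraMap Q B f) = evQ f) {c0 N0 M0 : ℕ}
    (pkg : LztPkg I (jacMat b d) (ev : B →+* ℂ) (fun a => algebraMap Q B (p a))
      (fun l => b l - algebraMap ℂ B (ev (b l))) c0 N0 M0) : LZGoal := by
  classical
  obtain ⟨v, hMv, hevv, uW, huW, hW⟩ := pkg.frame
  set x : Fin 2 → B := fun a => algebraMap Q B (p a) with hx
  let D : Fin 2 → Derivation ℂ B B := fun i => jacDer b d (v i) (hMv i)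
  have hDev : ∀ i y, ev (D i y) = 0 := fun i y =>
    lzt_ev_jacDer b d (v i) (hMv i) (ev : B →+* ℂ) (hevv i) y
  have hWD : ∀ a, uW * x a ^ N0 ∈ lzMinorIdeal D := fun a => lzt_frame_le b d p hdp v hMv (hW a)
  -- the key estimate
  have key : ∀ (u' y : B) (m : ℕ), u' * y ^ m ∈ Ideal.span (Set.range x) →
      (uW * u' ^ (2 * N0)) * y ^ (m * (2 * N0)) ∈ lzMinorIdeal D := by
    intro u' y m hm
    obtain ⟨Y, hY⟩ := lzt_pow_two_mul x hm N0
    have : (uW * u' ^ (2 * N0)) * y ^ (m * (2 * N0)) = uW * (u' * y ^ m) ^ (2 * N0) := by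
      rw [mul_pow, ← pow_mul]; ring
    rw [this, hY, Finset.mul_sum]
    refine Ideal.sum_mem _ fun a _ => ?_
    have : uW * (Y a * x a ^ N0) = Y a * (uW * x a ^ N0) := by ring
    rw [this]
    exact Ideal.mul_mem_left _ _ (hWD a)
  -- the minimal prime
  have hker : (RingHom.ker (ev : B →+* ℂ)).IsPrime := RingHom.ker_isPrime _
  obtain ⟨q, hqmin, hqle⟩ := Ideal.exists_minimalPrimes_le
    (I := (⊥ : Ideal B)) (J := RingHom.ker (ev : B →+* ℂ)) bot_le
  have hqp : q.IsPrime := hqmin.1.1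
  let _ : Algebra ℚ B := ((algebraMap ℂ B).comp (algebraMap ℚ ℂ)).toAlgebra
  have hqst : ∀ i, ∀ y ∈ q, D i y ∈ q := fun i => lzt_minimalPrimes_stable' (D i) hqmin
  have hqQ : ∀ f : Q, algebraMap Q B f ∈ q → f = 0 := by
    intro f hf
    by_contra hf0
    have hreg : algebraMap Q B f ∈ nonZeroDivisors B := by
      rw [mem_nonZeroDivisors_iff_right]
      intro y hy
      rw [mul_comm, ← Algebra.smul_def] at hy
      have h1 : ∀ l, b.repr y l = 0 := by
        intro l
        have := congrArg (fun w => b.repr w l) hy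
        simp only [map_smul, Finsupp.smul_apply, smul_eq_mul, map_zero, Finsupp.coe_zero,
          Pi.zero_apply] at this
        exact (mul_eq_zero.mp this).resolve_left hf0
      exact b.repr.map_eq_zero_iff.mp (Finsupp.ext h1)
    exact Set.disjoint_left.mp (Ideal.disjoint_nonZeroDivisors_of_mem_minimalPrimes hqmin) hf hreg
  -- generators
  obtain ⟨SQ, hSQ⟩ := (Algebra.FiniteType.out : (⊤ : Subalgebra ℂ Q).FG)
  -- transcendence basis
  have hfin : Module.Finite Q B := Module.Finite.of_basis b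
  have hinj : Function.Injective (algebraMap Q (B ⧸ q)) := by
    rw [injective_iff_map_eq_zero]
    intro f hf
    apply hqQ
    rw [IsScalarTower.algebraMap_apply Q B (B ⧸ q)] at hf
    exact Ideal.Quotient.eq_zero_iff_mem.mp hf
  have : FaithfulSMul Q (B ⧸ q) := (faithfulSMul_iff_algebraMap_injective _ _).mpr hinj
  have : Algebra.IsAlgebraic Q (B ⧸ q) := inferInstance
  have htbE : IsTranscendenceBasis ℂ (algebraMap Q (B ⧸ q) ∘ p) := htb.algebraMap_comp
  refine result_of_quot q D hqst ev (fun y hy => hqle hy)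
    (SQ.image (algebraMap Q B) ∪ Finset.univ.image b) (lzt_adjoin_top b SQ hSQ) x htbE hDev ?_
  intro g hg
  rcases Finset.mem_union.mp hg with hg | hg
  · obtain ⟨f, _, rfl⟩ := Finset.mem_image.mp hg
    obtain ⟨h, n, hh, hm⟩ := hnil (f - algebraMap ℂ Q (evQ f)) (by simp)
    refine ⟨uW * algebraMap Q B h ^ (2 * N0), n * (2 * N0), ?_, ?_⟩
    · rw [map_mul, map_pow, hev]
      exact mul_ne_zero huW (pow_ne_zero _ hh)
    · have h1 : algebraMap Q B f - algebraMap ℂ B (ev (algebraMap Q B f))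
          = algebraMap Q B (f - algebraMap ℂ Q (evQ f)) := by
        rw [map_sub, hev, ← IsScalarTower.algebraMap_apply ℂ Q B]
      rw [h1]
      apply key
      have h2 : (Ideal.span (Set.range p)).map (algebraMap Q B) ≤ Ideal.span (Set.range x) := by
        rw [Ideal.map_span, Ideal.span_le]
        rintro _ ⟨_, ⟨a, rfl⟩, rfl⟩
        exact Ideal.subset_span ⟨a, rfl⟩
      have := h2 (Ideal.mem_map_of_mem _ hm)
      simpa using this
  · obtain ⟨l, _, rfl⟩ := Finset.mem_image.mp hg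
    obtain ⟨u', hu', hm⟩ := pkg.nil l
    refine ⟨uW * u' ^ (2 * N0), M0 * (2 * N0), ?_, key _ _ _ hm⟩
    rw [map_mul, map_pow]
    exact mul_ne_zero huW (pow_ne_zero _ hu')

end A1

end Claimed.Agent.R246
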