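import Mathlib
import Claimed.Agent.R246.TLift

/-!
# Row 246, Theorem T, module J2 (general part): ideals of minors stable under a derivation

`lzt_minorIdeal_stable`: if `D(M) = Λ M + M V` (entrywise `D`), then every ideal of minors of `M` is `D`-stable.
-/

set_option autoImplicit false
set_option linter.unusedSectionVars false

namespace Claimed.Agent.R246

open Finset Matrix

section

variable {k B : Type*} [CommRing k] [CommRing B] [Algebra k B]

theorem lzt_derivation_prod {ι : Type*} [DecidableEq ι] (D : Derivation k B B) (s : Finset ι)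
    (f : ι → B) : D (∏ i ∈ s, f i) = ∑ i ∈ s, (∏ j ∈ s.erase i, f j) * D (f i) := by
  induction s using Finset.induction_on with
  | empty => simp
  | insert a s ha ih =>
    rw [Finset.prod_insert ha, Derivation.leibniz, ih, Finset.sum_insert ha,
      Finset.erase_insert ha, smul_eq_mul, smul_eq_mul, add_comm, Finset.mul_sum]
    congr 1
    refine Finset.sum_congr rfl fun i hi => ?_
    have hia : a ≠ i := fun h => ha (h ▸ hi)
    rw [Finset.erase_insert_of_ne hia, Finset.prod_insert (fun h => ha (Finset.mem_of_mem_erase h))]
    ring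

variable {n : Type*} [Fintype n] [DecidableEq n]

theorem lzt_derivation_det (D : Derivation k B B) (A : Matrix n n B) :
    D A.det = ∑ j, (A.updateCol j (fun r => D (A r j))).det := by
  simp only [Matrix.det_apply, map_sum]
  rw [Finset.sum_comm]
  refine Finset.sum_congr rfl fun σ _ => ?_
  rw [← Finset.smul_sum]
  have h1 : D (Equiv.Perm.sign σ • ∏ i, A (σ i) i) = Equiv.Perm.sign σ • D (∏ i, A (σ i) i) := by
    rw [Units.smul_def, Units.smul_def, map_zsmul]
  rw [h1, lzt_derivation_prod]
  congr 1
  refine Finset.sum_congr rfl fun j _ => ?_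
  rw [← Finset.mul_prod_erase Finset.univ _ (Finset.mem_univ j), Matrix.updateCol_self, mul_comm]
  congr 1
  refine Finset.prod_congr rfl fun i hi => ?_
  rw [Matrix.updateCol_ne (Finset.ne_of_mem_erase hi)]

theorem lzt_det_updateCol_eq (A : Matrix n n B) (j : n) (c : n → B) :
    (A.updateCol j c).det = ∑ r, A.adjugate j r * c r := by
  rw [← Matrix.cramer_apply, Matrix.cramer_eq_adjugate_mulVec]
  rfl

theorem lzt_det_updateRow_eq (A : Matrix n n B) (r : n) (c : n → B) :
    (A.updateRow r c).det = ∑ j, A.adjugate j r * c j := by
  rw [← Matrix.det_transpose, ← Matrix.updateCol_transpose, lzt_det_updateCol_eq,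
    ← Matrix.adjugate_transpose]
  rfl

theorem lzt_derivation_det' (D : Derivation k B B) (A : Matrix n n B) :
    D A.det = ∑ j, ∑ r, A.adjugate j r * D (A r j) := by
  rw [lzt_derivation_det]
  refine Finset.sum_congr rfl fun j _ => ?_
  rw [lzt_det_updateCol_eq]

variable {m q : Type*} [Fintype m] [Fintype q] [DecidableEq m] [DecidableEq q]

/-- **J2, general part.** If `D(M) = Λ M + M V` entrywise, the ideals of minors of `M` are `D`-stable. -/
theorem lzt_minorIdeal_stable (ι : Type*) [Fintype ι] [DecidableEq ι] (M : Matrix m q B)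
    (D : Derivation k B B) (Λ : Matrix m m B) (V : Matrix q q B)
    (h : ∀ i j, D (M i j) = (Λ * M) i j + (M * V) i j) :
    ∀ x ∈ lztMinorIdeal ι M, D x ∈ lztMinorIdeal ι M := by
  intro x hx
  refine Submodule.span_induction (p := fun x _ => D x ∈ lztMinorIdeal ι M) ?_ ?_ ?_ ?_ hx
  · rintro _ ⟨f, g, rfl⟩
    rw [lzt_derivation_det']
    have hsplit : ∑ j, ∑ r, (M.submatrix f g).adjugate j r * D ((M.submatrix f g) r j)
        = ∑ r, ∑ c, Λ (f r) c * (M.submatrix (Function.update f r c) g).det
          + ∑ j, ∑ z, V z (g j) * (M.submatrix f (Function.update g j z)).det := by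
      have hr : ∀ r c, (M.submatrix (Function.update f r c) g).det
          = ∑ j, (M.submatrix f g).adjugate j r * M c (g j) := by
        intro r c
        rw [← lzt_det_updateRow_eq]
        congr 1
        ext a e
        by_cases ha : a = r
        · subst ha; simp
        · simp [Matrix.updateRow_ne ha, Function.update_of_ne ha]
      have hc : ∀ j z, (M.submatrix f (Function.update g j z)).det
          = ∑ r, (M.submatrix f g).adjugate j r * M (f r) z := by
        intro j z
        rw [← lzt_det_updateCol_eq]
        congr 1
        ext a e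
        by_cases he : e = j
        · subst he; simp
        · simp [Matrix.updateCol_ne he, Function.update_of_ne he]
      simp only [hr, hc, Matrix.submatrix_apply, h, Matrix.mul_apply, mul_add, Finset.mul_sum,
        Finset.sum_add_distrib]
      congr 1
      · rw [Finset.sum_comm]
        refine Finset.sum_congr rfl fun r _ => ?_
        rw [Finset.sum_comm]
        refine Finset.sum_congr rfl fun c _ => Finset.sum_congr rfl fun j _ => ?_
        ring
      · refine Finset.sum_congr rfl fun j _ => ?_
        rw [Finset.sum_comm]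
        refine Finset.sum_congr rfl fun z _ => Finset.sum_congr rfl fun r _ => ?_
        ring
    rw [hsplit]
    refine Ideal.add_mem _ ?_ ?_
    · refine Ideal.sum_mem _ fun r _ => Ideal.sum_mem _ fun c _ => Ideal.mul_mem_left _ _ ?_
      exact Ideal.subset_span ⟨_, _, rfl⟩
    · refine Ideal.sum_mem _ fun j _ => Ideal.sum_mem _ fun z _ => Ideal.mul_mem_left _ _ ?_
      exact Ideal.subset_span ⟨_, _, rfl⟩
  · simp
  · intro a b _ _ ha hb
    rw [map_add]
    exact Ideal.add_mem _ ha hb
  · intro a b hb' hb
    rw [smul_eq_mul, Derivation.leibniz, smul_eq_mul, smul_eq_mul]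
    exact Ideal.add_mem _ (Ideal.mul_mem_left _ _ hb) (Ideal.mul_mem_right _ _ hb')

end

end Claimed.Agent.R246
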