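import Mathlib
import Claimed.Agent.R246.T.Jac
import Claimed.Agent.R246.T.MinorStable

/-!
# Row 246, Theorem T, module J2: the ideals of minors of the Jacobian matrix are stable under derivations

`jacMat_derivation`: for a derivation `D` of `A` satisfying the chain rule `D p = ∑ α_a d_a p` (the `d_a` commuting),
`D(M) = Λ M + M V` entrywise, `M = jacMat b d`.
`jac_minorIdeal_stable`: hence `D (lztMinorIdeal ι M) ⊆ lztMinorIdeal ι M`.
-/

set_option autoImplicit false
set_option linter.unusedSectionVars false

namespace Claimed.Agent.R246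

open Finset Matrix

section JacStable

variable {k P A I J : Type*} [CommRing k] [CommRing P] [CommRing A] [Algebra k P] [Algebra P A]
  [Algebra k A] [IsScalarTower k P A] [Fintype I] [DecidableEq I] [Fintype J] [DecidableEq J]

/-- Lie derivative of the Leibniz defect -/
theorem jacDefect_lie (D : Derivation k A A) (φ : A → A) (hadd : ∀ x y, φ (x + y) = φ x + φ y)
    (x y : A) :
    D (jacDefect φ x y) = jacDefect φ (D x) y + jacDefect φ x (D y)
      + jacDefect (fun u => D (φ u) - φ (D u)) x y := by
  simp only [jacDefect, map_sub, map_add, Derivation.leibniz, smul_eq_mul, hadd]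
  ring_nf

theorem jacDefect_sub_fun (φ ψ : A → A) (x y : A) :
    jacDefect (fun u => φ u - ψ u) x y = jacDefect φ x y - jacDefect ψ x y := by
  simp only [jacDefect]
  ring

variable (b : Module.Basis I P A) (d : J → Derivation k P P)

theorem jacDefect_smul_right (v : J ⊕ I → A) (p : P) (x y : A) :
    jacDefect (jacOp b d v) x (p • y) = algebraMap P A p * jacDefect (jacOp b d v) x y := by
  rw [jacDefect_comm, jacDefect_smul_left, jacDefect_comm]

theorem jacDefect_add_right (v : J ⊕ I → A) (x y y' : A) :
    jacDefect (jacOp b d v) x (y + y') = jacDefect (jacOp b d v) x y + jacDefect (jacOp b d v) x y' := by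
  rw [jacDefect_comm, jacDefect_add_left _ (map_add _), jacDefect_comm _ y, jacDefect_comm _ y']

theorem jacDefect_zero_right (v : J ⊕ I → A) (x : A) : jacDefect (jacOp b d v) x 0 = 0 := by
  simp [jacDefect]

/-- the correction term `ξ` -/
noncomputable def jacXi (α : J → A) (w : J ⊕ I → A) (x : A) : A :=
  ∑ a, jacDefect (jacOp b d w) (α a) (jacNabla b d a x)

theorem jacXi_add (α : J → A) (w : J ⊕ I → A) (x y : A) :
    jacXi b d α w (x + y) = jacXi b d α w x + jacXi b d α w y := by
  simp only [jacXi, jacNabla_add, jacDefect_add_right, Finset.sum_add_distrib]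

theorem jacXi_basis (α : J → A) (w : J ⊕ I → A) (i : I) : jacXi b d α w (b i) = 0 := by
  simp only [jacXi, jacNabla_basis, jacDefect_zero_right, Finset.sum_const_zero]

theorem jacXi_smul (α : J → A) (w : J ⊕ I → A) (p : P) (x : A) :
    jacXi b d α w (p • x) = algebraMap P A p * jacXi b d α w x
      + ∑ a, algebraMap P A (d a p) * jacDefect (jacOp b d w) (α a) x := by
  simp only [jacXi, jacNabla_smul, ← Algebra.smul_def, jacDefect_add_right, jacDefect_smul_right,
    Finset.sum_add_distrib, Finset.smul_sum]

/-- `Ψ = [D, φ] - ξ` -/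
noncomputable def jacPsi (D : Derivation k A A) (α : J → A) (w : J ⊕ I → A) (x : A) : A :=
  D (jacOp b d w x) - jacOp b d w (D x) - jacXi b d α w x

theorem jacPsi_add (D : Derivation k A A) (α : J → A) (w : J ⊕ I → A) (x y : A) :
    jacPsi b d D α w (x + y) = jacPsi b d D α w x + jacPsi b d D α w y := by
  simp only [jacPsi, map_add, jacXi_add]
  ring

theorem jacPsi_smul (D : Derivation k A A) (α : J → A)
    (hD : ∀ p, D (algebraMap P A p) = ∑ a, α a * algebraMap P A (d a p))
    (hcomm : ∀ a a' p, d a (d a' p) = d a' (d a p))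
    (w : J ⊕ I → A) (p : P) (x : A) :
    jacPsi b d D α w (p • x) = algebraMap P A p * jacPsi b d D α w x
      + jacSymb d (fun a => D (w (Sum.inl a)) - jacOp b d w (α a)) p * x := by
  set φ := jacOp b d w with hφ
  -- `D (p • x)`
  have hDs : D (p • x) = p • D x + ∑ a, (d a p) • (α a * x) := by
    rw [Algebra.smul_def, Derivation.leibniz, hD, smul_eq_mul, smul_eq_mul, Algebra.smul_def,
      Finset.mul_sum]
    congr 1
    refine Finset.sum_congr rfl fun a _ => ?_
    rw [Algebra.smul_def]; ring
  -- `φ (D (p • x))`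
  have h2 : φ (D (p • x)) = algebraMap P A p * φ (D x)
      + jacSymb d (fun a => w (Sum.inl a)) p * D x
      + ∑ a, algebraMap P A (d a p) * φ (α a * x)
      + ∑ a, jacSymb d (fun a => w (Sum.inl a)) (d a p) * (α a * x) := by
    rw [hDs, map_add, map_sum, hφ, jacOp_smul]
    simp only [jacOp_smul, Finset.sum_add_distrib]
    ring
  -- `D (φ (p • x))`
  have h1 : D (φ (p • x)) = algebraMap P A p * D (φ x) + φ x * (∑ a, α a * algebraMap P A (d a p))
      + jacSymb d (fun a => w (Sum.inl a)) p * D x
      + x * D (jacSymb d (fun a => w (Sum.inl a)) p) := by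
    rw [hφ, jacOp_smul, map_add, Derivation.leibniz, Derivation.leibniz, hD]
    simp only [smul_eq_mul]
    ring
  -- `D (σ_φ p)`
  have h3 : D (jacSymb d (fun a => w (Sum.inl a)) p)
      = ∑ a, ∑ a', w (Sum.inl a) * (α a' * algebraMap P A (d a' (d a p)))
        + ∑ a, algebraMap P A (d a p) * D (w (Sum.inl a)) := by
    simp only [jacSymb, map_sum, Derivation.leibniz, hD, smul_eq_mul, Finset.sum_add_distrib,
      Finset.mul_sum]
  have h4 : ∑ a, jacSymb d (fun a => w (Sum.inl a)) (d a p) * (α a * x)
      = x * ∑ a, ∑ a', w (Sum.inl a) * (α a' * algebraMap P A (d a' (d a p))) := by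
    simp only [jacSymb, Finset.sum_mul, Finset.mul_sum]
    rw [Finset.sum_comm]
    refine Finset.sum_congr rfl fun a _ => Finset.sum_congr rfl fun a' _ => ?_
    rw [hcomm a a' p]
    ring
  have h5 : ∑ a, algebraMap P A (d a p) * jacDefect φ (α a) x
      = (∑ a, algebraMap P A (d a p) * φ (α a)) * x + φ x * (∑ a, α a * algebraMap P A (d a p))
        - ∑ a, algebraMap P A (d a p) * φ (α a * x) := by
    simp only [jacDefect, mul_sub, mul_add, Finset.sum_sub_distrib, Finset.sum_add_distrib,
      Finset.sum_mul, Finset.mul_sum]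
    congr 1
    congr 1
    · refine Finset.sum_congr rfl fun a _ => ?_
      ring
    · refine Finset.sum_congr rfl fun a _ => ?_
      ring
  have h6 : jacSymb d (fun a => D (w (Sum.inl a)) - φ (α a)) p
      = ∑ a, algebraMap P A (d a p) * D (w (Sum.inl a)) - ∑ a, algebraMap P A (d a p) * φ (α a) := by
    simp only [jacSymb, sub_mul, Finset.sum_sub_distrib]
    congr 1
    · refine Finset.sum_congr rfl fun a _ => ?_
      ring
    · refine Finset.sum_congr rfl fun a _ => ?_
      ring
  rw [jacPsi, jacPsi, ← hφ, h1, h2, jacXi_smul, ← hφ, h5, h6, h3, h4]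
  ring

/-- `Ψ` is again of the form `jacOp` -/
theorem jacPsi_eq (D : Derivation k A A) (α : J → A)
    (hD : ∀ p, D (algebraMap P A p) = ∑ a, α a * algebraMap P A (d a p))
    (hcomm : ∀ a a' p, d a (d a' p) = d a' (d a p))
    (w : J ⊕ I → A) (x : A) :
    jacPsi b d D α w x = jacOp b d (Sum.elim (fun a => D (w (Sum.inl a)) - jacOp b d w (α a))
      (fun l => jacPsi b d D α w (b l))) x :=
  jacOp_unique b d (jacPsi b d D α w) (jacPsi_add b d D α w) _ (jacPsi_smul b d D α hD hcomm w) x

/-- the matrix `Λ` -/
noncomputable def jacLam (D : Derivation k A A) (α : J → A) : Matrix (I × I) (I × I) A :=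
  fun ij kl =>
    algebraMap P A (b.repr (D (b ij.1)) kl.1) * algebraMap P A (b.repr (b ij.2) kl.2)
    + algebraMap P A (b.repr (b ij.1) kl.1) * algebraMap P A (b.repr (D (b ij.2)) kl.2)
    - ∑ a, algebraMap P A (b.repr (α a) kl.1)
        * algebraMap P A (b.repr (jacNabla b d a (b ij.1 * b ij.2)) kl.2)

/-- the matrix `V` (with the sign convention `D(M) = Λ M + M V`) -/
noncomputable def jacV (D : Derivation k A A) (α : J → A) : Matrix (J ⊕ I) (J ⊕ I) A :=
  fun z' z => Sum.elim
    (fun a => D ((Pi.single z 1 : J ⊕ I → A) (Sum.inl a)) - jacOp b d (Pi.single z 1) (α a))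
    (fun l => jacPsi b d D α (Pi.single z 1) (b l)) z'

/-- **J2, the identity** `D(M) = Λ M + M V`. -/
theorem jacMat_derivation (D : Derivation k A A) (α : J → A)
    (hD : ∀ p, D (algebraMap P A p) = ∑ a, α a * algebraMap P A (d a p))
    (hcomm : ∀ a a' p, d a (d a' p) = d a' (d a p)) (ij : I × I) (z : J ⊕ I) :
    D (jacMat b d ij z) = (jacLam b d D α * jacMat b d) ij z + (jacMat b d * jacV b d D α) ij z := by
  obtain ⟨i, j⟩ := ij
  set w : J ⊕ I → A := Pi.single z 1 with hw
  set φ := jacOp b d w with hφ
  have hcol : ∀ k l, jacMat b d (k, l) z = jacDefect φ (b k) (b l) := fun k l => jacMat_col b d k l z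
  -- second term
  have hV : (jacMat b d * jacV b d D α) (i, j) z
      = jacDefect (jacPsi b d D α w) (b i) (b j) := by
    have e1 : (jacMat b d * jacV b d D α) (i, j) z
        = (jacMat b d *ᵥ (fun z' => jacV b d D α z' z)) (i, j) := rfl
    rw [e1, jacMat_mulVec]
    have e2 : ∀ x, jacOp b d (fun z' => jacV b d D α z' z) x = jacPsi b d D α w x := by
      intro x
      rw [jacPsi_eq b d D α hD hcomm w x]
      rfl
    simp only [jacDefect, e2]
  -- first term
  have hL : (jacLam b d D α * jacMat b d) (i, j) z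
      = jacDefect φ (D (b i)) (b j) + jacDefect φ (b i) (D (b j))
        - jacXi b d α w (b i * b j) := by
    rw [Matrix.mul_apply, Fintype.sum_prod_type]
    simp only [hcol, jacLam, sub_mul, add_mul, Finset.sum_sub_distrib, Finset.sum_add_distrib]
    rw [hφ, jacDefect_expand b d w (D (b i)) (b j), jacDefect_expand b d w (b i) (D (b j)), jacXi]
    congr 1
    simp only [jacDefect_expand b d w (α _) (jacNabla b d _ _), Finset.sum_mul]
    calc _ = ∑ x, ∑ a, ∑ x_1, algebraMap P A (b.repr (α a) x)
            * algebraMap P A (b.repr (jacNabla b d a (b i * b j)) x_1)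
            * jacDefect (jacOp b d w) (b x) (b x_1) :=
          Finset.sum_congr rfl fun x _ => Finset.sum_comm
      _ = _ := Finset.sum_comm
  rw [hcol, jacDefect_lie D φ (map_add φ), hV, hL]
  have h3 : jacDefect (jacPsi b d D α w) (b i) (b j)
      = jacDefect (fun u => D (φ u) - φ (D u)) (b i) (b j) + jacXi b d α w (b i * b j) := by
    simp only [jacDefect, jacPsi, jacXi_basis, ← hφ]
    ring
  rw [h3]
  ring

/-- **J2.** The ideals of minors of the Jacobian matrix are stable under every derivation satisfying the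
chain rule. -/
theorem jac_minorIdeal_stable (ι : Type*) [Fintype ι] [DecidableEq ι] (D : Derivation k A A)
    (α : J → A) (hD : ∀ p, D (algebraMap P A p) = ∑ a, α a * algebraMap P A (d a p))
    (hcomm : ∀ a a' p, d a (d a' p) = d a' (d a p)) :
    ∀ x ∈ lztMinorIdeal ι (jacMat b d), D x ∈ lztMinorIdeal ι (jacMat b d) :=
  lzt_minorIdeal_stable ι (jacMat b d) D (jacLam b d D α) (jacV b d D α)
    (jacMat_derivation b d D α hD hcomm)

end JacStable

end Claimed.Agent.R246
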