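import Mathlib
import Claimed.Agent.R246.T.JacStable
import Claimed.Agent.R246.DS4

/-!
# Row 246, Theorem T, modules J1 and J4

* `lzt_exists_minor_ne_zero`: a matrix over a domain with trivial kernel has a nonzero maximal minor.
* `jac_minorIdeal_ne_bot` (J1): the ideal of the `|I|`-minors of the Jacobian matrix is nonzero
  (`A` a domain of characteristic `0`).
* `jac_exists_pow_mem` (J4): over a base `DSBase k P` (`= k[[s,t]]`), powers in the ideal of the minors
  `D 0 g * D 1 h - D 0 h * D 1 g` give powers in the Jacobian ideal.
-/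

set_option autoImplicit false
set_option linter.unusedSectionVars false

namespace Claimed.Agent.R246

open Finset Matrix

/-- over a field: trivial kernel gives a nonzero maximal minor -/
theorem lzt_exists_minor_ne_zero_field {L m n : Type*} [Field L] [Fintype m] [Fintype n]
    [DecidableEq n] (N : Matrix m n L) (h : ∀ w : n → L, N *ᵥ w = 0 → w = 0) :
    ∃ g : n → m, (N.submatrix g id).det ≠ 0 := by
  classical
  have hinj : Function.Injective N.mulVecLin := by
    rw [← LinearMap.ker_eq_bot, LinearMap.ker_eq_bot']
    intro w hw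
    exact h w hw
  have hrank : N.rank = Fintype.card n := by
    rw [Matrix.rank, LinearMap.finrank_range_of_inj hinj, Module.finrank_fintype_fun_eq_card]
  rw [Matrix.rank_eq_finrank_span_row] at hrank
  obtain ⟨f, hf, -, hli⟩ := Submodule.exists_fun_fin_finrank_span_eq L (Set.range N.row)
  choose g hg using hf
  let e : n ≃ Fin (Module.finrank L (Submodule.span L (Set.range N.row))) :=
    Fintype.equivFinOfCardEq hrank.symm
  refine ⟨fun i => g (e i), ?_⟩
  have hrow : (N.submatrix (fun i => g (e i)) id).row = f ∘ e := by
    funext i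
    exact hg (e i)
  have hli2 : LinearIndependent L (N.submatrix (fun i => g (e i)) id).row := by
    rw [hrow]
    exact hli.comp _ e.injective
  have hu := Matrix.linearIndependent_rows_iff_isUnit.mp hli2
  exact ((Matrix.isUnit_iff_isUnit_det _).mp hu).ne_zero

/-- over a domain: trivial kernel gives a nonzero maximal minor -/
theorem lzt_exists_minor_ne_zero {A m n : Type*} [CommRing A] [IsDomain A] [Fintype m] [Fintype n]
    [DecidableEq n] (N : Matrix m n A) (h : ∀ w : n → A, N *ᵥ w = 0 → w = 0) :
    ∃ g : n → m, (N.submatrix g id).det ≠ 0 := by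
  classical
  let L := FractionRing A
  have hL : ∀ w : n → L, (N.map (algebraMap A L)) *ᵥ w = 0 → w = 0 := by
    intro w hw
    obtain ⟨c, hc⟩ := IsLocalization.exist_integer_multiples (nonZeroDivisors A) Finset.univ w
    choose w' hw' using fun i => hc i (Finset.mem_univ i)
    have hc0 : algebraMap A L (c : A) ≠ 0 := by
      have := nonZeroDivisors.ne_zero c.2
      simpa using this
    have h1 : N *ᵥ w' = 0 := by
      funext r
      apply IsFractionRing.injective A L
      have h2 := congrFun hw r
      simp only [Matrix.mulVec, dotProduct, Matrix.map_apply, Pi.zero_apply] at h2 ⊢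
      rw [map_sum, map_zero]
      have h3 : ∀ i, algebraMap A L (N r i * w' i) = algebraMap A L c * (algebraMap A L (N r i) * w i) := by
        intro i
        rw [map_mul, hw' i, Algebra.smul_def]
        ring
      simp only [h3, ← Finset.mul_sum, h2, mul_zero]
    have h4 := h w' h1
    funext i
    have h5 := hw' i
    rw [h4, Pi.zero_apply, map_zero, Algebra.smul_def] at h5
    exact (mul_eq_zero.mp h5.symm).resolve_left hc0
  obtain ⟨g, hg⟩ := lzt_exists_minor_ne_zero_field _ hL
  refine ⟨g, fun h0 => hg ?_⟩
  have : (N.map (algebraMap A L)).submatrix g id = (algebraMap A L).mapMatrix (N.submatrix g id) := by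
    ext i j
    simp
  rw [this, ← RingHom.map_det, h0, map_zero]

section J1

variable {k P A I J : Type*} [CommRing k] [CommRing P] [CommRing A] [Algebra k P] [Algebra P A]
  [Algebra k A] [IsScalarTower k P A] [Fintype I] [DecidableEq I] [Fintype J] [DecidableEq J]
  (b : Module.Basis I P A) (d : J → Derivation k P P)

/-- the `Y`-columns of the Jacobian matrix have trivial kernel -/
theorem jacMat_inr_ker [IsDomain A] [CharZero A] (w : I → A)
    (h : (jacMat b d).submatrix id Sum.inr *ᵥ w = 0) : w = 0 := by
  have hv : jacMat b d *ᵥ (Sum.elim (0 : J → A) w) = 0 := by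
    funext r
    have h1 := congrFun h r
    simp only [Matrix.mulVec, dotProduct, Matrix.submatrix_apply, id_eq, Pi.zero_apply] at h1 ⊢
    rw [Fintype.sum_sum_type]
    simp only [Sum.elim_inl, Sum.elim_inr, Pi.zero_apply, mul_zero, Finset.sum_const_zero, zero_add]
    exact h1
  have : Module.Finite P A := Module.Finite.of_basis b
  have hE : jacDer b d _ hv = 0 := by
    apply dsDer_eq_zero_of_kills (R := P)
    intro p
    rw [jacDer_algebraMap]
    simp
  funext l
  have := jacDer_basis b d _ hv l
  rw [hE] at this
  simpa using this.symm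

/-- **J1.** The Jacobian ideal is nonzero. -/
theorem jac_minorIdeal_ne_bot [IsDomain A] [CharZero A] : lztMinorIdeal I (jacMat b d) ≠ ⊥ := by
  obtain ⟨g, hg⟩ := lzt_exists_minor_ne_zero _ (jacMat_inr_ker b d)
  intro hbot
  apply hg
  have hmem : (((jacMat b d).submatrix id Sum.inr).submatrix g id).det ∈ lztMinorIdeal I (jacMat b d) :=
    Ideal.subset_span ⟨g, Sum.inr, rfl⟩
  rw [hbot, Ideal.mem_bot] at hmem
  exact hmem

end J1

section J4

variable {k P A I : Type*} [Field k] [CharZero k] [CommRing P] [Algebra k P] [CommRing A] [IsDomain A]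
  [Algebra k A] [Algebra P A] [IsScalarTower k P A] [IsNoetherianRing P]
  [Fintype I] [DecidableEq I]

/-- **J2** over a base `DSBase k P`: no chain-rule hypothesis is needed. -/
theorem jac_minorIdeal_stable_base (base : DSBase k P)
    (hcomm : ∀ a a' p, base.d a (base.d a' p) = base.d a' (base.d a p))
    (b : Module.Basis I P A) (ι : Type*) [Fintype ι] [DecidableEq ι] (D : Derivation k A A) :
    ∀ x ∈ lztMinorIdeal ι (jacMat b base.d), D x ∈ lztMinorIdeal ι (jacMat b base.d) := by
  have : Module.Finite P A := Module.Finite.of_basis b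
  have : IsNoetherianRing A := IsNoetherianRing.of_finite P A
  refine jac_minorIdeal_stable b base.d ι D (fun a => D (algebraMap P A (base.x a))) ?_ hcomm
  intro p
  rw [dsChain base D p, Fin.sum_univ_two]

/-- **J4.** -/
theorem jac_exists_pow_mem (base : DSBase k P)
    (hcomm : ∀ a a' p, base.d a (base.d a' p) = base.d a' (base.d a p))
    (b : Module.Basis I P A) (D : Fin 2 → Derivation k A A) (x : A) (N : ℕ)
    (hx : x ^ N ∈ Ideal.span {m : A | ∃ g h, m = D 0 g * D 1 h - D 0 h * D 1 g}) :
    ∃ c : ℕ, x ^ c ∈ lztMinorIdeal I (jacMat b base.d) := by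
  have : Module.Finite P A := Module.Finite.of_basis b
  have : CharZero A := charZero_of_injective_algebraMap (algebraMap k A).injective
  obtain ⟨m, hm⟩ := dsStable_minors_le_radical base D _ (jac_minorIdeal_ne_bot b base.d)
    (fun i => jac_minorIdeal_stable_base base hcomm b I (D i)) hx
  exact ⟨N * m, by rw [pow_mul]; exact hm⟩

end J4

end Claimed.Agent.R246
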