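import Mathlib
import Claimed.Agent.R246.TLift

/-!
# Row 246, Theorem T (blueprint of helper350, `R246_T.md`), module LD (lattice data)

`LD.Data Q n` : lattice data over a domain `Q` (this is `P_u` of the blueprint: `u` is already inverted).
-/

set_option autoImplicit false
set_option linter.unusedSectionVars false

namespace Claimed.Agent.R246.LD

open Polynomial Matrix

section Der

/-- `δ` is a derivation of the ring `R` (additive + Leibniz); instance-free format. -/
structure IsDer {R : Type*} [CommRing R] (δ : R → R) : Prop where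
  map_add : ∀ x y, δ (x + y) = δ x + δ y
  leibniz : ∀ x y, δ (x * y) = x * δ y + y * δ x

theorem isDer_of_derivation {k R : Type*} [CommSemiring k] [CommRing R] [Algebra k R]
    (D : Derivation k R R) : IsDer D :=
  ⟨fun x y => map_add D x y, fun x y => by simp [Derivation.leibniz]⟩

/-- the `ℤ`-derivation attached to `IsDer δ` -/
def IsDer.toDerivation {R : Type*} [CommRing R] {δ : R → R} (h : IsDer δ) : Derivation ℤ R R :=
  Derivation.mk' (AddMonoidHom.mk' δ h.map_add).toIntLinearMap (by
    intro a b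
    simp [h.leibniz])

@[simp] theorem IsDer.toDerivation_apply {R : Type*} [CommRing R] {δ : R → R} (h : IsDer δ) (x : R) :
    h.toDerivation x = δ x := rfl

theorem IsDer.map_sum {R ι : Type*} [CommRing R] {δ : R → R} (h : IsDer δ) (s : Finset ι)
    (f : ι → R) : δ (∑ i ∈ s, f i) = ∑ i ∈ s, δ (f i) := by
  exact _root_.map_sum h.toDerivation f s

/-- a `ℤ`-derivation extends to any localisation -/
theorem exists_locDer {A Am : Type*} [CommRing A] [CommRing Am] [Algebra A Am]
    (M : Submonoid A) [IsLocalization M Am] (D : Derivation ℤ A A) :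
    ∃ D' : Derivation ℤ Am Am, ∀ a, D' (algebraMap A Am a) = algebraMap A Am (D a) := by
  have : Algebra.FormallyEtale A Am := Algebra.FormallyEtale.of_isLocalization (Rₘ := Am) M
  have hb := KaehlerDifferential.isBaseChange_of_formallyEtale ℤ A Am
  let g : Ω[A⁄ℤ] →ₗ[A] Am := (Algebra.linearMap A Am) ∘ₗ D.liftKaehlerDifferential
  refine ⟨(hb.lift g).compDer (KaehlerDifferential.D ℤ Am), fun a => ?_⟩
  have h1 : KaehlerDifferential.D ℤ Am (algebraMap A Am a)
      = KaehlerDifferential.map ℤ ℤ A Am (KaehlerDifferential.D ℤ A a) := by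
    rw [KaehlerDifferential.map_D]
  have h2 : ((hb.lift g).compDer (KaehlerDifferential.D ℤ Am)) (algebraMap A Am a)
      = hb.lift g (KaehlerDifferential.D ℤ Am (algebraMap A Am a)) := rfl
  rw [h2, h1, hb.lift_eq]
  simp [g]

set_option backward.isDefEq.respectTransparency false in
/-- a derivation of `K` extends to `K[X]/(p)` if `A p + B p' = 1` -/
theorem exists_adjoinRootDer {K : Type*} [CommRing K] (d : Derivation ℤ K K) (p A B : K[X])
    (h : A * p + B * derivative p = 1) :
    ∃ D' : Derivation ℤ (AdjoinRoot p) (AdjoinRoot p),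
      ∀ a, D' (AdjoinRoot.of p a) = AdjoinRoot.of p (d a) := by
  let _ : Differential K := ⟨d⟩
  let δ : Derivation ℤ K[X] K[X] := Differential.implicitDeriv (-(Differential.mapCoeffs p) * B)
  have hδp : p ∣ δ p := by
    refine ⟨Differential.mapCoeffs p * A, ?_⟩
    have : δ p = Differential.mapCoeffs p + (-(Differential.mapCoeffs p) * B) * derivative p := by
      simp [δ, Differential.implicitDeriv]
    rw [this]
    linear_combination (-(Differential.mapCoeffs p)) * h
  have hd : ∀ x, (AdjoinRoot.mk p).toIntAlgHom x = 0 → (AdjoinRoot.mk p).toIntAlgHom (δ x) = 0 := by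
    intro x hx
    simp only [RingHom.toIntAlgHom_apply, AdjoinRoot.mk_eq_zero] at hx ⊢
    obtain ⟨q, rfl⟩ := hx
    simp only [Derivation.leibniz, smul_eq_mul]
    exact dvd_add (dvd_mul_right ..) (dvd_mul_of_dvd_right hδp _)
  refine ⟨Derivation.liftOfSurjective (f := (AdjoinRoot.mk p).toIntAlgHom)
    AdjoinRoot.mk_surjective (d := δ) hd, fun a => ?_⟩
  change (Derivation.liftOfSurjective _ _) ((AdjoinRoot.mk p).toIntAlgHom (C a)) = _
  rw [Derivation.liftOfSurjective_apply]
  simp only [δ, Differential.implicitDeriv_C]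
  rfl

/-- `exists_locDer`, instance-free format -/
theorem exists_locDer' {A Am : Type*} [CommRing A] [CommRing Am] [Algebra A Am]
    (M : Submonoid A) [IsLocalization M Am] {d : A → A} (hd : IsDer d) :
    ∃ d' : Am → Am, IsDer d' ∧ ∀ a, d' (algebraMap A Am a) = algebraMap A Am (d a) := by
  obtain ⟨D', h⟩ := exists_locDer (Am := Am) M hd.toDerivation
  exact ⟨D', isDer_of_derivation D', h⟩

/-- `exists_adjoinRootDer`, instance-free format -/
theorem exists_adjoinRootDer' {K : Type*} [CommRing K] {d : K → K} (hd : IsDer d) (p A B : K[X])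
    (h : A * p + B * derivative p = 1) :
    ∃ d' : AdjoinRoot p → AdjoinRoot p, IsDer d' ∧
      ∀ a, d' (AdjoinRoot.of p a) = AdjoinRoot.of p (d a) := by
  obtain ⟨D', h⟩ := exists_adjoinRootDer hd.toDerivation p A B h
  exact ⟨D', isDer_of_derivation D', h⟩

end Der

section RowPoly

variable {Q : Type*} [CommRing Q] {n : ℕ}

/-- the polynomial `E_i = ∑_j E_ij Z^j` -/
noncomputable def rowPoly (E : Matrix (Fin n) (Fin n) Q) (i : Fin n) : Q[X] :=
  ∑ j : Fin n, C (E i j) * X ^ (j : ℕ)

theorem coeff_rowPoly (E : Matrix (Fin n) (Fin n) Q) (i j : Fin n) :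
    (rowPoly E i).coeff (j : ℕ) = E i j := by
  classical
  simp only [rowPoly, finsetSum_coeff, coeff_C_mul, coeff_X_pow]
  rw [Finset.sum_eq_single j]
  · simp
  · intro b _ hb
    have : (j : ℕ) ≠ (b : ℕ) := fun h => hb (Fin.ext h.symm)
    simp [this]
  · simp

theorem degree_rowPoly_lt (E : Matrix (Fin n) (Fin n) Q) (i : Fin n) :
    (rowPoly E i).degree < n := by
  refine lt_of_le_of_lt (degree_sum_le _ _) ?_
  refine (Finset.sup_lt_iff (WithBot.bot_lt_coe n)).2 fun j _ => ?_
  refine lt_of_le_of_lt (degree_C_mul_X_pow_le _ _) ?_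
  exact WithBot.coe_lt_coe.2 j.2

theorem map_rowPoly {Q' : Type*} [CommRing Q'] (f : Q →+* Q') (E : Matrix (Fin n) (Fin n) Q)
    (i : Fin n) : (rowPoly E i).map f = rowPoly (E.map f) i := by
  simp [rowPoly, Polynomial.map_sum]

end RowPoly

/-- Lattice data over `Q` (the ring `P_u` of the blueprint; `c = ch / u`, `M = Mh / u`). -/
structure Data (Q : Type*) [CommRing Q] (n : ℕ) [NeZero n] where
  Pi : Q[X]
  E : Matrix (Fin n) (Fin n) Q
  M : Matrix (Fin n) (Fin n) Q
  g : Q
  Delta : Q
  c : Fin n → Fin n → Fin n → Q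
  A : Q[X]
  B : Q[X]
  monic : Pi.Monic
  natDegree_eq : Pi.natDegree = n
  g_ne : g ≠ 0
  Delta_ne : Delta ≠ 0
  L1 : E * M = g • (1 : Matrix (Fin n) (Fin n) Q)
  L2 : rowPoly E 0 = C g
  L3 : ∀ i j, (rowPoly E i * rowPoly E j) %ₘ Pi = C g * ∑ k, C (c i j k) * rowPoly E k
  L4 : A * Pi + B * derivative Pi = C Delta

namespace Data

variable {Q : Type*} [CommRing Q] [IsDomain Q] {n : ℕ} [NeZero n] (D : Data Q n)

/-- `Pi` over the fraction field -/
noncomputable abbrev PiK : (FractionRing Q)[X] := D.Pi.map (algebraMap Q (FractionRing Q))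

/-- `T = K[Z]/(Pi)` -/
abbrev T : Type _ := AdjoinRoot D.PiK

/-- `Q[Z] → T` -/
noncomputable def phi : Q[X] →+* D.T :=
  (AdjoinRoot.mk D.PiK).comp (mapRingHom (algebraMap Q (FractionRing Q)))

/-- `Q → T` -/
noncomputable def iQ : Q →+* D.T :=
  (AdjoinRoot.of D.PiK).comp (algebraMap Q (FractionRing Q))

theorem phi_C (a : Q) : D.phi (C a) = D.iQ a := by
  simp [phi, iQ]

theorem phi_Pi : D.phi D.Pi = 0 := by
  simp [phi]

theorem phi_modByMonic (p : Q[X]) : D.phi (p %ₘ D.Pi) = D.phi p := by
  conv_rhs => rw [← modByMonic_add_div p D.Pi]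
  simp [phi_Pi]

theorem monicK : D.PiK.Monic := D.monic.map _

theorem natDegreeK : D.PiK.natDegree = n := by
  rw [PiK, D.monic.natDegree_map, D.natDegree_eq]

theorem iQ_injective : Function.Injective D.iQ := by
  have h1 : Function.Injective (AdjoinRoot.of D.PiK) := by
    apply AdjoinRoot.of.injective_of_degree_ne_zero
    rw [degree_eq_natDegree D.monicK.ne_zero, D.natDegreeK]
    exact_mod_cast NeZero.ne n
  exact h1.comp (IsFractionRing.injective Q (FractionRing Q))

theorem isUnit_iQ {a : Q} (ha : a ≠ 0) : IsUnit (D.iQ a) := by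
  have : IsUnit (algebraMap Q (FractionRing Q) a) :=
    (IsFractionRing.to_map_ne_zero_of_mem_nonZeroDivisors (mem_nonZeroDivisors_of_ne_zero ha)).isUnit
  exact this.map (AdjoinRoot.of D.PiK)

/-- the inverse of `g` in `T` -/
noncomputable def gInv : D.T := ((D.isUnit_iQ D.g_ne).unit⁻¹ : D.Tˣ)

theorem gInv_mul : D.gInv * D.iQ D.g = 1 := by
  simp [gInv]

/-- the basis `e_i = E_i(θ)/g` of `T` -/
noncomputable def e (i : Fin n) : D.T := D.gInv * D.phi (rowPoly D.E i)

theorem e_zero : D.e 0 = 1 := by
  rw [e, D.L2, phi_C, gInv_mul]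

theorem e_mul (i j : Fin n) : D.e i * D.e j = ∑ k, D.iQ (D.c i j k) * D.e k := by
  have h := congrArg D.phi (D.L3 i j)
  rw [phi_modByMonic, map_mul, map_mul, map_sum, phi_C] at h
  simp only [map_mul, phi_C] at h
  calc D.e i * D.e j = D.gInv * D.gInv * (D.phi (rowPoly D.E i) * D.phi (rowPoly D.E j)) := by
        simp only [e]; ring
    _ = (D.gInv * D.iQ D.g) * ∑ k, D.iQ (D.c i j k) * (D.gInv * D.phi (rowPoly D.E k)) := by
        rw [h, Finset.mul_sum, Finset.mul_sum, Finset.mul_sum]
        refine Finset.sum_congr rfl fun k _ => ?_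
        ring
    _ = _ := by rw [gInv_mul, one_mul]; rfl

/-- `K`-linear independence of the `e_i` -/
theorem e_indepK (x : Fin n → FractionRing Q) (h : ∑ i, AdjoinRoot.of D.PiK (x i) * D.e i = 0) :
    x = 0 := by
  classical
  set q : (FractionRing Q)[X] := ∑ i, C (x i) * (rowPoly D.E i).map (algebraMap Q (FractionRing Q)) with hq
  have h1 : AdjoinRoot.mk D.PiK q = 0 := by
    have h2 : D.gInv * AdjoinRoot.mk D.PiK q = 0 := by
      rw [← h, hq, map_sum, Finset.mul_sum]
      refine Finset.sum_congr rfl fun i _ => ?_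
      rw [map_mul, e, phi]
      simp only [RingHom.comp_apply, coe_mapRingHom, AdjoinRoot.mk_C]
      ring
    have h3 := congrArg (fun z => D.iQ D.g * z) h2
    simp only [mul_zero, ← mul_assoc] at h3
    rwa [mul_comm (D.iQ D.g), gInv_mul, one_mul] at h3
  rw [AdjoinRoot.mk_eq_zero] at h1
  have hdeg : q.degree < D.PiK.degree := by
    rw [degree_eq_natDegree D.monicK.ne_zero, D.natDegreeK]
    refine lt_of_le_of_lt (degree_sum_le _ _) ?_
    refine (Finset.sup_lt_iff (WithBot.bot_lt_coe n)).2 fun i _ => ?_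
    rw [← smul_eq_C_mul]
    refine lt_of_le_of_lt (degree_smul_le _ _) ?_
    rw [map_rowPoly]
    exact degree_rowPoly_lt _ _
  have hq0 : q = 0 := by
    by_contra hne
    exact absurd (degree_le_of_dvd h1 hne) (not_le.2 hdeg)
  have hcoef : ∀ j : Fin n, ∑ i, x i * algebraMap Q (FractionRing Q) (D.E i j) = 0 := by
    intro j
    have := congrArg (fun p => p.coeff (j : ℕ)) hq0
    simp only [hq, finsetSum_coeff, coeff_C_mul, coeff_zero, map_rowPoly, coeff_rowPoly] at this
    simpa using this
  have hvec : x ᵥ* (D.E.map (algebraMap Q (FractionRing Q))) = 0 := by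
    funext j
    simpa [Matrix.vecMul, dotProduct] using hcoef j
  have hEM : (D.E.map (algebraMap Q (FractionRing Q))) * (D.M.map (algebraMap Q (FractionRing Q)))
      = algebraMap Q (FractionRing Q) D.g • (1 : Matrix (Fin n) (Fin n) (FractionRing Q)) := by
    have := congrArg (fun N => N.map (algebraMap Q (FractionRing Q))) D.L1
    simp only [Matrix.map_mul] at this
    rw [this]
    ext a b
    by_cases hab : a = b
    · subst hab; simp
    · simp [Matrix.one_apply_ne hab]
  have h4 : x ᵥ* ((D.E.map (algebraMap Q (FractionRing Q))) * (D.M.map (algebraMap Q (FractionRing Q)))) = 0 := by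
    rw [← Matrix.vecMul_vecMul, hvec, Matrix.zero_vecMul]
  rw [hEM, Matrix.vecMul_smul, Matrix.vecMul_one] at h4
  have hg : algebraMap Q (FractionRing Q) D.g ≠ 0 :=
    IsFractionRing.to_map_ne_zero_of_mem_nonZeroDivisors (mem_nonZeroDivisors_of_ne_zero D.g_ne)
  funext i
  have := congrFun h4 i
  simpa [hg] using this

/-- `Q`-linear independence of the `e_i` -/
theorem e_indep (x y : Fin n → Q) (h : ∑ i, D.iQ (x i) * D.e i = ∑ i, D.iQ (y i) * D.e i) :
    x = y := by
  have h1 := D.e_indepK (fun i => algebraMap Q (FractionRing Q) (x i - y i)) (by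
    rw [← sub_eq_zero, ← Finset.sum_sub_distrib] at h
    rw [← h]
    refine Finset.sum_congr rfl fun i _ => ?_
    simp only [iQ, RingHom.comp_apply, map_sub]
    ring)
  funext i
  have h2 := congrFun h1 i
  simp only [Pi.zero_apply] at h2
  have h3 := (IsFractionRing.injective Q (FractionRing Q)) (h2.trans (map_zero _).symm)
  exact sub_eq_zero.1 h3

/-- **LD1**, `SC(c)`: commutativity -/
theorem c_comm (i j k : Fin n) : D.c i j k = D.c j i k := by
  have := D.e_indep (D.c i j) (D.c j i) (by rw [← e_mul, ← e_mul, mul_comm])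
  exact congrFun this k

/-- **LD1**, `SC(c)`: unit -/
theorem c_zero (j k : Fin n) : D.c 0 j k = if k = j then 1 else 0 := by
  classical
  have := D.e_indep (D.c 0 j) (fun k => if k = j then 1 else 0) (by
    rw [← e_mul, e_zero, one_mul]
    simp [Finset.sum_ite_eq'])
  exact congrFun this k

/-- **LD1**, `SC(c)`: associativity -/
theorem c_assoc (i j k l : Fin n) :
    ∑ m, D.c i j m * D.c m k l = ∑ m, D.c j k m * D.c i m l := by
  have := D.e_indep (fun l => ∑ m, D.c i j m * D.c m k l) (fun l => ∑ m, D.c j k m * D.c i m l) (by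
    have h1 : (D.e i * D.e j) * D.e k = ∑ l, D.iQ (∑ m, D.c i j m * D.c m k l) * D.e l := by
      rw [e_mul, Finset.sum_mul]
      simp only [mul_assoc, e_mul, Finset.mul_sum, map_sum, map_mul, Finset.sum_mul]
      rw [Finset.sum_comm]
    have h2 : D.e i * (D.e j * D.e k) = ∑ l, D.iQ (∑ m, D.c j k m * D.c i m l) * D.e l := by
      rw [e_mul, Finset.mul_sum]
      have : ∀ m, D.e i * (D.iQ (D.c j k m) * D.e m) = D.iQ (D.c j k m) * (D.e i * D.e m) := by
        intro m; ring
      simp only [this, e_mul, Finset.mul_sum, map_sum, map_mul, Finset.sum_mul, mul_assoc]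
      rw [Finset.sum_comm]
    rw [← h1, ← h2, mul_assoc])
  exact congrFun this l

/-- **LD2**: a derivation of `Q` extends to `T`. -/
theorem exists_dT {d : Q → Q} (hd : IsDer d) :
    ∃ dT : D.T → D.T, IsDer dT ∧ ∀ a, dT (D.iQ a) = D.iQ (d a) := by
  obtain ⟨dK, hK, hdK⟩ := exists_locDer' (Am := FractionRing Q) (nonZeroDivisors Q) hd
  have hΔ : algebraMap Q (FractionRing Q) D.Delta ≠ 0 :=
    IsFractionRing.to_map_ne_zero_of_mem_nonZeroDivisors
      (mem_nonZeroDivisors_of_ne_zero D.Delta_ne)
  have h4 := congrArg (Polynomial.map (algebraMap Q (FractionRing Q))) D.L4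
  simp only [Polynomial.map_add, Polynomial.map_mul, Polynomial.map_C, ← derivative_map] at h4
  obtain ⟨dT, hT, hdT⟩ := exists_adjoinRootDer' hK D.PiK
    (C (algebraMap Q (FractionRing Q) D.Delta)⁻¹ * D.A.map (algebraMap Q (FractionRing Q)))
    (C (algebraMap Q (FractionRing Q) D.Delta)⁻¹ * D.B.map (algebraMap Q (FractionRing Q))) (by
      have : C (algebraMap Q (FractionRing Q) D.Delta)⁻¹ * C (algebraMap Q (FractionRing Q) D.Delta)
          = (1 : (FractionRing Q)[X]) := by
        rw [← C_mul, inv_mul_cancel₀ hΔ, C_1]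
      rw [← this, ← h4]
      ring)
  refine ⟨dT, hT, fun a => ?_⟩
  simp only [iQ, RingHom.comp_apply, hdT, hdK]

/-- **LD3**, the relation satisfied by `κ_l = dT (e_l)`. -/
theorem kappa_rel {d : Q → Q} {dT : D.T → D.T} (hT : IsDer dT)
    (hdT : ∀ a, dT (D.iQ a) = D.iQ (d a)) (i j : Fin n) :
    dT (D.e i) * D.e j + D.e i * dT (D.e j) - ∑ k, D.iQ (D.c i j k) * dT (D.e k)
      - ∑ k, D.iQ (d (D.c i j k)) * D.e k = 0 := by
  have h := congrArg dT (D.e_mul i j)
  rw [hT.leibniz, hT.map_sum] at h
  simp only [hT.leibniz, hdT, Finset.sum_add_distrib] at h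
  have h2 : ∑ k, D.e k * D.iQ (d (D.c i j k)) = ∑ k, D.iQ (d (D.c i j k)) * D.e k :=
    Finset.sum_congr rfl fun k _ => mul_comm _ _
  rw [h2] at h
  linear_combination h

section Iota

variable {S : Type*} [CommRing S] [Algebra Q S] (b : Module.Basis (Fin n) Q S)

theorem repr_mul_of_sc {c : Fin n → Fin n → Fin n → Q}
    (hb : ∀ i j, b i * b j = ∑ k, c i j k • b k) (x y : S) (k : Fin n) :
    b.repr (x * y) k = ∑ i, ∑ j, b.repr x i * b.repr y j * c i j k := by
  conv_lhs => rw [← b.sum_repr x, ← b.sum_repr y]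
  simp only [Finset.sum_mul, Finset.mul_sum, smul_mul_smul_comm, hb, Finset.smul_sum, smul_smul,
    map_sum, map_smul, Finsupp.coe_finsetSum, Finset.sum_apply, Finsupp.smul_apply,
    Module.Basis.repr_self, smul_eq_mul]
  rw [Finset.sum_comm]
  refine Finset.sum_congr rfl fun i _ => Finset.sum_congr rfl fun j _ => ?_
  rw [Finset.sum_eq_single k]
  · simp
  · intro l _ hl
    simp [hl]
  · simp

/-- the embedding of a `Q`-algebra with basis `b` and structure constants `c` into `T` -/
noncomputable def iota (hb : ∀ i j, b i * b j = ∑ k, D.c i j k • b k) (hb0 : b 0 = 1) :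
    S →+* D.T where
  toFun x := ∑ l, D.iQ (b.repr x l) * D.e l
  map_one' := by
    classical
    rw [← hb0]
    simp only [Module.Basis.repr_self, Finsupp.single_apply]
    rw [Finset.sum_eq_single 0]
    · simp [e_zero]
    · intro l _ hl
      simp [hl.symm]
    · simp
  map_zero' := by simp
  map_add' x y := by
    simp [add_mul, Finset.sum_add_distrib]
  map_mul' x y := by
    have : ∀ i j, D.iQ (b.repr x i) * D.e i * (D.iQ (b.repr y j) * D.e j)
        = ∑ k, D.iQ (b.repr x i) * D.iQ (b.repr y j) * D.iQ (D.c i j k) * D.e k := by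
      intro i j
      rw [mul_mul_mul_comm, e_mul, Finset.mul_sum]
      refine Finset.sum_congr rfl fun k _ => by ring
    rw [Finset.sum_mul_sum]
    simp only [this]
    simp only [repr_mul_of_sc b hb, map_sum, map_mul, Finset.sum_mul]
    rw [Finset.sum_comm]
    refine Finset.sum_congr rfl fun i _ => ?_
    rw [Finset.sum_comm]

variable (hb : ∀ i j, b i * b j = ∑ k, D.c i j k • b k) (hb0 : b 0 = 1)

theorem iota_apply (x : S) : D.iota b hb hb0 x = ∑ l, D.iQ (b.repr x l) * D.e l := rfl

theorem iota_basis (l : Fin n) : D.iota b hb hb0 (b l) = D.e l := by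
  classical
  rw [iota_apply]
  simp only [Module.Basis.repr_self, Finsupp.single_apply]
  rw [Finset.sum_eq_single l]
  · simp
  · intro k _ hk
    simp [hk.symm]
  · simp

theorem iota_algebraMap (q : Q) : D.iota b hb hb0 (algebraMap Q S q) = D.iQ q := by
  rw [Algebra.algebraMap_eq_smul_one, ← hb0, iota_apply]
  classical
  simp only [map_smul, Module.Basis.repr_self, Finsupp.smul_apply, Finsupp.single_apply, smul_eq_mul]
  rw [Finset.sum_eq_single 0]
  · simp [e_zero]
  · intro k _ hk
    simp [hk.symm]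
  · simp

theorem iota_smul (q : Q) (x : S) : D.iota b hb hb0 (q • x) = D.iQ q * D.iota b hb hb0 x := by
  rw [Algebra.smul_def, map_mul, iota_algebraMap]

theorem iota_injective : Function.Injective (D.iota b hb hb0) := by
  intro x y h
  rw [iota_apply, iota_apply] at h
  have := D.e_indep _ _ h
  apply b.repr.injective
  ext l
  exact congrFun this l

end Iota

end Data

section Jac

variable {Q S J : Type*} [CommRing Q] [CommRing S] [Algebra Q S] {n : ℕ}

/-- The Jacobian matrix `M(c)` of the blueprint (JAC): rows `(i,j)`, columns `a`, `b`, `(y_l)`;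
`(M v)_(ij) = y_i e_j + e_i y_j - ∑ c_ijk y_k - a ∑ d_1(c_ijk) e_k - b ∑ d_2(c_ijk) e_k`. -/
def jacM (b : Fin n → S) (c : Fin n → Fin n → Fin n → Q)
    (dc : J → Fin n → Fin n → Fin n → Q) : Matrix (Fin n × Fin n) (J ⊕ Fin n) S :=
  fun ij col => match col with
    | Sum.inl a => - ∑ k, dc a ij.1 ij.2 k • b k
    | Sum.inr l => (if l = ij.1 then b ij.2 else 0) + (if l = ij.2 then b ij.1 else 0)
        - algebraMap Q S (c ij.1 ij.2 l)

end Jac

/-- **LD3 = (R)**: the Jacobian matrix of a `Q`-algebra with lattice data has "rank `≤ n`"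
(in the form used by `lzt_lift`). -/
theorem Data.cramerProp {Q : Type*} [CommRing Q] [IsDomain Q] {n : ℕ} [NeZero n] (D : Data Q n)
    {S : Type*} [CommRing S] [Algebra Q S] (b : Module.Basis (Fin n) Q S)
    (hb : ∀ i j, b i * b j = ∑ k, D.c i j k • b k) (hb0 : b 0 = 1)
    {J : Type*} [Fintype J] [DecidableEq J] (d : J → Q → Q) (hd : ∀ a, IsDer (d a)) :
    LztCramerProp (Fin n) (jacM b D.c (fun a i j k => d a (D.c i j k))) := by
  classical
  choose dT hT hdT using fun a => D.exists_dT (hd a)
  refine lzt_cramerProp_of_factor (D.iota b hb hb0) (D.iota_injective b hb hb0) _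
    (Matrix.of fun ij l =>
      D.iota b hb hb0 (jacM b D.c (fun a i j k => d a (D.c i j k)) ij (Sum.inr l)))
    (Matrix.of fun l col => match col with
      | Sum.inl a => - dT a (D.e l)
      | Sum.inr l' => if l = l' then 1 else 0) ?_
  ext ⟨i, j⟩ col
  rcases col with a | l'
  · have h := D.kappa_rel (hT a) (hdT a) i j
    simp only [Matrix.map_apply, Matrix.mul_apply, Matrix.of_apply, jacM, map_neg, map_sum,
      Data.iota_smul, Data.iota_basis, map_sub, map_add, Data.iota_algebraMap, mul_neg,
      Finset.sum_neg_distrib, neg_inj, sub_mul, add_mul, Finset.sum_sub_distrib,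
      Finset.sum_add_distrib, apply_ite (D.iota b hb hb0), map_zero, ite_mul, zero_mul,
      Finset.sum_ite_eq']
    simp only [Finset.mem_univ, if_true]
    linear_combination (-1 : D.T) * h
  · simp [Matrix.mul_apply]

/-- Lattice data `LD(P) = (Pi, E, Mh, g, u, ch, A, B, Delta)` of the blueprint, identities only
(no non-vanishing conditions), so that it is transported by every ring homomorphism. -/
structure RawData (P : Type*) [CommRing P] (n : ℕ) [NeZero n] where
  Pi : P[X]
  E : Matrix (Fin n) (Fin n) P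
  Mh : Matrix (Fin n) (Fin n) P
  g : P
  u : P
  Delta : P
  ch : Fin n → Fin n → Fin n → P
  A : P[X]
  B : P[X]
  monic : Pi.Monic
  natDegree_eq : Pi.natDegree = n
  L1 : E * Mh = (u * g) • (1 : Matrix (Fin n) (Fin n) P)
  L2 : rowPoly E 0 = C g
  L3 : ∀ i j, C u * ((rowPoly E i * rowPoly E j) %ₘ Pi) = C g * ∑ k, C (ch i j k) * rowPoly E k
  L4 : A * Pi + B * derivative Pi = C Delta

namespace RawData

variable {P P' : Type*} [CommRing P] [CommRing P'] {n : ℕ} [NeZero n]

/-- transport of lattice data by a ring homomorphism -/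
noncomputable def map [Nontrivial P'] (R : RawData P n) (f : P →+* P') : RawData P' n where
  Pi := R.Pi.map f
  E := R.E.map f
  Mh := R.Mh.map f
  g := f R.g
  u := f R.u
  Delta := f R.Delta
  ch i j k := f (R.ch i j k)
  A := R.A.map f
  B := R.B.map f
  monic := R.monic.map f
  natDegree_eq := by rw [R.monic.natDegree_map, R.natDegree_eq]
  L1 := by
    classical
    have := congrArg (fun N => N.map f) R.L1
    simp only [Matrix.map_mul] at this
    rw [this]
    ext a b
    by_cases hab : a = b
    · subst hab; simp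
    · simp [Matrix.one_apply_ne hab]
  L2 := by rw [← map_rowPoly, R.L2, Polynomial.map_C]
  L3 i j := by
    have := congrArg (Polynomial.map f) (R.L3 i j)
    simp only [Polynomial.map_mul, Polynomial.map_C, Polynomial.map_sum,
      Polynomial.map_modByMonic _ R.monic, map_rowPoly] at this
    exact this
  L4 := by
    have := congrArg (Polynomial.map f) R.L4
    simpa only [Polynomial.map_add, Polynomial.map_mul, Polynomial.map_C, derivative_map] using this

/-- if `u` is invertible: `c = ch / u`, `M = Mh / u`. -/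
noncomputable def toData (R : RawData P n) (uinv : P) (hu : R.u * uinv = 1) (hg : R.g ≠ 0)
    (hΔ : R.Delta ≠ 0) : Data P n where
  Pi := R.Pi
  E := R.E
  M := uinv • R.Mh
  g := R.g
  Delta := R.Delta
  c i j k := uinv * R.ch i j k
  A := R.A
  B := R.B
  monic := R.monic
  natDegree_eq := R.natDegree_eq
  g_ne := hg
  Delta_ne := hΔ
  L1 := by
    rw [Matrix.mul_smul, R.L1, smul_smul, ← mul_assoc, mul_comm uinv, hu, one_mul]
  L2 := R.L2
  L3 i j := by
    have h := congrArg (fun p => C uinv * p) (R.L3 i j)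
    simp only [← mul_assoc, ← C_mul, mul_comm uinv R.u, hu, C_1, one_mul] at h
    rw [h, C_mul, Finset.mul_sum, Finset.mul_sum]
    refine Finset.sum_congr rfl fun k _ => ?_
    rw [C_mul]
    ring
  L4 := R.L4

end RawData

end Claimed.Agent.R246.LD
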