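import Mathlib

/-!
# Row 246, Theorem T, module W: Weierstrass division in `A⟦X⟧`, `A` a complete local ring

Blueprint: helper350, `R246_T.md`, section W.  In the application `A = R = ℂ⟦X⟧` (variable `t`),
`A⟦X⟧ = P^ = ℂ⟦t⟧⟦s⟧`, `A[X] = R[s]`.
-/

set_option autoImplicit false

namespace Claimed.Agent.R246.T

open PowerSeries IsLocalRing
open scoped Polynomial

section W0

variable {k : Type*} [Field k]

theorem tw_smodEq_iff (n : ℕ) (x y : k⟦X⟧) :
    x ≡ y [SMOD (maximalIdeal k⟦X⟧ ^ n • ⊤ : Submodule k⟦X⟧ k⟦X⟧)] ↔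
      ∀ m, m < n → coeff m x = coeff m y := by
  rw [SModEq.sub_mem, smul_eq_mul, Ideal.mul_top, maximalIdeal_eq_span_X, Ideal.span_singleton_pow,
    Ideal.mem_span_singleton, X_pow_dvd_iff]
  simp only [map_sub, sub_eq_zero]

/-- **W0.** `k⟦X⟧` is complete for its maximal ideal. -/
instance tw_isAdicComplete : IsAdicComplete (maximalIdeal k⟦X⟧) k⟦X⟧ where
  haus' := by
    intro x hx
    ext m
    have := (tw_smodEq_iff (m + 1) x 0).mp (hx (m + 1)) m (Nat.lt_succ_self m)
    simpa using this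
  prec' := by
    intro f hf
    refine ⟨PowerSeries.mk fun i => coeff i (f (i + 1)), fun n => ?_⟩
    rw [tw_smodEq_iff]
    intro m hm
    rw [coeff_mk]
    exact ((tw_smodEq_iff (m + 1) _ _).mp (hf (Nat.succ_le_of_lt hm)) m (Nat.lt_succ_self m)).symm

end W0

section W

variable {A : Type*} [CommRing A] [IsLocalRing A]

/-- a distinguished polynomial is nonzero modulo the maximal ideal -/
theorem tw_map_ne_zero {g : A[X]} (hg : g.IsDistinguishedAt (maximalIdeal A)) :
    (g : A⟦X⟧).map (residue A) ≠ 0 :=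
  hg.map_ne_zero_of_eq_mul (g : A⟦X⟧) 1
    (by rw [constantCoeff_one, ← Ideal.ne_top_iff_one]; exact Ideal.IsPrime.ne_top inferInstance)
    (by simp)

/-- the order modulo the maximal ideal of a distinguished polynomial is its degree -/
theorem tw_order_toNat {g : A[X]} (hg : g.IsDistinguishedAt (maximalIdeal A)) :
    ((g : A⟦X⟧).map (residue A)).order.toNat = g.natDegree := by
  have := hg.coe_natDegree_eq_order_map (g : A⟦X⟧) 1
    (by rw [constantCoeff_one, ← Ideal.ne_top_iff_one]; exact Ideal.IsPrime.ne_top inferInstance)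
    (by simp)
  have h2 : ((g : A⟦X⟧).map (residue A)).order = (g.natDegree : ℕ∞) := this.symm
  rw [h2]
  rfl

theorem tw_pow {g : A[X]} (hg : g.IsDistinguishedAt (maximalIdeal A)) (N : ℕ) :
    (g ^ N).IsDistinguishedAt (maximalIdeal A) := by
  induction N with
  | zero =>
    rw [pow_zero]
    refine ⟨⟨?_⟩, Polynomial.monic_one⟩
    intro n hn
    simp at hn
  | succ N ih =>
    rw [pow_succ]
    exact ih.mul hg

variable [IsAdicComplete (maximalIdeal A) A]

/-- **W1 (existence).** -/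
theorem tw_div_exists {g : A[X]} (hg : g.IsDistinguishedAt (maximalIdeal A)) (f : A⟦X⟧) :
    ∃ (q : A⟦X⟧) (r : A[X]), r.degree < g.natDegree ∧ f = (g : A⟦X⟧) * q + r := by
  obtain ⟨q, r, H⟩ := f.exists_isWeierstrassDivision (tw_map_ne_zero hg)
  refine ⟨q, r, ?_, H.eq_mul_add⟩
  have := H.degree_lt
  rwa [show ((g : A⟦X⟧).map (Ideal.Quotient.mk (maximalIdeal A))).order.toNat = g.natDegree
    from tw_order_toNat hg] at this

/-- **W1 (uniqueness).** -/
theorem tw_div_unique {g : A[X]} (hg : g.IsDistinguishedAt (maximalIdeal A))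
    {q q' : A⟦X⟧} {r r' : A[X]} (hr : r.degree < g.natDegree) (hr' : r'.degree < g.natDegree)
    (h : (g : A⟦X⟧) * q + r = (g : A⟦X⟧) * q' + r') : q = q' ∧ r = r' := by
  have e : ((g : A⟦X⟧).map (Ideal.Quotient.mk (maximalIdeal A))).order.toNat = g.natDegree :=
    tw_order_toNat hg
  have H1 : ((g : A⟦X⟧) * q + r).IsWeierstrassDivision (g : A⟦X⟧) q r := ⟨by rwa [e], rfl⟩
  have H2 : ((g : A⟦X⟧) * q + r).IsWeierstrassDivision (g : A⟦X⟧) q' r' := ⟨by rwa [e], h⟩
  exact H1.elim (tw_map_ne_zero hg) H2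

/-- a distinguished polynomial is a non-zero-divisor of `A⟦X⟧` -/
theorem tw_regular {g : A[X]} (hg : g.IsDistinguishedAt (maximalIdeal A)) {q : A⟦X⟧}
    (h : (g : A⟦X⟧) * q = 0) : q = 0 := by
  have hb : (0 : A[X]).degree < g.natDegree := by
    rw [Polynomial.degree_zero]; exact WithBot.bot_lt_coe _
  exact (tw_div_unique hg (q := q) (q' := 0) (r := 0) (r' := 0) hb hb (by simp [h])).1

/-- the Weierstrass remainder, a polynomial of degree `< deg g` -/
noncomputable def twRem (g : A[X]) (f : A⟦X⟧) : A[X] := f %ʷ (g : A⟦X⟧)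

theorem twRem_degree_lt {g : A[X]} (hg : g.IsDistinguishedAt (maximalIdeal A)) (f : A⟦X⟧) :
    (twRem g f).degree < g.natDegree := by
  have := degree_weierstrassMod_lt f (g : A⟦X⟧)
  rwa [tw_order_toNat hg] at this

theorem twRem_dvd_sub {g : A[X]} (hg : g.IsDistinguishedAt (maximalIdeal A)) (f : A⟦X⟧) :
    (g : A⟦X⟧) ∣ f - (twRem g f : A⟦X⟧) :=
  ⟨f /ʷ (g : A⟦X⟧), by
    rw [sub_eq_iff_eq_add]
    exact eq_mul_weierstrassDiv_add_weierstrassMod f (tw_map_ne_zero hg)⟩

/-- characterisation of the remainder -/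
theorem twRem_eq {g : A[X]} (hg : g.IsDistinguishedAt (maximalIdeal A)) {f : A⟦X⟧} {r : A[X]}
    (hr : r.degree < g.natDegree) (h : (g : A⟦X⟧) ∣ f - (r : A⟦X⟧)) : twRem g f = r := by
  obtain ⟨q, hq⟩ := h
  obtain ⟨q', hq'⟩ := twRem_dvd_sub hg f
  refine (tw_div_unique hg (q := q') (q' := q) (twRem_degree_lt hg f) hr ?_).2
  rw [← hq, ← hq']
  ring

theorem twRem_add {g : A[X]} (f f' : A⟦X⟧) : twRem g (f + f') = twRem g f + twRem g f' :=
  add_weierstrassMod f f' _

theorem twRem_zero {g : A[X]} : twRem g (0 : A⟦X⟧) = 0 := weierstrassMod_zero_left _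

theorem twRem_smul {g : A[X]} (a : A) (f : A⟦X⟧) : twRem g (a • f) = a • twRem g f :=
  smul_weierstrassMod a f _

/-- on polynomials the Weierstrass remainder is the Euclidean remainder -/
theorem twRem_coe {g : A[X]} (hg : g.IsDistinguishedAt (maximalIdeal A)) (f : A[X]) :
    twRem g (f : A⟦X⟧) = f %ₘ g := by
  nontriviality A
  refine twRem_eq hg ?_ ⟨((f /ₘ g : A[X]) : A⟦X⟧), ?_⟩
  · have := Polynomial.degree_modByMonic_lt f hg.monic
    rwa [Polynomial.degree_eq_natDegree hg.monic.ne_zero] at this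
  · rw [← Polynomial.coe_mul, ← Polynomial.coe_sub]
    congr 1
    rw [sub_eq_iff_eq_add, add_comm]
    exact (Polynomial.modByMonic_add_div f g).symm

/-- **W2.** divisibility of a polynomial by a distinguished polynomial descends from `A⟦X⟧` to `A[X]`. -/
theorem tw_dvd_of_coe_dvd {g : A[X]} (hg : g.IsDistinguishedAt (maximalIdeal A)) {f : A[X]}
    (h : (g : A⟦X⟧) ∣ (f : A⟦X⟧)) : g ∣ f := by
  have hb : (0 : A[X]).degree < g.natDegree := by
    rw [Polynomial.degree_zero]; exact WithBot.bot_lt_coe _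
  have h1 : twRem g (f : A⟦X⟧) = 0 := twRem_eq hg hb (by simpa using h)
  rw [twRem_coe hg] at h1
  exact (Polynomial.modByMonic_eq_zero_iff_dvd hg.monic).mp h1

/-- **W2'.** if `g * h` is a polynomial then `h` is a polynomial. -/
theorem tw_exists_coe_of_mul {g : A[X]} (hg : g.IsDistinguishedAt (maximalIdeal A)) {h : A⟦X⟧}
    {p : A[X]} (hp : (g : A⟦X⟧) * h = p) : ∃ p' : A[X], h = p' ∧ p = g * p' := by
  obtain ⟨p', rfl⟩ := tw_dvd_of_coe_dvd hg (f := p) ⟨h, hp.symm⟩
  refine ⟨p', ?_, rfl⟩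
  have : (g : A⟦X⟧) * (h - p') = 0 := by
    rw [mul_sub, hp, Polynomial.coe_mul, sub_self]
  exact sub_eq_zero.mp (tw_regular hg this)

/-- **W3.** preparation of a polynomial: the unit is a polynomial as well. -/
theorem tw_preparation {f : A[X]} (hf : (f : A⟦X⟧).map (residue A) ≠ 0) :
    ∃ g u : A[X], g.IsDistinguishedAt (maximalIdeal A) ∧ IsUnit (u.coeff 0) ∧ f = g * u := by
  obtain ⟨g, h, H⟩ := exists_isWeierstrassFactorization hf
  obtain ⟨u, hu, hfu⟩ := tw_exists_coe_of_mul H.isDistinguishedAt (h := h) (p := f) H.eq_mul.symm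
  refine ⟨g, u, H.isDistinguishedAt, ?_, hfu⟩
  have h1 := H.isUnit
  rw [hu, isUnit_iff_constantCoeff] at h1
  simpa using h1

/-- preparation of a series -/
theorem tw_preparation_series {f : A⟦X⟧} (hf : f.map (residue A) ≠ 0) :
    ∃ (g : A[X]) (h : A⟦X⟧), g.IsDistinguishedAt (maximalIdeal A) ∧ IsUnit h ∧ f = g * h := by
  obtain ⟨g, h, H⟩ := exists_isWeierstrassFactorization hf
  exact ⟨g, h, H.isDistinguishedAt, H.isUnit, H.eq_mul⟩

end W

section W4

variable {A : Type*} [CommRing A]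

/-- **W4.** divisibility by a constant descends from `A⟦X⟧` to `A[X]`. -/
theorem tw_C_dvd_of_coe {a : A} {f : A[X]} (h : (PowerSeries.C a : A⟦X⟧) ∣ (f : A⟦X⟧)) :
    Polynomial.C a ∣ f := by
  rw [Polynomial.C_dvd_iff_dvd_coeff]
  intro i
  obtain ⟨q, hq⟩ := h
  refine ⟨coeff i q, ?_⟩
  have := congrArg (coeff i) hq
  rwa [Polynomial.coeff_coe, coeff_C_mul] at this

/-- W4 for series: `C a ∣ φ` iff `a` divides all coefficients. -/
theorem tw_C_dvd_iff {a : A} {φ : A⟦X⟧} : (PowerSeries.C a : A⟦X⟧) ∣ φ ↔ ∀ i, a ∣ coeff i φ := by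
  constructor
  · rintro ⟨q, rfl⟩ i
    exact ⟨coeff i q, by rw [coeff_C_mul]⟩
  · intro h
    choose c hc using h
    exact ⟨PowerSeries.mk c, by ext i; rw [coeff_C_mul, coeff_mk, hc]⟩

end W4

end Claimed.Agent.R246.T
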