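import Mathlib
import Claimed.Agent.R246.T.W
import Claimed.Agent.R246.T.Bridge
import Claimed.Agent.R246.TRA

/-!
# Row 246, Theorem T: the rings `P_1`, `P_2`, `P_3` of the blueprint (`S[s][1/u] ⊆ k⟦t⟧⟦s⟧`)

`𝒪 = k⟦t⟧`, `𝒫 = 𝒪⟦s⟧` (`s = X`, `t = C X`).  For a `k`-subalgebra `S ⊆ 𝒪` and `u : 𝒪[X]`
(in the applications: coefficients in `S`, `u(0,0) ≠ 0`)

  `tQ S u : Subalgebra k 𝒫 := k[C S, s, 1/u]`.

`P_1 = tQ ⊤ u`, `P_2 = tQ tRalg u`, `P_3 = tQ S_3 u`.
-/

set_option autoImplicit false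
set_option linter.unusedSectionVars false

namespace Claimed.Agent.R246.T

open scoped PowerSeries Polynomial

section Basic

variable {k : Type*} [Field k]

local notation "𝒪" => PowerSeries k
local notation "𝒫" => PowerSeries (PowerSeries k)

/-- `C : 𝒪 → 𝒫` as a `k`-algebra hom -/
noncomputable def tqC (k : Type*) [Field k] : PowerSeries k →ₐ[k] PowerSeries (PowerSeries k) :=
  { (PowerSeries.C : PowerSeries k →+* PowerSeries (PowerSeries k)) with
    commutes' := fun _ => PowerSeries.algebraMap_apply.symm }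

@[simp] theorem tqC_apply (a : 𝒪) : tqC k a = PowerSeries.C a := rfl

theorem tq_algebraMap (r : k) : algebraMap k 𝒫 r = PowerSeries.C (algebraMap k 𝒪 r) :=
  PowerSeries.algebraMap_apply

/-- polynomials in `s` with coefficients in `S` -/
def tqPol (S : Subalgebra k 𝒪) : Subalgebra k 𝒪[X] where
  carrier := {N | ∀ i, N.coeff i ∈ S}
  mul_mem' := by
    intro a b ha hb i
    rw [Polynomial.coeff_mul]
    exact S.sum_mem fun x _ => S.mul_mem (ha _) (hb _)
  add_mem' := by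
    intro a b ha hb i
    rw [Polynomial.coeff_add]
    exact S.add_mem (ha i) (hb i)
  algebraMap_mem' := by
    intro r i
    rw [Polynomial.algebraMap_apply, Polynomial.coeff_C]
    split_ifs
    · exact S.algebraMap_mem r
    · exact S.zero_mem

theorem mem_tqPol {S : Subalgebra k 𝒪} {N : 𝒪[X]} : N ∈ tqPol S ↔ ∀ i, N.coeff i ∈ S := Iff.rfl

theorem tqPol_mono {S S' : Subalgebra k 𝒪} (h : S ≤ S') : tqPol S ≤ tqPol S' :=
  fun _ hN i => h (hN i)

theorem tqPol_C_mem {S : Subalgebra k 𝒪} {a : 𝒪} (ha : a ∈ S) : Polynomial.C a ∈ tqPol S := by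
  intro i
  rw [Polynomial.coeff_C]
  split_ifs
  · exact ha
  · exact S.zero_mem

theorem tqPol_X_mem (S : Subalgebra k 𝒪) : (Polynomial.X : 𝒪[X]) ∈ tqPol S := by
  intro i
  rw [Polynomial.coeff_X]
  split_ifs
  · exact S.one_mem
  · exact S.zero_mem

theorem tqPol_derivative_mem {S : Subalgebra k 𝒪} {N : 𝒪[X]} (hN : N ∈ tqPol S) :
    Polynomial.derivative N ∈ tqPol S := by
  intro i
  rw [Polynomial.coeff_derivative]
  refine S.mul_mem (hN _) ?_
  have : ((i : 𝒪) + 1) = algebraMap k 𝒪 ((i : k) + 1) := by simp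
  rw [this]
  exact S.algebraMap_mem _

theorem tqPol_coeffDer_mem {S : Subalgebra k 𝒪} (hS : ∀ x ∈ S, PowerSeries.derivative k x ∈ S)
    {N : 𝒪[X]} (hN : N ∈ tqPol S) : tcoeffDerPoly (PowerSeries.derivative k) N ∈ tqPol S := by
  intro i
  rw [coeff_tcoeffDerPoly]
  exact hS _ (hN i)

/-- **the ring `S[s][1/u]`** -/
noncomputable def tQ (S : Subalgebra k 𝒪) (u : 𝒪[X]) : Subalgebra k 𝒫 :=
  Algebra.adjoin k ((fun a => PowerSeries.C a) '' (S : Set 𝒪) ∪ {PowerSeries.X, Ring.inverse (u : 𝒫)})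

theorem tQ_C_mem {S : Subalgebra k 𝒪} (u : 𝒪[X]) {a : 𝒪} (ha : a ∈ S) :
    (PowerSeries.C a : 𝒫) ∈ tQ S u :=
  Algebra.subset_adjoin (Or.inl ⟨a, ha, rfl⟩)

theorem tQ_X_mem (S : Subalgebra k 𝒪) (u : 𝒪[X]) : (PowerSeries.X : 𝒫) ∈ tQ S u :=
  Algebra.subset_adjoin (Or.inr (Or.inl rfl))

theorem tQ_inv_mem (S : Subalgebra k 𝒪) (u : 𝒪[X]) : Ring.inverse (u : 𝒫) ∈ tQ S u :=
  Algebra.subset_adjoin (Or.inr (Or.inr rfl))

theorem tQ_mono {S S' : Subalgebra k 𝒪} (h : S ≤ S') (u : 𝒪[X]) : tQ S u ≤ tQ S' u := by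
  apply Algebra.adjoin_mono
  apply Set.union_subset_union_left
  exact Set.image_mono h

theorem tQ_coe_mem {S : Subalgebra k 𝒪} (u : 𝒪[X]) {N : 𝒪[X]} (hN : N ∈ tqPol S) :
    (N : 𝒫) ∈ tQ S u := by
  rw [N.as_sum_range_C_mul_X_pow]
  have : ((∑ i ∈ Finset.range (N.natDegree + 1), Polynomial.C (N.coeff i) * Polynomial.X ^ i : 𝒪[X]) : 𝒫)
      = ∑ i ∈ Finset.range (N.natDegree + 1), PowerSeries.C (N.coeff i) * PowerSeries.X ^ i := by
    have := map_sum (Polynomial.coeToPowerSeries.ringHom (R := 𝒪))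
      (fun i => Polynomial.C (N.coeff i) * Polynomial.X ^ i) (Finset.range (N.natDegree + 1))
    simp only [Polynomial.coeToPowerSeries.ringHom_apply] at this
    rw [this]
    refine Finset.sum_congr rfl fun i _ => ?_
    rw [Polynomial.coe_mul, Polynomial.coe_pow, Polynomial.coe_C, Polynomial.coe_X]
  rw [this]
  exact Subalgebra.sum_mem _ fun i _ =>
    Subalgebra.mul_mem _ (tQ_C_mem u (hN i)) (Subalgebra.pow_mem _ (tQ_X_mem S u) i)

/-- `u` is a unit of `𝒫` if `u(0,0) ≠ 0` -/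
theorem tq_isUnit {u : 𝒪[X]} (hu0 : PowerSeries.constantCoeff (u.coeff 0) ≠ 0) : IsUnit (u : 𝒫) := by
  rw [PowerSeries.isUnit_iff_constantCoeff]
  have : PowerSeries.constantCoeff (u : 𝒫) = u.coeff 0 := by
    rw [← PowerSeries.coeff_zero_eq_constantCoeff_apply, Polynomial.coeff_coe]
  rw [this, PowerSeries.isUnit_iff_constantCoeff]
  exact IsUnit.mk0 _ hu0

/-- membership in `S[s][1/u]` -/
theorem mem_tQ_iff {S : Subalgebra k 𝒪} {u : 𝒪[X]} (hu : u ∈ tqPol S)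
    (hu0 : PowerSeries.constantCoeff (u.coeff 0) ≠ 0) {f : 𝒫} :
    f ∈ tQ S u ↔ ∃ (e : ℕ) (N : 𝒪[X]), N ∈ tqPol S ∧ (u : 𝒫) ^ e * f = N := by
  have hU := tq_isUnit hu0
  constructor
  · intro hf
    induction hf using Algebra.adjoin_induction with
    | mem x hx =>
      rcases hx with ⟨a, ha, rfl⟩ | rfl | rfl
      · exact ⟨0, Polynomial.C a, tqPol_C_mem ha, by simp⟩
      · exact ⟨0, Polynomial.X, tqPol_X_mem S, by simp⟩
      · exact ⟨1, 1, Subalgebra.one_mem _, by simp [Ring.mul_inverse_cancel _ hU]⟩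
    | algebraMap r =>
      refine ⟨0, Polynomial.C (algebraMap k 𝒪 r), tqPol_C_mem (S.algebraMap_mem r), ?_⟩
      rw [pow_zero, one_mul, Polynomial.coe_C, tq_algebraMap]
    | add x y _ _ hx hy =>
      obtain ⟨e, N, hN, h⟩ := hx
      obtain ⟨e', N', hN', h'⟩ := hy
      refine ⟨e + e', u ^ e' * N + u ^ e * N', Subalgebra.add_mem _
        (Subalgebra.mul_mem _ (Subalgebra.pow_mem _ hu _) hN)
        (Subalgebra.mul_mem _ (Subalgebra.pow_mem _ hu _) hN'), ?_⟩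
      simp only [Polynomial.coe_add, Polynomial.coe_mul, Polynomial.coe_pow, ← h, ← h']
      ring
    | mul x y _ _ hx hy =>
      obtain ⟨e, N, hN, h⟩ := hx
      obtain ⟨e', N', hN', h'⟩ := hy
      refine ⟨e + e', N * N', Subalgebra.mul_mem _ hN hN', ?_⟩
      simp only [Polynomial.coe_mul, ← h, ← h']
      ring
  · rintro ⟨e, N, hN, h⟩
    have : f = Ring.inverse (u : 𝒫) ^ e * N := by
      rw [← h, ← mul_assoc, ← mul_pow, Ring.inverse_mul_cancel _ hU, one_pow, one_mul]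
    rw [this]
    exact Subalgebra.mul_mem _ (Subalgebra.pow_mem _ (tQ_inv_mem S u) e) (tQ_coe_mem u hN)


/-! ### finite generation -/

theorem tQ_eq_adjoin_of_adjoin (s : Set 𝒪) (u : 𝒪[X]) :
    tQ (Algebra.adjoin k s) u
      = Algebra.adjoin k ((fun a => PowerSeries.C a) '' s ∪ {PowerSeries.X, Ring.inverse (u : 𝒫)}) := by
  apply le_antisymm
  · apply Algebra.adjoin_le
    rintro x (⟨a, ha, rfl⟩ | hx)
    · have h1 : (Algebra.adjoin k s).map (tqC k) = Algebra.adjoin k (tqC k '' s) :=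
        AlgHom.map_adjoin _ _
      have h2 : tqC k a ∈ (Algebra.adjoin k s).map (tqC k) := ⟨a, ha, rfl⟩
      rw [h1] at h2
      exact Algebra.adjoin_mono Set.subset_union_left h2
    · exact Algebra.subset_adjoin (Or.inr hx)
  · apply Algebra.adjoin_mono
    apply Set.union_subset_union_left
    exact Set.image_mono Algebra.subset_adjoin

theorem tQ_fg {S : Subalgebra k 𝒪} (hS : S.FG) (u : 𝒪[X]) : (tQ S u).FG := by
  classical
  obtain ⟨s, rfl⟩ := hS
  rw [tQ_eq_adjoin_of_adjoin]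
  refine ⟨s.image (fun a => PowerSeries.C a) ∪ {PowerSeries.X, Ring.inverse (u : 𝒫)}, ?_⟩
  congr 1
  simp

/-! ### finite subsets -/

/-- finitely many elements of `S[s][1/u]` involve only finitely many elements of `S` -/
theorem tQ_exists_finset {S : Subalgebra k 𝒪} {u : 𝒪[X]} (hu : u ∈ tqPol S)
    (hu0 : PowerSeries.constantCoeff (u.coeff 0) ≠ 0) (F : Finset 𝒫) (hF : ∀ f ∈ F, f ∈ tQ S u) :
    ∃ ys : Finset 𝒪, (∀ y ∈ ys, y ∈ S) ∧ ∀ S0 : Subalgebra k 𝒪, (∀ y ∈ ys, y ∈ S0) →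
      ∀ f ∈ F, f ∈ tQ S0 u := by
  classical
  have hU := tq_isUnit hu0
  induction F using Finset.induction_on with
  | empty => exact ⟨∅, by simp, by simp⟩
  | insert f F hfF ih =>
    obtain ⟨ys, hys, h⟩ := ih fun g hg => hF g (Finset.mem_insert_of_mem hg)
    obtain ⟨e, N, hN, hf⟩ := (mem_tQ_iff hu hu0).1 (hF f (Finset.mem_insert_self _ _))
    refine ⟨ys ∪ (Finset.range (N.natDegree + 1)).image N.coeff, ?_, ?_⟩
    · intro y hy
      rcases Finset.mem_union.1 hy with hy | hy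
      · exact hys y hy
      · obtain ⟨i, _, rfl⟩ := Finset.mem_image.1 hy
        exact hN i
    · intro S0 hS0 g hg
      rcases Finset.mem_insert.1 hg with rfl | hg
      · have hN0 : N ∈ tqPol S0 := by
          intro i
          by_cases hi : i < N.natDegree + 1
          · exact hS0 _ (Finset.mem_union_right _ (Finset.mem_image.2 ⟨i, Finset.mem_range.2 hi, rfl⟩))
          · rw [Polynomial.coeff_eq_zero_of_natDegree_lt (by omega)]
            exact S0.zero_mem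
        have : g = Ring.inverse (u : 𝒫) ^ e * N := by
          rw [← hf, ← mul_assoc, ← mul_pow, Ring.inverse_mul_cancel _ hU, one_pow, one_mul]
        rw [this]
        exact Subalgebra.mul_mem _ (Subalgebra.pow_mem _ (tQ_inv_mem S0 u) e) (tQ_coe_mem u hN0)
      · exact h S0 (fun y hy => hS0 y (Finset.mem_union_left _ hy)) g hg

/-! ### derivations -/

/-- a derivation which maps the generators into the subalgebra stabilises it -/
theorem tq_adjoin_stable {E : Type*} [CommRing E] [Algebra k E] (s : Set E) (D : Derivation k E E)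
    (h : ∀ x ∈ s, D x ∈ Algebra.adjoin k s) : ∀ x ∈ Algebra.adjoin k s, D x ∈ Algebra.adjoin k s := by
  intro x hx
  induction hx using Algebra.adjoin_induction with
  | mem x hx => exact h x hx
  | algebraMap r => rw [Derivation.map_algebraMap]; exact Subalgebra.zero_mem _
  | add x y _ _ h1 h2 => rw [map_add]; exact Subalgebra.add_mem _ h1 h2
  | mul x y hx hy h1 h2 =>
    rw [Derivation.leibniz]
    exact Subalgebra.add_mem _ (Subalgebra.mul_mem _ hx h2) (Subalgebra.mul_mem _ hy h1)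

theorem tq_der_inverse {E : Type*} [CommRing E] [Algebra k E] (D : Derivation k E E) {U : E}
    (hU : IsUnit U) : D (Ring.inverse U) = - (Ring.inverse U ^ 2 * D U) := by
  have := D.leibniz_of_mul_eq_one (Ring.inverse_mul_cancel U hU)
  rw [this, smul_eq_mul, neg_mul]

theorem tQ_tds_mem {S : Subalgebra k 𝒪} {u : 𝒪[X]} (hu : u ∈ tqPol S)
    (hu0 : PowerSeries.constantCoeff (u.coeff 0) ≠ 0) : ∀ f ∈ tQ S u, tds k f ∈ tQ S u := by
  apply tq_adjoin_stable
  rintro x (⟨a, ha, rfl⟩ | rfl | rfl)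
  · rw [tds_C]; exact Subalgebra.zero_mem _
  · rw [tds_X]; exact Subalgebra.one_mem _
  · rw [tq_der_inverse _ (tq_isUnit hu0), tds_coe]
    exact Subalgebra.neg_mem _ (Subalgebra.mul_mem _ (Subalgebra.pow_mem _ (tQ_inv_mem S u) 2)
      (tQ_coe_mem u (tqPol_derivative_mem hu)))

theorem tQ_tdt_mem {S : Subalgebra k 𝒪} (hS : ∀ x ∈ S, PowerSeries.derivative k x ∈ S) {u : 𝒪[X]}
    (hu : u ∈ tqPol S) (hu0 : PowerSeries.constantCoeff (u.coeff 0) ≠ 0) :
    ∀ f ∈ tQ S u, tdt k f ∈ tQ S u := by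
  apply tq_adjoin_stable
  rintro x (⟨a, ha, rfl⟩ | rfl | rfl)
  · rw [tdt_C]; exact tQ_C_mem u (hS a ha)
  · rw [tdt_X]; exact Subalgebra.zero_mem _
  · rw [tq_der_inverse _ (tq_isUnit hu0), tdt_coe]
    exact Subalgebra.neg_mem _ (Subalgebra.mul_mem _ (Subalgebra.pow_mem _ (tQ_inv_mem S u) 2)
      (tQ_coe_mem u (tqPol_coeffDer_mem hS hu)))

/-- restriction of a derivation to a stable subalgebra -/
noncomputable def tqResDer {E : Type*} [CommRing E] [Algebra k E] (B : Subalgebra k E)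
    (D : Derivation k E E) (h : ∀ b ∈ B, D b ∈ B) : Derivation k B B :=
  Derivation.mk'
    { toFun := fun b => ⟨D b, h b b.2⟩
      map_add' := fun a b => Subtype.ext (by simp)
      map_smul' := fun r a => Subtype.ext (by simp) }
    (fun a b => Subtype.ext (by simp [Derivation.leibniz]))

@[simp] theorem tqResDer_coe {E : Type*} [CommRing E] [Algebra k E] (B : Subalgebra k E)
    (D : Derivation k E E) (h : ∀ b ∈ B, D b ∈ B) (b : B) : ((tqResDer B D h b : B) : E) = D b := rfl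

/-! ### the value at the origin -/

/-- `f ↦ f(0,0)` -/
noncomputable def tqEv (k : Type*) [Field k] : PowerSeries (PowerSeries k) →ₐ[k] k :=
  { (PowerSeries.constantCoeff (R := k)).comp (PowerSeries.constantCoeff (R := PowerSeries k)) with
    commutes' := fun r => by
      change PowerSeries.constantCoeff (PowerSeries.constantCoeff (algebraMap k _ r)) = r
      rw [tq_algebraMap]
      simp }

theorem tqEv_apply (f : 𝒫) :
    tqEv k f = PowerSeries.constantCoeff (PowerSeries.constantCoeff f) := rfl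

@[simp] theorem tqEv_X : tqEv k (PowerSeries.X : 𝒫) = 0 := by simp [tqEv_apply]

@[simp] theorem tqEv_C (a : 𝒪) : tqEv k (PowerSeries.C a : 𝒫) = PowerSeries.constantCoeff a := by
  simp [tqEv_apply]

theorem tqEv_coe (N : 𝒪[X]) : tqEv k (N : 𝒫) = PowerSeries.constantCoeff (N.coeff 0) := by
  rw [tqEv_apply, ← PowerSeries.coeff_zero_eq_constantCoeff_apply (N : 𝒫), Polynomial.coeff_coe]


/-! ### `(s,t)` is a transcendence basis -/

/-- the pair `(s,t)` in `𝒫` -/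
noncomputable def tqP (k : Type*) [Field k] : Fin 2 → PowerSeries (PowerSeries k) :=
  ![PowerSeries.X, PowerSeries.C PowerSeries.X]

theorem tqP_zero : tqP k 0 = PowerSeries.X := rfl
theorem tqP_one : tqP k 1 = PowerSeries.C PowerSeries.X := rfl

theorem tqP_algebraicIndependent : AlgebraicIndependent k (tqP k) := by
  have h1 : AlgebraicIndependent k (fun i : Fin 2 => (MvPowerSeries.X i : MvPowerSeries (Fin 2) k)) := by
    rw [algebraicIndependent_iff_injective_aeval]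
    have : (MvPolynomial.aeval (fun i : Fin 2 => (MvPowerSeries.X i : MvPowerSeries (Fin 2) k)))
        = MvPolynomial.coeToMvPowerSeries.algHom (σ := Fin 2) (R := k) k := by
      apply MvPolynomial.algHom_ext
      intro i
      simp
    rw [this]
    intro a b hab
    simpa using hab
  have h2 := h1.map' (f := (tbeta k).toAlgHom) (tbeta k).injective
  have h3 : (tbeta k).toAlgHom ∘ (fun i : Fin 2 => (MvPowerSeries.X i : MvPowerSeries (Fin 2) k))
      = tqP k := by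
    funext i
    fin_cases i
    · exact tbeta_X_zero k
    · exact tbeta_X_one k
  rwa [h3] at h2

/-- `k[s,t] ⊆ 𝒫` -/
noncomputable def tqA1 (k : Type*) [Field k] : Subalgebra k (PowerSeries (PowerSeries k)) :=
  Algebra.adjoin k (Set.range (tqP k))

theorem tqA1_X_mem : (PowerSeries.X : 𝒫) ∈ tqA1 k := Algebra.subset_adjoin ⟨0, rfl⟩
theorem tqA1_t_mem : (PowerSeries.C PowerSeries.X : 𝒫) ∈ tqA1 k := Algebra.subset_adjoin ⟨1, rfl⟩

/-- `k[t] → k[s,t]` -/
noncomputable def tqInc (k : Type*) [Field k] : k[X] →ₐ[k] tqA1 k :=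
  Polynomial.aeval (⟨PowerSeries.C PowerSeries.X, tqA1_t_mem⟩ : tqA1 k)

theorem tqInc_coe (p : k[X]) : ((tqInc k p : tqA1 k) : 𝒫) = PowerSeries.C (p : 𝒪) := by
  have : (tqA1 k).val.comp (tqInc k)
      = (tqC k).comp (Polynomial.coeToPowerSeries.algHom (R := k) k) := by
    apply Polynomial.algHom_ext
    simp [tqInc]
  have h2 := congrArg (fun φ => φ p) this
  simpa using h2

theorem tqInc_injective : Function.Injective (tqInc k) := by
  intro p q h
  have h1 := congrArg (fun x : tqA1 k => (x : 𝒫)) h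
  simp only [tqInc_coe] at h1
  exact Polynomial.coe_injective k (PowerSeries.C_injective h1)

theorem tq_isAlgebraic_C {a : 𝒪} (ha : IsAlgebraic k[X] a) :
    IsAlgebraic (tqA1 k) (PowerSeries.C a : 𝒫) := by
  refine IsAlgebraic.ringHom_of_comp_eq (tqInc k) (PowerSeries.C : 𝒪 →+* 𝒫) ha tqInc_injective ?_
  refine RingHom.ext fun p => ?_
  exact tqInc_coe p

theorem tq_isAlgebraic_of_mem {S : Subalgebra k 𝒪} (hS : ∀ x ∈ S, IsAlgebraic k[X] x) {u : 𝒪[X]}
    (hu : u ∈ tqPol S) (hu0 : PowerSeries.constantCoeff (u.coeff 0) ≠ 0) {f : 𝒫} (hf : f ∈ tQ S u) :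
    IsAlgebraic (tqA1 k) f := by
  have hX : IsAlgebraic (tqA1 k) (PowerSeries.X : 𝒫) :=
    isAlgebraic_algebraMap (⟨PowerSeries.X, tqA1_X_mem⟩ : tqA1 k)
  have hcoe : ∀ N ∈ tqPol S, IsAlgebraic (tqA1 k) ((N : 𝒪[X]) : 𝒫) := by
    intro N hN
    rw [N.as_sum_range_C_mul_X_pow]
    have := map_sum (Polynomial.coeToPowerSeries.ringHom (R := 𝒪))
      (fun i => Polynomial.C (N.coeff i) * Polynomial.X ^ i) (Finset.range (N.natDegree + 1))
    simp only [Polynomial.coeToPowerSeries.ringHom_apply] at this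
    rw [this]
    have hsum : ∀ (t : Finset ℕ) (F : ℕ → 𝒫), (∀ i ∈ t, IsAlgebraic (tqA1 k) (F i)) →
        IsAlgebraic (tqA1 k) (∑ i ∈ t, F i) := by
      intro t F
      induction t using Finset.induction_on with
      | empty => intro _; simpa using isAlgebraic_zero
      | insert a t ha ih =>
        intro h
        rw [Finset.sum_insert ha]
        exact (h a (Finset.mem_insert_self _ _)).add
          (ih fun i hi => h i (Finset.mem_insert_of_mem hi))
    refine hsum _ _ fun i _ => ?_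
    rw [Polynomial.coe_mul, Polynomial.coe_pow, Polynomial.coe_C, Polynomial.coe_X]
    exact (tq_isAlgebraic_C (hS _ (hN i))).mul (hX.pow i)
  induction hf using Algebra.adjoin_induction with
  | mem x hx =>
    rcases hx with ⟨a, ha, rfl⟩ | rfl | rfl
    · exact tq_isAlgebraic_C (hS a ha)
    · exact hX
    · have hU := tq_isUnit hu0
      refine IsAlgebraic.of_mul (y := (u : 𝒫)) (mem_nonZeroDivisors_of_ne_zero hU.ne_zero)
        (hcoe u hu) ?_
      rw [Ring.mul_inverse_cancel _ hU]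
      exact isAlgebraic_one
  | algebraMap r => exact isAlgebraic_algebraMap (algebraMap k (tqA1 k) r)
  | add x y _ _ h1 h2 => exact h1.add h2
  | mul x y _ _ h1 h2 => exact h1.mul h2


/-- the pair `(s,t)` in `S[s][1/u]` -/
noncomputable def tqPQ {S : Subalgebra k 𝒪} (hT : PowerSeries.X ∈ S) (u : 𝒪[X]) : Fin 2 → tQ S u :=
  ![⟨PowerSeries.X, tQ_X_mem S u⟩, ⟨PowerSeries.C PowerSeries.X, tQ_C_mem u hT⟩]

theorem tqPQ_coe {S : Subalgebra k 𝒪} (hT : PowerSeries.X ∈ S) (u : 𝒪[X]) (a : Fin 2) :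
    ((tqPQ hT u a : tQ S u) : 𝒫) = tqP k a := by
  fin_cases a <;> rfl

theorem tqPQ_algebraicIndependent {S : Subalgebra k 𝒪} (hT : PowerSeries.X ∈ S) (u : 𝒪[X]) :
    AlgebraicIndependent k (tqPQ hT u) := by
  apply AlgebraicIndependent.of_comp (tQ S u).val
  have : (tQ S u).val ∘ tqPQ hT u = tqP k := funext fun a => tqPQ_coe hT u a
  rw [this]
  exact tqP_algebraicIndependent

/-- **(s,t) is a transcendence basis of `S[s][1/u]`** if `S` consists of algebraic series. -/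
theorem tqPQ_isTranscendenceBasis {S : Subalgebra k 𝒪} (hT : PowerSeries.X ∈ S)
    (hS : ∀ x ∈ S, IsAlgebraic k[X] x) {u : 𝒪[X]}
    (hu : u ∈ tqPol S) (hu0 : PowerSeries.constantCoeff (u.coeff 0) ≠ 0) :
    IsTranscendenceBasis k (tqPQ hT u) := by
  rw [(tqPQ_algebraicIndependent hT u).isTranscendenceBasis_iff_isAlgebraic]
  have hmap : (Algebra.adjoin k (Set.range (tqPQ hT u))).map (tQ S u).val = tqA1 k := by
    rw [AlgHom.map_adjoin, tqA1, ← Set.range_comp]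
    congr 2
    exact funext fun a => tqPQ_coe hT u a
  let f0 : Algebra.adjoin k (Set.range (tqPQ hT u)) →ₐ[k] tqA1 k :=
    ((tQ S u).val.comp (Algebra.adjoin k (Set.range (tqPQ hT u))).val).codRestrict (tqA1 k) (by
      intro x
      rw [← hmap]
      exact ⟨x.1, x.2, rfl⟩)
  have hf0 : Function.Surjective f0 := by
    rintro ⟨y, hy⟩
    rw [← hmap] at hy
    obtain ⟨x, hx, rfl⟩ := hy
    exact ⟨⟨x, hx⟩, rfl⟩
  constructor
  intro x
  refine IsAlgebraic.of_ringHom_of_comp_eq f0 (tQ S u).val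
    (tq_isAlgebraic_of_mem hS hu hu0 x.2) hf0 Subtype.val_injective ?_
  rfl

/-- the value at the origin on `S[s][1/u]` -/
noncomputable def tqEvQ (S : Subalgebra k 𝒪) (u : 𝒪[X]) : tQ S u →ₐ[k] k := (tqEv k).comp (tQ S u).val

theorem tqEvQ_apply (S : Subalgebra k 𝒪) (u : 𝒪[X]) (f : tQ S u) : tqEvQ S u f = tqEv k (f : 𝒫) := rfl

theorem tqEvQ_PQ {S : Subalgebra k 𝒪} (hT : PowerSeries.X ∈ S) (u : 𝒪[X]) (a : Fin 2) :
    tqEvQ S u (tqPQ hT u a) = 0 := by
  rw [tqEvQ_apply, tqPQ_coe]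
  fin_cases a
  · exact tqEv_X
  · change tqEv k (PowerSeries.C PowerSeries.X) = 0
    simp

/-- **nilQ**: every element of `S[s][1/u]` vanishing at the origin is nilpotent modulo `(s,t)`,
up to a factor which does not vanish at the origin. -/
theorem tq_nilQ {S : Subalgebra k 𝒪} (hT : PowerSeries.X ∈ S)
    (hS : ∀ x ∈ S, IsAlgebraic k[X] x) {u : 𝒪[X]}
    (hu : u ∈ tqPol S) (hu0 : PowerSeries.constantCoeff (u.coeff 0) ≠ 0) (f : tQ S u)
    (hf : tqEvQ S u f = 0) :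
    ∃ (h : tQ S u) (n : ℕ), tqEvQ S u h ≠ 0 ∧ h * f ^ n ∈ Ideal.span (Set.range (tqPQ hT u)) := by
  have hU := tq_isUnit hu0
  obtain ⟨e, N, hN, hfN⟩ := (mem_tQ_iff hu hu0).1 f.2
  have hN0 : PowerSeries.constantCoeff (N.coeff 0) = 0 := by
    rw [← tqEv_coe, ← hfN, map_mul]
    rw [tqEvQ_apply] at hf
    rw [hf, mul_zero]
  obtain ⟨a, h, hhS, r, hrS, hh0, hhr⟩ := lzt_RA5' (hS _ (hN 0)) hN0 S hT (hN 0)
  have hdivX : N.divX ∈ tqPol S := by
    intro i
    rw [Polynomial.coeff_divX]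
    exact hN _
  -- elements of `Q`
  let V : tQ S u := ⟨Ring.inverse (u : 𝒫), tQ_inv_mem S u⟩
  let n0 : tQ S u := ⟨PowerSeries.C (N.coeff 0), tQ_C_mem u (hN 0)⟩
  let n1 : tQ S u := ⟨(N.divX : 𝒫), tQ_coe_mem u hdivX⟩
  let nQ : tQ S u := ⟨(N : 𝒫), tQ_coe_mem u hN⟩
  let hQ : tQ S u := ⟨PowerSeries.C h, tQ_C_mem u hhS⟩
  let rQ : tQ S u := ⟨PowerSeries.C r, tQ_C_mem u hrS⟩
  have e1 : nQ = n0 + tqPQ hT u 0 * n1 := by
    apply Subtype.ext
    change (N : 𝒫) = PowerSeries.C (N.coeff 0) + PowerSeries.X * (N.divX : 𝒫)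
    conv_lhs => rw [← Polynomial.divX_mul_X_add N]
    rw [Polynomial.coe_add, Polynomial.coe_mul, Polynomial.coe_X, Polynomial.coe_C]
    ring
  have e2 : hQ * n0 ^ a = tqPQ hT u 1 * rQ := by
    apply Subtype.ext
    change PowerSeries.C h * PowerSeries.C (N.coeff 0) ^ a = PowerSeries.C PowerSeries.X * PowerSeries.C r
    rw [← map_pow, ← map_mul, ← map_mul, hhr]
  have e3 : f = V ^ e * nQ := by
    apply Subtype.ext
    change (f : 𝒫) = Ring.inverse (u : 𝒫) ^ e * (N : 𝒫)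
    rw [← hfN, ← mul_assoc, ← mul_pow, Ring.inverse_mul_cancel _ hU, one_pow, one_mul]
  obtain ⟨w, hw⟩ := sub_dvd_pow_sub_pow nQ n0 a
  have e4 : nQ - n0 = tqPQ hT u 0 * n1 := by rw [e1]; ring
  refine ⟨hQ, a, ?_, ?_⟩
  · rw [tqEvQ_apply]
    change tqEv k (PowerSeries.C h) ≠ 0
    rw [tqEv_C]
    exact hh0
  · have e5 : hQ * f ^ a = (V ^ e) ^ a * rQ * tqPQ hT u 1 + (V ^ e) ^ a * hQ * n1 * w * tqPQ hT u 0 := by
      have : nQ ^ a = n0 ^ a + tqPQ hT u 0 * n1 * w := by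
        rw [← e4, ← hw]; ring
      rw [e3, mul_pow, this]
      calc hQ * ((V ^ e) ^ a * (n0 ^ a + tqPQ hT u 0 * n1 * w))
          = (V ^ e) ^ a * (hQ * n0 ^ a) + (V ^ e) ^ a * hQ * n1 * w * tqPQ hT u 0 := by ring
        _ = _ := by rw [e2]; ring
    rw [e5]
    exact Ideal.add_mem _ (Ideal.mul_mem_left _ _ (Ideal.subset_span ⟨1, rfl⟩))
      (Ideal.mul_mem_left _ _ (Ideal.subset_span ⟨0, rfl⟩))

/-! ### saturation -/

/-- **saturation of `P_1 = R[s][1/u]`** with respect to a distinguished polynomial (W2) -/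
theorem tQ_top_sat {u : 𝒪[X]} (hu0 : PowerSeries.constantCoeff (u.coeff 0) ≠ 0) {g : 𝒪[X]}
    (hg : g.IsDistinguishedAt (IsLocalRing.maximalIdeal 𝒪)) (m : ℕ) {f h : 𝒫}
    (hf : f ∈ tQ (⊤ : Subalgebra k 𝒪) u) (hfh : f = (g : 𝒫) ^ m * h) :
    h ∈ tQ (⊤ : Subalgebra k 𝒪) u := by
  have hu : u ∈ tqPol (⊤ : Subalgebra k 𝒪) := fun _ => Algebra.mem_top
  obtain ⟨e, N, _, hN⟩ := (mem_tQ_iff hu hu0).1 hf
  have hgm := tw_pow hg m
  have h1 : ((g ^ m : 𝒪[X]) : 𝒫) * ((u : 𝒫) ^ e * h) = N := by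
    rw [← hN, hfh, Polynomial.coe_pow]; ring
  obtain ⟨N', hN', _⟩ := tw_exists_coe_of_mul hgm h1
  exact (mem_tQ_iff hu hu0).2 ⟨e, N', fun _ => Algebra.mem_top, hN'⟩

/-- **saturation with respect to `t`** (W4 + RA1) -/
theorem tQ_sat_t {S : Subalgebra k 𝒪} (hdiv : ∀ x : 𝒪, PowerSeries.X * x ∈ S → x ∈ S) {u : 𝒪[X]}
    (hu : u ∈ tqPol S) (hu0 : PowerSeries.constantCoeff (u.coeff 0) ≠ 0) (m : ℕ) {f h : 𝒫}
    (hf : f ∈ tQ S u) (hfh : f = (PowerSeries.C PowerSeries.X : 𝒫) ^ m * h) : h ∈ tQ S u := by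
  obtain ⟨e, N, hNS, hN⟩ := (mem_tQ_iff hu hu0).1 hf
  have hdivm : ∀ (m : ℕ) (x : 𝒪), PowerSeries.X ^ m * x ∈ S → x ∈ S := by
    intro m
    induction m with
    | zero => intro x hx; simpa using hx
    | succ m ih =>
      intro x hx
      apply hdiv
      apply ih
      rwa [← mul_assoc, ← pow_succ]
  have h1 : (PowerSeries.C (PowerSeries.X ^ m) : 𝒫) * ((u : 𝒫) ^ e * h) = N := by
    rw [← hN, hfh, map_pow]; ring
  obtain ⟨N', hN'⟩ := tw_C_dvd_of_coe (a := (PowerSeries.X : 𝒪) ^ m) (f := N) ⟨_, h1.symm⟩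
  have hN'S : N' ∈ tqPol S := by
    intro i
    apply hdivm m
    have := hNS i
    rwa [hN', Polynomial.coeff_C_mul] at this
  refine (mem_tQ_iff hu hu0).2 ⟨e, N', hN'S, ?_⟩
  have h2 : (PowerSeries.C (PowerSeries.X ^ m) : 𝒫) * ((u : 𝒫) ^ e * h)
      = PowerSeries.C (PowerSeries.X ^ m) * (N' : 𝒫) := by
    rw [h1, hN', Polynomial.coe_mul, Polynomial.coe_C]
  have h3 : (PowerSeries.C (PowerSeries.X ^ m) : 𝒫) ≠ 0 := by
    intro h0
    have : (PowerSeries.X : 𝒪) ^ m = 0 := PowerSeries.C_injective (by rw [h0, map_zero])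
    exact pow_ne_zero m PowerSeries.X_ne_zero this
  exact mul_left_cancel₀ h3 h2


/-! ### approximation -/

/-- **approximation modulo `g ^ e`** (W1): every series is congruent to a polynomial in `s` -/
theorem tQ_approx_g (S : Subalgebra k 𝒪) (hS : S = ⊤) (u : 𝒪[X]) {g : 𝒪[X]}
    (hg : g.IsDistinguishedAt (IsLocalRing.maximalIdeal 𝒪)) (e : ℕ) (f : 𝒫) :
    ∃ f' ∈ tQ S u, (g : 𝒫) ^ e ∣ f' - f := by
  subst hS
  refine ⟨(twRem (g ^ e) f : 𝒫), tQ_coe_mem u fun _ => Algebra.mem_top, ?_⟩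
  have := twRem_dvd_sub (tw_pow hg e) f
  rw [Polynomial.coe_pow] at this
  rw [← neg_sub]
  exact (dvd_neg).2 this

theorem tq_trunc_dvd (e : ℕ) (a : 𝒪) :
    (PowerSeries.X : 𝒪) ^ e ∣ ((PowerSeries.trunc e a : k[X]) : 𝒪) - a := by
  rw [PowerSeries.X_pow_dvd_iff]
  intro m hm
  rw [map_sub, Polynomial.coeff_coe, PowerSeries.coeff_trunc, if_pos hm, sub_self]

/-- every polynomial in `s` is congruent modulo `t ^ e` to one with coefficients in `k[t]` -/
theorem tqPol_approx_t {S : Subalgebra k 𝒪} (hT : PowerSeries.X ∈ S) (e : ℕ) (N : 𝒪[X]) :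
    ∃ N' ∈ tqPol S, (PowerSeries.C PowerSeries.X : 𝒫) ^ e ∣ (N' : 𝒫) - (N : 𝒫) := by
  induction N using Polynomial.induction_on' with
  | add p q hp hq =>
    obtain ⟨p', hp', h1⟩ := hp
    obtain ⟨q', hq', h2⟩ := hq
    refine ⟨p' + q', Subalgebra.add_mem _ hp' hq', ?_⟩
    have : ((p' + q' : 𝒪[X]) : 𝒫) - ((p + q : 𝒪[X]) : 𝒫) = ((p' : 𝒫) - p) + ((q' : 𝒫) - q) := by
      rw [Polynomial.coe_add, Polynomial.coe_add]; ring
    rw [this]
    exact dvd_add h1 h2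
  | monomial n a =>
    refine ⟨Polynomial.C ((PowerSeries.trunc e a : k[X]) : 𝒪) * Polynomial.X ^ n,
      Subalgebra.mul_mem _ (tqPol_C_mem (lzt_coe_mem S hT _)) (Subalgebra.pow_mem _ (tqPol_X_mem S) n), ?_⟩
    obtain ⟨w, hw⟩ := tq_trunc_dvd e a
    refine ⟨PowerSeries.C w * PowerSeries.X ^ n, ?_⟩
    rw [← Polynomial.C_mul_X_pow_eq_monomial]
    simp only [Polynomial.coe_mul, Polynomial.coe_pow, Polynomial.coe_C, Polynomial.coe_X]
    rw [← sub_mul, ← map_sub, hw, map_mul, map_pow]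
    ring

/-- **approximation modulo `t ^ e`**: `R[s][1/u] → S[s][1/u']`, if `u' = u` modulo `t ^ e`, `t ∈ S`. -/
theorem tQ_approx_t {S S' : Subalgebra k 𝒪} (hT : PowerSeries.X ∈ S') {u u' : 𝒪[X]} (hu : u ∈ tqPol S)
    (hu0 : PowerSeries.constantCoeff (u.coeff 0) ≠ 0)
    (hu0' : PowerSeries.constantCoeff (u'.coeff 0) ≠ 0) (e : ℕ)
    (huu : (PowerSeries.C PowerSeries.X : 𝒫) ^ e ∣ (u' : 𝒫) - (u : 𝒫)) {f : 𝒫} (hf : f ∈ tQ S u) :
    ∃ f' ∈ tQ S' u', (PowerSeries.C PowerSeries.X : 𝒫) ^ e ∣ f' - f := by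
  have hU' := tq_isUnit hu0'
  obtain ⟨j, N, _, hN⟩ := (mem_tQ_iff hu hu0).1 hf
  obtain ⟨N', hN', hd⟩ := tqPol_approx_t hT e N
  refine ⟨Ring.inverse (u' : 𝒫) ^ j * N',
    Subalgebra.mul_mem _ (Subalgebra.pow_mem _ (tQ_inv_mem S' u') j) (tQ_coe_mem u' hN'), ?_⟩
  have h1 : (PowerSeries.C PowerSeries.X : 𝒫) ^ e ∣ (u' : 𝒫) ^ j - (u : 𝒫) ^ j :=
    huu.trans (sub_dvd_pow_sub_pow _ _ j)
  have h2 : Ring.inverse (u' : 𝒫) ^ j * N' - f
      = Ring.inverse (u' : 𝒫) ^ j * (((N' : 𝒫) - N) - ((u' : 𝒫) ^ j - (u : 𝒫) ^ j) * f) := by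
    have h3 : Ring.inverse (u' : 𝒫) ^ j * (u' : 𝒫) ^ j = 1 := by
      rw [← mul_pow, Ring.inverse_mul_cancel _ hU', one_pow]
    calc Ring.inverse (u' : 𝒫) ^ j * N' - f
        = Ring.inverse (u' : 𝒫) ^ j * N' - (Ring.inverse (u' : 𝒫) ^ j * (u' : 𝒫) ^ j) * f := by
          rw [h3, one_mul]
      _ = _ := by rw [← hN]; ring
  rw [h2]
  exact Dvd.dvd.mul_left (dvd_sub hd (Dvd.dvd.mul_right h1 _)) _

/-! ### the algebraic power series -/

/-- `R^alg`: the algebraic power series -/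
def tRalg (k : Type*) [Field k] : Subalgebra k (PowerSeries k) where
  carrier := {f | IsAlgebraic k[X] f}
  mul_mem' := fun ha hb => IsAlgebraic.mul ha hb
  add_mem' := fun ha hb => IsAlgebraic.add ha hb
  algebraMap_mem' := fun r => by
    have := lzt_alg_coe (k := k) (Polynomial.C r)
    rwa [Polynomial.coe_C] at this

theorem mem_tRalg {f : 𝒪} : f ∈ tRalg k ↔ IsAlgebraic k[X] f := Iff.rfl

theorem tRalg_X_mem : (PowerSeries.X : 𝒪) ∈ tRalg k := lzt_alg_X

theorem tRalg_div (x : 𝒪) (h : PowerSeries.X * x ∈ tRalg k) : x ∈ tRalg k := lzt_alg_of_X_mul h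

theorem tRalg_derivative [CharZero k] (x : 𝒪) (h : x ∈ tRalg k) :
    PowerSeries.derivative k x ∈ tRalg k := lzt_alg_derivative h

/-! ### the two derivations of `S[s][1/u]` -/

/-- `∂/∂s`, `∂/∂t` on `S[s][1/u]` -/
noncomputable def tqD {S : Subalgebra k 𝒪} (hS : ∀ x ∈ S, PowerSeries.derivative k x ∈ S) {u : 𝒪[X]}
    (hu : u ∈ tqPol S) (hu0 : PowerSeries.constantCoeff (u.coeff 0) ≠ 0) :
    Fin 2 → Derivation k (tQ S u) (tQ S u) :=
  ![tqResDer _ (tds k) (tQ_tds_mem hu hu0), tqResDer _ (tdt k) (tQ_tdt_mem hS hu hu0)]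

theorem tqD_zero_coe {S : Subalgebra k 𝒪} (hS : ∀ x ∈ S, PowerSeries.derivative k x ∈ S) {u : 𝒪[X]}
    (hu : u ∈ tqPol S) (hu0 : PowerSeries.constantCoeff (u.coeff 0) ≠ 0) (f : tQ S u) :
    ((tqD hS hu hu0 0 f : tQ S u) : 𝒫) = tds k f := rfl

theorem tqD_one_coe {S : Subalgebra k 𝒪} (hS : ∀ x ∈ S, PowerSeries.derivative k x ∈ S) {u : 𝒪[X]}
    (hu : u ∈ tqPol S) (hu0 : PowerSeries.constantCoeff (u.coeff 0) ≠ 0) (f : tQ S u) :
    ((tqD hS hu hu0 1 f : tQ S u) : 𝒫) = tdt k f := rfl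

theorem tqD_PQ {S : Subalgebra k 𝒪} (hT : PowerSeries.X ∈ S)
    (hS : ∀ x ∈ S, PowerSeries.derivative k x ∈ S) {u : 𝒪[X]}
    (hu : u ∈ tqPol S) (hu0 : PowerSeries.constantCoeff (u.coeff 0) ≠ 0) (a a' : Fin 2) :
    tqD hS hu hu0 a (tqPQ hT u a') = if a = a' then 1 else 0 := by
  apply Subtype.ext
  fin_cases a <;> fin_cases a'
  · exact tds_X k
  · exact tds_C k _
  · exact tdt_X k
  · exact tdt_t k

end Basic

end Claimed.Agent.R246.T

/-! ### hygiene (rule 6) -/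
theorem Claimed.Agent.R246.T.Hyg.pring : True := by
  have := @Claimed.Agent.R246.T.tqC.eq_1.{0}
  have := @Claimed.Agent.R246.T.tqC.eq_def.{0}
  have := @Claimed.Agent.R246.T.tqPol.eq_1.{0}
  have := @Claimed.Agent.R246.T.tqPol.eq_def.{0}
  have := @Claimed.Agent.R246.T.tQ.eq_1.{0}
  have := @Claimed.Agent.R246.T.tQ.eq_def.{0}
  have := @Claimed.Agent.R246.T.tqResDer.eq_1.{0,0}
  have := @Claimed.Agent.R246.T.tqResDer.eq_def.{0,0}
  have := @Claimed.Agent.R246.T.tqEv.eq_1.{0}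
  have := @Claimed.Agent.R246.T.tqEv.eq_def.{0}
  have := @Claimed.Agent.R246.T.tqP.eq_1.{0}
  have := @Claimed.Agent.R246.T.tqP.eq_def.{0}
  have := @Claimed.Agent.R246.T.tqA1.eq_1.{0}
  have := @Claimed.Agent.R246.T.tqA1.eq_def.{0}
  have := @Claimed.Agent.R246.T.tqInc.eq_1.{0}
  have := @Claimed.Agent.R246.T.tqInc.eq_def.{0}
  have := @Claimed.Agent.R246.T.tqPQ.eq_1.{0}
  have := @Claimed.Agent.R246.T.tqPQ.eq_def.{0}
  have := @Claimed.Agent.R246.T.tqEvQ.eq_1.{0}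
  have := @Claimed.Agent.R246.T.tqEvQ.eq_def.{0}
  have := @Claimed.Agent.R246.T.tRalg.eq_1.{0}
  have := @Claimed.Agent.R246.T.tRalg.eq_def.{0}
  have := @Claimed.Agent.R246.T.tqD.eq_1.{0}
  have := @Claimed.Agent.R246.T.tqD.eq_def.{0}
  trivial
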