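import Claimed.Agent.R246.T.LD
import Claimed.Agent.R246.T.PRing
import Claimed.Agent.R246.AAOne

/-!
# Row 246, Theorem T, assembly module (E): descent of lattice data, Artin approximation of lattice data

* `RawData.exists_descend` : lattice data whose entries lie in the range of an injective ring hom descend.
* `exists_algData` : lattice data over `k⟦t⟧[s]` are approximated `t`-adically by lattice data with algebraic coefficients.
* `exists_data_tQ` : lattice data over `𝒪[X]` with coefficients in `S` give `LD.Data` over `tQ S u = S[s][1/u]`.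
-/

set_option autoImplicit false
set_option linter.unusedSectionVars false

namespace Claimed.Agent.R246.LD

open Polynomial Matrix

section Descend

variable {P0 P1 : Type*} [CommRing P0] [CommRing P1] {n : ℕ} [NeZero n]

/-- all entries of the lattice data lie in the set `s` -/
structure RawData.InSet (R : RawData P1 n) (s : Set P1) : Prop where
  Pi : ∀ l, R.Pi.coeff l ∈ s
  E : ∀ i j, R.E i j ∈ s
  Mh : ∀ i j, R.Mh i j ∈ s
  g : R.g ∈ s
  u : R.u ∈ s
  Delta : R.Delta ∈ s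
  ch : ∀ i j l, R.ch i j l ∈ s
  A : ∀ l, R.A.coeff l ∈ s
  B : ∀ l, R.B.coeff l ∈ s

/-- `R0` is a descent of `R` along `f` -/
structure RawData.IsMap (f : P0 →+* P1) (R0 : RawData P0 n) (R : RawData P1 n) : Prop where
  Pi : R0.Pi.map f = R.Pi
  E : ∀ i j, f (R0.E i j) = R.E i j
  Mh : ∀ i j, f (R0.Mh i j) = R.Mh i j
  g : f R0.g = R.g
  u : f R0.u = R.u
  Delta : f R0.Delta = R.Delta
  ch : ∀ i j l, f (R0.ch i j l) = R.ch i j l
  A : R0.A.map f = R.A
  B : R0.B.map f = R.B

theorem RawData.isMap_map [Nontrivial P1] (f : P0 →+* P1) (R0 : RawData P0 n) :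
    RawData.IsMap f R0 (R0.map f) :=
  ⟨rfl, fun _ _ => rfl, fun _ _ => rfl, rfl, rfl, rfl, fun _ _ _ => rfl, rfl, rfl⟩

/-- **(E1)** descent of lattice data along an injective ring homomorphism -/
theorem RawData.exists_descend (f : P0 →+* P1) (hf : Function.Injective f) (R : RawData P1 n)
    (h : R.InSet (Set.range f)) : ∃ R0 : RawData P0 n, RawData.IsMap f R0 R := by
  classical
  obtain ⟨Pi0, hPi0, hdeg0, hmon0⟩ := Polynomial.lifts_and_natDegree_eq_and_monic
    ((Polynomial.lifts_iff_coeff_lifts _).2 h.Pi) R.monic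
  obtain ⟨A0, hA0⟩ := (Polynomial.mem_lifts _).1 ((Polynomial.lifts_iff_coeff_lifts _).2 h.A)
  obtain ⟨B0, hB0⟩ := (Polynomial.mem_lifts _).1 ((Polynomial.lifts_iff_coeff_lifts _).2 h.B)
  choose E0 hE0 using h.E
  choose Mh0 hMh0 using h.Mh
  choose ch0 hch0 using h.ch
  obtain ⟨g0, hg0⟩ := h.g
  obtain ⟨u0, hu0⟩ := h.u
  obtain ⟨Δ0, hΔ0⟩ := h.Delta
  have hEm : (Matrix.of E0).map f = R.E := by ext i j; exact hE0 i j
  have hMm : (Matrix.of Mh0).map f = R.Mh := by ext i j; exact hMh0 i j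
  have hrow : ∀ i, (rowPoly (Matrix.of E0) i).map f = rowPoly R.E i := by
    intro i; rw [map_rowPoly, hEm]
  refine ⟨{ Pi := Pi0, E := Matrix.of E0, Mh := Matrix.of Mh0, g := g0, u := u0, Delta := Δ0,
            ch := ch0, A := A0, B := B0, monic := hmon0,
            natDegree_eq := by rw [hdeg0, R.natDegree_eq], L1 := ?_, L2 := ?_, L3 := ?_, L4 := ?_ },
          ⟨hPi0, hE0, hMh0, hg0, hu0, hΔ0, hch0, hA0, hB0⟩⟩
  · apply Matrix.map_injective hf
    simp only
    rw [Matrix.map_mul, hEm, hMm, R.L1]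
    ext a b
    by_cases hab : a = b
    · subst hab; simp [hu0, hg0]
    · simp [Matrix.one_apply_ne hab]
  · apply Polynomial.map_injective f hf
    rw [hrow, R.L2, Polynomial.map_C, hg0]
  · intro i j
    apply Polynomial.map_injective f hf
    rw [Polynomial.map_mul, Polynomial.map_C, Polynomial.map_modByMonic _ hmon0, Polynomial.map_mul,
      hrow, hrow, hPi0, hu0, R.L3, Polynomial.map_mul, Polynomial.map_C, hg0, Polynomial.map_sum]
    simp only [Polynomial.map_mul, Polynomial.map_C, hrow, hch0]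
  · apply Polynomial.map_injective f hf
    rw [Polynomial.map_add, Polynomial.map_mul, Polynomial.map_mul, ← derivative_map, hA0, hB0, hPi0,
      R.L4, Polynomial.map_C, hΔ0]

theorem RawData.InSet.mono {R : RawData P1 n} {s t : Set P1} (h : R.InSet s) (hst : s ⊆ t) :
    R.InSet t :=
  ⟨fun l => hst (h.Pi l), fun i j => hst (h.E i j), fun i j => hst (h.Mh i j), hst h.g, hst h.u,
    hst h.Delta, fun i j l => hst (h.ch i j l), fun l => hst (h.A l), fun l => hst (h.B l)⟩

theorem coeff_mem_coeffs_union (p : P1[X]) (l : ℕ) : p.coeff l ∈ (↑p.coeffs ∪ {0} : Set P1) := by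
  by_cases h : p.coeff l = 0
  · right; exact h
  · left; exact Polynomial.coeff_mem_coeffs h

/-- the entries of lattice data form a finite set -/
theorem RawData.exists_finite (R : RawData P1 n) : ∃ F : Set P1, F.Finite ∧ R.InSet F := by
  classical
  refine ⟨(↑R.Pi.coeffs ∪ {0}) ∪ (↑R.A.coeffs ∪ {0}) ∪ (↑R.B.coeffs ∪ {0})
      ∪ Set.range (fun ij : Fin n × Fin n => R.E ij.1 ij.2)
      ∪ Set.range (fun ij : Fin n × Fin n => R.Mh ij.1 ij.2)
      ∪ Set.range (fun ijl : Fin n × Fin n × Fin n => R.ch ijl.1 ijl.2.1 ijl.2.2)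
      ∪ {R.g, R.u, R.Delta}, ?_, ?_⟩
  · refine Set.Finite.union (Set.Finite.union (Set.Finite.union (Set.Finite.union (Set.Finite.union
      (Set.Finite.union ?_ ?_) ?_) (Set.finite_range _)) (Set.finite_range _)) (Set.finite_range _))
      (by simp)
    all_goals exact Set.Finite.union (Finset.finite_toSet _) (Set.finite_singleton _)
  · refine ⟨fun l => ?_, fun i j => ?_, fun i j => ?_, ?_, ?_, ?_, fun i j l => ?_, fun l => ?_,
      fun l => ?_⟩
    · exact Or.inl (Or.inl (Or.inl (Or.inl (Or.inl (Or.inl (coeff_mem_coeffs_union _ l))))))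
    · exact Or.inl (Or.inl (Or.inl (Or.inr ⟨(i, j), rfl⟩)))
    · exact Or.inl (Or.inl (Or.inr ⟨(i, j), rfl⟩))
    · exact Or.inr (by simp)
    · exact Or.inr (by simp)
    · exact Or.inr (by simp)
    · exact Or.inl (Or.inr ⟨(i, j, l), rfl⟩)
    · exact Or.inl (Or.inl (Or.inl (Or.inl (Or.inl (Or.inr (coeff_mem_coeffs_union _ l))))))
    · exact Or.inl (Or.inl (Or.inl (Or.inl (Or.inr (coeff_mem_coeffs_union _ l)))))

/-- entrywise relation between lattice data -/
structure RawData.Rel (r : P1 → P1 → Prop) (R R' : RawData P1 n) : Prop where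
  Pi : ∀ l, r (R.Pi.coeff l) (R'.Pi.coeff l)
  E : ∀ i j, r (R.E i j) (R'.E i j)
  Mh : ∀ i j, r (R.Mh i j) (R'.Mh i j)
  g : r R.g R'.g
  u : r R.u R'.u
  Delta : r R.Delta R'.Delta
  ch : ∀ i j l, r (R.ch i j l) (R'.ch i j l)
  A : ∀ l, r (R.A.coeff l) (R'.A.coeff l)
  B : ∀ l, r (R.B.coeff l) (R'.B.coeff l)

/-- two images of the same lattice data -/
theorem RawData.rel_of_isMap {P2 : Type*} [CommRing P2] {f f' : P0 →+* P2} {R0 : RawData P0 n}
    {R R' : RawData P2 n} (h : RawData.IsMap f R0 R) (h' : RawData.IsMap f' R0 R')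
    (r : P2 → P2 → Prop) (hr : ∀ x, r (f x) (f' x)) : RawData.Rel r R R' :=
  ⟨fun l => by rw [← h.Pi, ← h'.Pi, coeff_map, coeff_map]; exact hr _,
   fun i j => by rw [← h.E, ← h'.E]; exact hr _, fun i j => by rw [← h.Mh, ← h'.Mh]; exact hr _,
   by rw [← h.g, ← h'.g]; exact hr _, by rw [← h.u, ← h'.u]; exact hr _,
   by rw [← h.Delta, ← h'.Delta]; exact hr _, fun i j l => by rw [← h.ch, ← h'.ch]; exact hr _,
   fun l => by rw [← h.A, ← h'.A, coeff_map, coeff_map]; exact hr _,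
   fun l => by rw [← h.B, ← h'.B, coeff_map, coeff_map]; exact hr _⟩

theorem RawData.inSet_of_isMap {f : P0 →+* P1} {R0 : RawData P0 n} {R : RawData P1 n}
    (h : RawData.IsMap f R0 R) (s : Set P1) (hs : ∀ x, f x ∈ s) : R.InSet s :=
  ⟨fun l => by rw [← h.Pi, coeff_map]; exact hs _, fun i j => by rw [← h.E]; exact hs _,
   fun i j => by rw [← h.Mh]; exact hs _, by rw [← h.g]; exact hs _, by rw [← h.u]; exact hs _,
   by rw [← h.Delta]; exact hs _, fun i j l => by rw [← h.ch]; exact hs _,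
   fun l => by rw [← h.A, coeff_map]; exact hs _, fun l => by rw [← h.B, coeff_map]; exact hs _⟩

end Descend

section AR

open Claimed.Agent.R246.T

variable {k : Type*} [Field k] [CharZero k] {n : ℕ} [NeZero n]

local notation "𝒪" => PowerSeries k

/-- coefficientwise congruence modulo `t ^ N` of polynomials in `s` -/
def CongT (N : ℕ) (p q : 𝒪[X]) : Prop := ∀ m, (PowerSeries.X : 𝒪) ^ N ∣ p.coeff m - q.coeff m

theorem CongT.mono {N N' : ℕ} (h : N ≤ N') {p q : 𝒪[X]} (hc : CongT N' p q) : CongT N p q :=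
  fun m => (pow_dvd_pow _ h).trans (hc m)

theorem exists_not_X_pow_dvd {x : 𝒪} (hx : x ≠ 0) : ∃ e, ¬ (PowerSeries.X : 𝒪) ^ e ∣ x := by
  obtain ⟨m, hm⟩ : ∃ m, PowerSeries.coeff m x ≠ 0 := by
    by_contra hcon
    exact hx (PowerSeries.ext (fun m => by
      by_contra h
      exact hcon ⟨m, by simpa using h⟩))
  exact ⟨m + 1, fun h => hm (PowerSeries.X_pow_dvd_iff.1 h m (Nat.lt_succ_self m))⟩

theorem exists_bound_ne_zero {q : 𝒪[X]} (hq : q ≠ 0) :
    ∃ e, ∀ N, e ≤ N → ∀ p : 𝒪[X], CongT N p q → p ≠ 0 := by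
  obtain ⟨m, hm⟩ : ∃ m, q.coeff m ≠ 0 := by
    by_contra hcon
    exact hq (Polynomial.ext (fun m => by
      by_contra h
      exact hcon ⟨m, by simpa using h⟩))
  obtain ⟨e, he⟩ := exists_not_X_pow_dvd hm
  refine ⟨e, fun N hN p hp h0 => he ?_⟩
  have := hp m
  rw [h0, coeff_zero, zero_sub, dvd_neg] at this
  exact (pow_dvd_pow _ hN).trans this

/-- a finite set of polynomials has its coefficients in a finitely generated subalgebra -/
theorem exists_fg_coeffs (F : Set 𝒪[X]) (hF : F.Finite) :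
    ∃ S : Subalgebra k[X] 𝒪, S.FG ∧ ∀ p ∈ F, ∀ m, p.coeff m ∈ S := by
  have hfin : (⋃ p ∈ F, (↑p.coeffs : Set 𝒪)).Finite := hF.biUnion fun p _ => Finset.finite_toSet _
  refine ⟨Algebra.adjoin k[X] (⋃ p ∈ F, (↑p.coeffs : Set 𝒪)),
    ⟨hfin.toFinset, by rw [hfin.coe_toFinset]⟩, ?_⟩
  intro p hp m
  by_cases h : p.coeff m = 0
  · rw [h]; exact Subalgebra.zero_mem _
  · exact Algebra.subset_adjoin (Set.mem_biUnion hp (Polynomial.coeff_mem_coeffs h))

/-- **(E2)** Artin approximation of lattice data over `k⟦t⟧[s]`. -/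
theorem exists_algData (R1 : RawData 𝒪[X] n) (hg : R1.g ≠ 0) (hΔ : R1.Delta ≠ 0)
    (hu : IsUnit (R1.u.coeff 0)) (N : ℕ) :
    ∃ R2 : RawData 𝒪[X] n, R2.InSet (tqPol (tRalg k) : Set 𝒪[X]) ∧ RawData.Rel (CongT N) R2 R1 ∧
      R2.g ≠ 0 ∧ R2.Delta ≠ 0 ∧ IsUnit (R2.u.coeff 0) ∧ (R1.g.Monic → R2.g.Monic) := by
  classical
  obtain ⟨eg, heg⟩ := exists_bound_ne_zero hg
  obtain ⟨eΔ, heΔ⟩ := exists_bound_ne_zero hΔ
  set N' := N + eg + eΔ + 1 with hN'
  obtain ⟨F, hFfin, hF⟩ := R1.exists_finite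
  obtain ⟨S, hSfg, hS⟩ := exists_fg_coeffs F hFfin
  obtain ⟨ψ, hψ⟩ := AAOne.AR S hSfg N'
  let f : (S : Type _)[X] →+* 𝒪[X] := mapRingHom (S.val : S →+* 𝒪)
  have hf : Function.Injective f := Polynomial.map_injective _ Subtype.val_injective
  let ψ' : S →+* 𝒪 := (((Subalgebra.algebraicClosure k[X] 𝒪).val).comp ψ).toRingHom
  let f' : (S : Type _)[X] →+* 𝒪[X] := mapRingHom ψ'
  have hrange : R1.InSet (Set.range f) := by
    refine hF.mono fun p hp => ?_
    have h1 : p ∈ Polynomial.lifts (S.val : S →+* 𝒪) := by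
      rw [Polynomial.lifts_iff_coeff_lifts]
      intro m
      exact ⟨⟨p.coeff m, hS p hp m⟩, rfl⟩
    obtain ⟨q, hq⟩ := (Polynomial.mem_lifts _).1 h1
    exact ⟨q, hq⟩
  obtain ⟨R0, hR0⟩ := RawData.exists_descend (P0 := (S : Type _)[X]) f hf R1 hrange
  have hR2 := RawData.isMap_map f' R0
  have hcong : ∀ x, CongT N' (f' x) (f x) := by
    intro x m
    simp only [f, f', coe_mapRingHom, coeff_map]
    exact hψ (x.coeff m)
  have hrel : RawData.Rel (CongT N') (R0.map f') R1 := RawData.rel_of_isMap hR2 hR0 _ hcong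
  refine ⟨R0.map f', RawData.inSet_of_isMap hR2 _ ?_, ?_, heg N' (by omega) _ hrel.g,
    heΔ N' (by omega) _ hrel.Delta, ?_, ?_⟩
  · intro x m
    simp only [f', coe_mapRingHom, coeff_map]
    exact (ψ (x.coeff m)).2
  · exact RawData.rel_of_isMap hR2 hR0 _ (fun x => (hcong x).mono (by omega))
  · rw [PowerSeries.isUnit_iff_constantCoeff] at hu ⊢
    have := AAOne.constantCoeff_eq_of_congr (N := N + eg + eΔ) (hrel.u 0)
    rw [this]
    exact hu
  · intro hm
    have h0 : R0.g.Monic := by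
      have h1 : (R0.g.map (S.val : S →+* 𝒪)).Monic := by
        have := hR0.g
        simp only [f, coe_mapRingHom] at this
        rw [this]; exact hm
      exact Polynomial.monic_of_injective Subtype.val_injective h1
    exact h0.map ψ'

end AR

section TQ

open Claimed.Agent.R246.T

variable {k : Type*} [Field k] {n : ℕ} [NeZero n]

local notation "𝒪" => PowerSeries k
local notation "𝒫" => PowerSeries (PowerSeries k)

theorem RawData.InSet.map {P0 P1 : Type*} [CommRing P0] [CommRing P1] [Nontrivial P1]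
    {R : RawData P0 n} {s : Set P0} (h : R.InSet s) (f : P0 →+* P1) (t : Set P1)
    (hst : ∀ x ∈ s, f x ∈ t) : (R.map f).InSet t :=
  ⟨fun l => by
      change (R.Pi.map f).coeff l ∈ t
      rw [coeff_map]; exact hst _ (h.Pi l),
   fun i j => hst _ (h.E i j), fun i j => hst _ (h.Mh i j), hst _ h.g, hst _ h.u, hst _ h.Delta,
   fun i j l => hst _ (h.ch i j l),
   fun l => by
      change (R.A.map f).coeff l ∈ t
      rw [coeff_map]; exact hst _ (h.A l),
   fun l => by
      change (R.B.map f).coeff l ∈ t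
      rw [coeff_map]; exact hst _ (h.B l)⟩

/-- **(E3)** lattice data over `𝒪[X]` with coefficients in `S` give `LD.Data` over `S[s][1/u]`. -/
theorem exists_data_tQ (S : Subalgebra k 𝒪) (R : RawData 𝒪[X] n)
    (hS : R.InSet (tqPol S : Set 𝒪[X])) (hu0 : PowerSeries.constantCoeff (R.u.coeff 0) ≠ 0)
    (hg : R.g ≠ 0) (hΔ : R.Delta ≠ 0) :
    ∃ D : Data (tQ S R.u) n,
      (∀ i j l, (R.u : 𝒫) * ((D.c i j l : tQ S R.u) : 𝒫) = (R.ch i j l : 𝒫)) ∧
      ((D.g : tQ S R.u) : 𝒫) = (R.g : 𝒫) := by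
  classical
  let c : 𝒪[X] →+* 𝒫 := Polynomial.coeToPowerSeries.ringHom
  have hc : Function.Injective c := Polynomial.coe_injective 𝒪
  let v : tQ S R.u →+* 𝒫 := (tQ S R.u).val.toRingHom
  have hv : Function.Injective v := Subtype.val_injective
  have h1 : (R.map c).InSet (Set.range v) :=
    hS.map c _ (fun x hx => ⟨⟨c x, tQ_coe_mem R.u hx⟩, rfl⟩)
  obtain ⟨R0, hR0⟩ := RawData.exists_descend (P0 := tQ S R.u) v hv (R.map c) h1
  have hunit : IsUnit (c R.u) := tq_isUnit hu0
  let uinv : tQ S R.u := ⟨Ring.inverse (c R.u), tQ_inv_mem S R.u⟩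
  have hu : R0.u * uinv = 1 := by
    apply hv
    rw [map_mul, hR0.u, map_one]
    exact Ring.mul_inverse_cancel _ hunit
  have hg' : R0.g ≠ 0 := by
    intro h0
    have := hR0.g
    rw [h0, map_zero] at this
    exact hg (hc (this.symm.trans (map_zero c).symm))
  have hΔ' : R0.Delta ≠ 0 := by
    intro h0
    have := hR0.Delta
    rw [h0, map_zero] at this
    exact hΔ (hc (this.symm.trans (map_zero c).symm))
  refine ⟨R0.toData uinv hu hg' hΔ', fun i j l => ?_, hR0.g⟩
  have h2 : v (uinv * R0.ch i j l) = Ring.inverse (c R.u) * c (R.ch i j l) := by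
    rw [map_mul, hR0.ch]; rfl
  change c R.u * v (uinv * R0.ch i j l) = c (R.ch i j l)
  rw [h2, ← mul_assoc, Ring.mul_inverse_cancel _ hunit, one_mul]

end TQ

end Claimed.Agent.R246.LD
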