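import Mathlib

/-!
# Row 246, Theorem T (blueprint of helper350, `R246_T.md`), module SC: structure-constant algebras

* `SCData P I` : structure constants `c : I → I → I → P` of a commutative, associative, unital
  multiplication on `I → P` (unit = the basis vector `o`).
* `SCData.Alg C` : the algebra `AA(P,c)` (a one-field structure, `x.co : I → P` are the coordinates),
  with `CommRing`, `Algebra P`, basis `C.e`.
* `SCData.lift` : the universal property; `SCData.mapHom` : functoriality in `P`.
* `SCData.ofBasis`, `SCData.equivOfBasis` : every `P`-algebra with a basis containing `1` is of this form.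
-/

set_option autoImplicit false

namespace Claimed.Agent.R246

open Finset

/-- structure constants of a commutative associative unital multiplication on `I → P` -/
structure SCData (P : Type*) [CommRing P] (I : Type*) [Fintype I] [DecidableEq I] where
  c : I → I → I → P
  o : I
  comm : ∀ i j k, c i j k = c j i k
  unit : ∀ j k, c o j k = if j = k then 1 else 0
  assoc : ∀ i j k l, ∑ m, c i j m * c m k l = ∑ m, c j k m * c i m l

namespace SCData

variable {P : Type*} [CommRing P] {I : Type*} [Fintype I] [DecidableEq I]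

/-- the algebra `AA(P,c)`; `x.co` is the coordinate vector of `x` -/
@[ext] structure Alg (_C : SCData P I) where
  co : I → P

variable {C : SCData P I}

namespace Alg

theorem co_injective : Function.Injective (Alg.co : C.Alg → I → P) := fun _ _ h => Alg.ext h

instance algZero : Zero C.Alg := ⟨⟨0⟩⟩
instance algAdd : Add C.Alg := ⟨fun x y => ⟨x.co + y.co⟩⟩
instance algNeg : Neg C.Alg := ⟨fun x => ⟨-x.co⟩⟩
instance algSub : Sub C.Alg := ⟨fun x y => ⟨x.co - y.co⟩⟩
instance algSMulNat : SMul ℕ C.Alg := ⟨fun n x => ⟨n • x.co⟩⟩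
instance algSMulInt : SMul ℤ C.Alg := ⟨fun n x => ⟨n • x.co⟩⟩
instance algSMul : SMul P C.Alg := ⟨fun p x => ⟨p • x.co⟩⟩
instance algMul : Mul C.Alg := ⟨fun x y => ⟨fun k => ∑ i, ∑ j, x.co i * y.co j * C.c i j k⟩⟩
instance algOne : One C.Alg := ⟨⟨Pi.single C.o 1⟩⟩

instance algAddCommGroup : AddCommGroup C.Alg :=
  co_injective.addCommGroup Alg.co rfl (fun _ _ => rfl) (fun _ => rfl) (fun _ _ => rfl)
    (fun _ _ => rfl) (fun _ _ => rfl)

/-- coordinates, as an additive hom -/
def coHom : C.Alg →+ (I → P) where
  toFun := Alg.co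
  map_zero' := rfl
  map_add' _ _ := rfl

instance algModule : Module P C.Alg := co_injective.module P coHom (fun _ _ => rfl)

@[simp] theorem co_add (x y : C.Alg) (l : I) : (x + y).co l = x.co l + y.co l := rfl
@[simp] theorem co_sub (x y : C.Alg) (l : I) : (x - y).co l = x.co l - y.co l := rfl
@[simp] theorem co_neg (x : C.Alg) (l : I) : (-x).co l = -x.co l := rfl
@[simp] theorem co_zero (l : I) : (0 : C.Alg).co l = 0 := rfl
@[simp] theorem co_smul (p : P) (x : C.Alg) (l : I) : (p • x).co l = p * x.co l := rfl
theorem co_mul (x y : C.Alg) (k : I) : (x * y).co k = ∑ i, ∑ j, x.co i * y.co j * C.c i j k := rfl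
theorem co_one (k : I) : (1 : C.Alg).co k = if k = C.o then 1 else 0 := by
  change (Pi.single C.o 1 : I → P) k = _
  simp [Pi.single_apply]

theorem co_sum {ι : Type*} (s : Finset ι) (f : ι → C.Alg) (l : I) :
    (∑ a ∈ s, f a).co l = ∑ a ∈ s, (f a).co l := by
  have h := map_sum (coHom (C := C)) f s
  have h2 : (coHom (∑ a ∈ s, f a)) l = (∑ a ∈ s, coHom (f a)) l := congrFun h l
  rw [Finset.sum_apply] at h2
  exact h2

theorem ext' {x y : C.Alg} (h : ∀ l, x.co l = y.co l) : x = y := Alg.ext (funext h)

private theorem mul_comm' (x y : C.Alg) : x * y = y * x := by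
  apply ext'; intro k
  rw [co_mul, co_mul, Finset.sum_comm]
  refine Finset.sum_congr rfl fun i _ => Finset.sum_congr rfl fun j _ => ?_
  rw [C.comm j i k]; ring

private theorem one_mul' (x : C.Alg) : 1 * x = x := by
  apply ext'; intro k
  rw [co_mul]
  simp only [co_one]
  rw [Finset.sum_eq_single C.o]
  · simp [C.unit]
  · intro i _ hi; simp [hi]
  · intro h; exact absurd (Finset.mem_univ _) h

private theorem mul_assoc' (x y z : C.Alg) : x * y * z = x * (y * z) := by
  apply ext'; intro l
  have h1 : (x * y * z).co l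
      = ∑ i, ∑ j, ∑ k, x.co i * y.co j * z.co k * ∑ m, C.c i j m * C.c m k l := by
    rw [co_mul]
    simp only [co_mul, Finset.sum_mul, Finset.mul_sum]
    calc _ = ∑ k, ∑ m, ∑ i, ∑ j, x.co i * y.co j * C.c i j m * z.co k * C.c m k l :=
          Finset.sum_comm
      _ = ∑ k, ∑ i, ∑ m, ∑ j, x.co i * y.co j * C.c i j m * z.co k * C.c m k l :=
          Finset.sum_congr rfl fun k _ => Finset.sum_comm
      _ = ∑ i, ∑ k, ∑ m, ∑ j, x.co i * y.co j * C.c i j m * z.co k * C.c m k l := Finset.sum_comm
      _ = ∑ i, ∑ k, ∑ j, ∑ m, x.co i * y.co j * C.c i j m * z.co k * C.c m k l :=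
          Finset.sum_congr rfl fun i _ => Finset.sum_congr rfl fun k _ => Finset.sum_comm
      _ = ∑ i, ∑ j, ∑ k, ∑ m, x.co i * y.co j * C.c i j m * z.co k * C.c m k l :=
          Finset.sum_congr rfl fun i _ => Finset.sum_comm
      _ = _ := by
          refine Finset.sum_congr rfl fun i _ => Finset.sum_congr rfl fun j _ =>
            Finset.sum_congr rfl fun k _ => Finset.sum_congr rfl fun m _ => ?_
          ring
  have h2 : (x * (y * z)).co l
      = ∑ i, ∑ j, ∑ k, x.co i * y.co j * z.co k * ∑ m, C.c j k m * C.c i m l := by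
    rw [co_mul]
    simp only [co_mul, Finset.sum_mul, Finset.mul_sum]
    refine Finset.sum_congr rfl fun i _ => ?_
    calc _ = ∑ j, ∑ m, ∑ k, x.co i * (y.co j * z.co k * C.c j k m) * C.c i m l := Finset.sum_comm
      _ = ∑ j, ∑ k, ∑ m, x.co i * (y.co j * z.co k * C.c j k m) * C.c i m l :=
          Finset.sum_congr rfl fun j _ => Finset.sum_comm
      _ = _ := by
          refine Finset.sum_congr rfl fun j _ =>
            Finset.sum_congr rfl fun k _ => Finset.sum_congr rfl fun m _ => ?_
          ring
  rw [h1, h2]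
  simp only [C.assoc]

private theorem left_distrib' (x y z : C.Alg) : x * (y + z) = x * y + x * z := by
  apply ext'; intro k
  simp only [co_mul, co_add, ← Finset.sum_add_distrib]
  refine Finset.sum_congr rfl fun i _ => Finset.sum_congr rfl fun j _ => ?_
  ring

private theorem mul_zero' (x : C.Alg) : x * 0 = 0 := by
  apply ext'; intro k
  simp [co_mul]

instance algCommRing : CommRing C.Alg where
  left_distrib := left_distrib'
  right_distrib := fun x y z => by
    rw [mul_comm', left_distrib', mul_comm' z x, mul_comm' z y]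
  zero_mul := fun x => by rw [mul_comm', mul_zero']
  mul_zero := mul_zero'
  mul_assoc := mul_assoc'
  one_mul := one_mul'
  mul_one := fun x => by rw [mul_comm', one_mul']
  mul_comm := mul_comm'

instance algAlgebra : Algebra P C.Alg :=
  Algebra.ofModule
    (fun r x y => by
      apply ext'; intro k
      simp only [co_mul, co_smul, Finset.mul_sum]
      refine Finset.sum_congr rfl fun i _ => Finset.sum_congr rfl fun j _ => ?_
      ring)
    (fun r x y => by
      apply ext'; intro k
      simp only [co_mul, co_smul, Finset.mul_sum]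
      refine Finset.sum_congr rfl fun i _ => Finset.sum_congr rfl fun j _ => ?_
      ring)

/-- coordinates, as a linear equivalence -/
def coEquiv : C.Alg ≃ₗ[P] (I → P) where
  toFun := Alg.co
  invFun := Alg.mk
  map_add' _ _ := rfl
  map_smul' _ _ := rfl
  left_inv _ := rfl
  right_inv _ := rfl

end Alg

variable (C)

/-- the standard basis of `AA(P,c)` -/
noncomputable def e : Module.Basis I P C.Alg := Module.Basis.ofEquivFun Alg.coEquiv

variable {C}

theorem e_co (i l : I) : (C.e i).co l = if l = i then 1 else 0 := by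
  have : C.e i = Alg.coEquiv.symm (Pi.single i 1) := by
    rw [e, Module.Basis.coe_ofEquivFun]
  rw [this]
  change (Pi.single i 1 : I → P) l = _
  simp [Pi.single_apply]

@[simp] theorem e_repr (x : C.Alg) (l : I) : C.e.repr x l = x.co l := by
  simp [e, Module.Basis.ofEquivFun_repr_apply]
  rfl

theorem e_o : C.e C.o = 1 := by
  apply Alg.ext'; intro l
  rw [e_co, Alg.co_one]

theorem Alg.eq_sum (x : C.Alg) : x = ∑ l, x.co l • C.e l := by
  conv_lhs => rw [← C.e.sum_repr x]
  simp

theorem e_mul_e_co (i j k : I) : (C.e i * C.e j).co k = C.c i j k := by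
  rw [Alg.co_mul]
  simp only [e_co]
  rw [Finset.sum_eq_single i, Finset.sum_eq_single j]
  · simp
  · intro l _ hl; simp [hl]
  · intro h; exact absurd (Finset.mem_univ _) h
  · intro l _ hl; simp [hl]
  · intro h; exact absurd (Finset.mem_univ _) h

theorem e_mul_e (i j : I) : C.e i * C.e j = ∑ k, C.c i j k • C.e k := by
  conv_lhs => rw [Alg.eq_sum (C.e i * C.e j)]
  simp only [e_mul_e_co]

theorem algebraMap_co (p : P) (l : I) :
    (algebraMap P C.Alg p).co l = if l = C.o then p else 0 := by
  rw [Algebra.algebraMap_eq_smul_one, Alg.co_smul, Alg.co_one]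
  split_ifs <;> simp

theorem algebraMap_injective : Function.Injective (algebraMap P C.Alg) := by
  intro p q h
  have := congrArg (fun x => Alg.co x C.o) h
  simpa [algebraMap_co] using this

instance algFree : Module.Free P C.Alg := Module.Free.of_basis C.e
instance algFinite : Module.Finite P C.Alg := Module.Finite.of_basis C.e

/-! ### the universal property -/

section lift

variable {S : Type*} [CommRing S]

/-- **Universal property** of `AA(P,c)`. -/
def lift (C : SCData P I) (f : P →+* S) (y : I → S) (h1 : y C.o = 1)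
    (hm : ∀ i j, y i * y j = ∑ k, f (C.c i j k) * y k) : C.Alg →+* S where
  toFun x := ∑ l, f (x.co l) * y l
  map_one' := by
    simp only [Alg.co_one]
    rw [Finset.sum_eq_single C.o]
    · simp [h1]
    · intro l _ hl; simp [hl]
    · intro h; exact absurd (Finset.mem_univ _) h
  map_mul' x z := by
    rw [Finset.sum_mul_sum]
    simp only [Alg.co_mul, map_sum, map_mul, Finset.sum_mul]
    rw [Finset.sum_comm]
    refine Finset.sum_congr rfl fun i _ => ?_
    rw [Finset.sum_comm]
    refine Finset.sum_congr rfl fun j _ => ?_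
    rw [mul_mul_mul_comm, hm, Finset.mul_sum]
    refine Finset.sum_congr rfl fun k _ => ?_
    ring
  map_zero' := by simp
  map_add' x z := by
    simp only [Alg.co_add, map_add, add_mul, Finset.sum_add_distrib]

theorem lift_apply (f : P →+* S) (y : I → S) (h1 : y C.o = 1)
    (hm : ∀ i j, y i * y j = ∑ k, f (C.c i j k) * y k) (x : C.Alg) :
    C.lift f y h1 hm x = ∑ l, f (x.co l) * y l := rfl

@[simp] theorem lift_e (f : P →+* S) (y : I → S) (h1 : y C.o = 1)
    (hm : ∀ i j, y i * y j = ∑ k, f (C.c i j k) * y k) (i : I) :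
    C.lift f y h1 hm (C.e i) = y i := by
  rw [lift_apply]
  simp only [e_co]
  rw [Finset.sum_eq_single i]
  · simp
  · intro l _ hl; simp [hl]
  · intro h; exact absurd (Finset.mem_univ _) h

@[simp] theorem lift_algebraMap (f : P →+* S) (y : I → S) (h1 : y C.o = 1)
    (hm : ∀ i j, y i * y j = ∑ k, f (C.c i j k) * y k) (p : P) :
    C.lift f y h1 hm (algebraMap P C.Alg p) = f p := by
  rw [lift_apply]
  simp only [algebraMap_co]
  rw [Finset.sum_eq_single C.o]
  · simp [h1]
  · intro l _ hl; simp [hl]
  · intro h; exact absurd (Finset.mem_univ _) h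

/-- two ring homs out of `AA(P,c)` agreeing on `P` and on the basis are equal -/
theorem ringHom_ext {φ ψ : C.Alg →+* S}
    (hP : ∀ p, φ (algebraMap P C.Alg p) = ψ (algebraMap P C.Alg p))
    (he : ∀ i, φ (C.e i) = ψ (C.e i)) : φ = ψ := by
  ext x
  rw [Alg.eq_sum x]
  simp only [map_sum, Algebra.smul_def, map_mul, hP, he]

end lift

/-! ### functoriality in `P` -/

section map

variable {P' : Type*} [CommRing P']

/-- **Functoriality**: a ring hom `f : P → P'` carrying `c` to `c'` induces (coordinatewise)
a ring hom `AA(P,c) → AA(P',c')`. -/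
def mapHom (C : SCData P I) (C' : SCData P' I) (f : P →+* P') (ho : C'.o = C.o)
    (h : ∀ i j k, f (C.c i j k) = C'.c i j k) : C.Alg →+* C'.Alg where
  toFun x := ⟨fun l => f (x.co l)⟩
  map_one' := by
    apply Alg.ext'; intro l
    change f ((1 : C.Alg).co l) = (1 : C'.Alg).co l
    rw [Alg.co_one, Alg.co_one, ho]
    split_ifs <;> simp
  map_mul' x z := by
    apply Alg.ext'; intro l
    change f ((x * z).co l) = ∑ i, ∑ j, f (x.co i) * f (z.co j) * C'.c i j l
    simp only [Alg.co_mul, map_sum, map_mul, h]
  map_zero' := by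
    apply Alg.ext'; intro l
    change f 0 = 0
    simp
  map_add' x z := by
    apply Alg.ext'; intro l
    change f (x.co l + z.co l) = f (x.co l) + f (z.co l)
    simp

variable {C' : SCData P' I}

@[simp] theorem mapHom_co (f : P →+* P') (ho : C'.o = C.o)
    (h : ∀ i j k, f (C.c i j k) = C'.c i j k) (x : C.Alg) (l : I) :
    (C.mapHom C' f ho h x).co l = f (x.co l) := rfl

@[simp] theorem mapHom_e (f : P →+* P') (ho : C'.o = C.o)
    (h : ∀ i j k, f (C.c i j k) = C'.c i j k) (i : I) :
    C.mapHom C' f ho h (C.e i) = C'.e i := by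
  apply Alg.ext'; intro l
  rw [mapHom_co, e_co, e_co]
  split_ifs <;> simp

@[simp] theorem mapHom_algebraMap (f : P →+* P') (ho : C'.o = C.o)
    (h : ∀ i j k, f (C.c i j k) = C'.c i j k) (p : P) :
    C.mapHom C' f ho h (algebraMap P C.Alg p) = algebraMap P' C'.Alg (f p) := by
  apply Alg.ext'; intro l
  rw [mapHom_co, algebraMap_co, algebraMap_co, ho]
  split_ifs <;> simp

theorem mapHom_smul (f : P →+* P') (ho : C'.o = C.o)
    (h : ∀ i j k, f (C.c i j k) = C'.c i j k) (p : P) (x : C.Alg) :
    C.mapHom C' f ho h (p • x) = f p • C.mapHom C' f ho h x := by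
  apply Alg.ext'; intro l
  simp

theorem mapHom_injective (f : P →+* P') (ho : C'.o = C.o)
    (h : ∀ i j k, f (C.c i j k) = C'.c i j k) (hf : Function.Injective f) :
    Function.Injective (C.mapHom C' f ho h) := by
  intro x z hxz
  apply Alg.ext'; intro l
  exact hf (congrArg (fun w => Alg.co w l) hxz)

theorem mapHom_surjective (f : P →+* P') (ho : C'.o = C.o)
    (h : ∀ i j k, f (C.c i j k) = C'.c i j k) (hf : Function.Surjective f) :
    Function.Surjective (C.mapHom C' f ho h) := by
  intro z
  choose g hg using hf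
  exact ⟨⟨fun l => g (z.co l)⟩, by apply Alg.ext'; intro l; simp [hg]⟩

theorem mapHom_eq_zero_iff (f : P →+* P') (ho : C'.o = C.o)
    (h : ∀ i j k, f (C.c i j k) = C'.c i j k) (x : C.Alg) :
    C.mapHom C' f ho h x = 0 ↔ ∀ l, f (x.co l) = 0 :=
  ⟨fun hx l => congrArg (fun w => Alg.co w l) hx, fun hx => by apply Alg.ext'; intro l; exact hx l⟩

/-- push-forward of structure constants -/
def map (C : SCData P I) (f : P →+* P') : SCData P' I where
  c i j k := f (C.c i j k)
  o := C.o
  comm i j k := by rw [C.comm]
  unit j k := by rw [C.unit]; split_ifs <;> simp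
  assoc i j k l := by
    have := congrArg f (C.assoc i j k l)
    simpa only [map_sum, map_mul] using this

end map

/-- an element all of whose coordinates are multiples of `g` is a multiple of `g` -/
theorem Alg.exists_smul_of_dvd (g : P) (x : C.Alg) (h : ∀ l, g ∣ x.co l) :
    ∃ z : C.Alg, x = g • z := by
  choose z hz using h
  exact ⟨⟨z⟩, by apply Alg.ext'; intro l; exact hz l⟩

theorem Alg.mem_map_iff (J : Ideal P) (x : C.Alg) :
    x ∈ J.map (algebraMap P C.Alg) ↔ ∀ l, x.co l ∈ J := by
  constructor
  · intro hx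
    refine Submodule.span_induction (p := fun x _ => ∀ l, Alg.co x l ∈ J) ?_ ?_ ?_ ?_ hx
    · rintro _ ⟨p, hp, rfl⟩ l
      rw [algebraMap_co]
      split_ifs
      · exact hp
      · exact J.zero_mem
    · intro l; exact J.zero_mem
    · intro a b _ _ ha hb l; exact J.add_mem (ha l) (hb l)
    · intro a b _ hb l
      rw [smul_eq_mul, Alg.co_mul]
      refine J.sum_mem fun i _ => J.sum_mem fun j _ => ?_
      rw [mul_assoc, mul_comm (a.co i), mul_assoc]
      exact J.mul_mem_right _ (hb j)
  · intro hx
    rw [Alg.eq_sum x]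
    refine Ideal.sum_mem _ fun l _ => ?_
    rw [Algebra.smul_def]
    exact Ideal.mul_mem_right _ _ (Ideal.mem_map_of_mem _ (hx l))

/-! ### every algebra with a basis containing `1` is of this form -/

section ofBasis

variable {A : Type*} [CommRing A] [Algebra P A]

/-- structure constants of an algebra with a basis -/
noncomputable def ofBasis (b : Module.Basis I P A) (o : I) (ho : b o = 1) : SCData P I where
  c i j k := b.repr (b i * b j) k
  o := o
  comm i j k := by rw [mul_comm]
  unit j k := by
    rw [ho, one_mul, b.repr_self, Finsupp.single_apply]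
  assoc i j k l := by
    have h1 : b.repr ((b i * b j) * b k) l = ∑ m, b.repr (b i * b j) m * b.repr (b m * b k) l := by
      conv_lhs => rw [← b.sum_repr (b i * b j), Finset.sum_mul]
      simp [map_sum, Finsupp.finsetSum_apply]
    have h2 : b.repr (b i * (b j * b k)) l = ∑ m, b.repr (b j * b k) m * b.repr (b i * b m) l := by
      conv_lhs => rw [← b.sum_repr (b j * b k), Finset.mul_sum]
      simp [map_sum, Finsupp.finsetSum_apply]
    rw [← h1, ← h2, mul_assoc]

theorem ofBasis_c (b : Module.Basis I P A) (o : I) (ho : b o = 1) (i j k : I) :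
    (ofBasis b o ho).c i j k = b.repr (b i * b j) k := rfl

theorem ofBasis_o (b : Module.Basis I P A) (o : I) (ho : b o = 1) :
    (ofBasis b o ho).o = o := rfl

theorem ofBasis_mul (b : Module.Basis I P A) (o : I) (ho : b o = 1) (i j : I) :
    b i * b j = ∑ k, algebraMap P A ((ofBasis b o ho).c i j k) * b k := by
  conv_lhs => rw [← b.sum_repr (b i * b j)]
  simp only [ofBasis_c, Algebra.smul_def]

theorem ofBasis_b_o (b : Module.Basis I P A) (o : I) (ho : b o = 1) :
    b (ofBasis b o ho).o = 1 := ho

/-- the ring hom `AA(P,c) → A` -/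
noncomputable def homOfBasis (b : Module.Basis I P A) (o : I) (ho : b o = 1) :
    (ofBasis b o ho).Alg →+* A :=
  (ofBasis b o ho).lift (algebraMap P A) b (ofBasis_b_o b o ho) (ofBasis_mul b o ho)

theorem homOfBasis_apply (b : Module.Basis I P A) (o : I) (ho : b o = 1)
    (x : (ofBasis b o ho).Alg) : homOfBasis b o ho x = b.equivFun.symm x.co := by
  rw [homOfBasis, lift_apply, Module.Basis.equivFun_symm_apply]
  simp only [Algebra.smul_def]

/-- `AA(P,c) ≃ A` -/
noncomputable def equivOfBasis (b : Module.Basis I P A) (o : I) (ho : b o = 1) :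
    (ofBasis b o ho).Alg ≃ₐ[P] A :=
  AlgEquiv.ofBijective
    { homOfBasis b o ho with
      commutes' := fun p => by
        change homOfBasis b o ho _ = _
        rw [homOfBasis, lift_algebraMap] }
    (by
      constructor
      · intro x z hxz
        change homOfBasis b o ho x = homOfBasis b o ho z at hxz
        rw [homOfBasis_apply, homOfBasis_apply] at hxz
        exact Alg.ext (b.equivFun.symm.injective hxz)
      · intro a
        refine ⟨⟨b.equivFun a⟩, ?_⟩
        change homOfBasis b o ho _ = a
        rw [homOfBasis_apply]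
        exact b.equivFun.symm_apply_apply a)

@[simp] theorem equivOfBasis_e (b : Module.Basis I P A) (o : I) (ho : b o = 1) (i : I) :
    equivOfBasis b o ho ((ofBasis b o ho).e i) = b i := by
  change homOfBasis b o ho _ = _
  rw [homOfBasis, lift_e]

theorem equivOfBasis_apply (b : Module.Basis I P A) (o : I) (ho : b o = 1)
    (x : (ofBasis b o ho).Alg) : equivOfBasis b o ho x = ∑ l, x.co l • b l := by
  change homOfBasis b o ho _ = _
  rw [homOfBasis_apply, Module.Basis.equivFun_symm_apply]

theorem equivOfBasis_symm_co (b : Module.Basis I P A) (o : I) (ho : b o = 1) (a : A) (l : I) :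
    ((equivOfBasis b o ho).symm a).co l = b.repr a l := by
  obtain ⟨x, rfl⟩ := (equivOfBasis b o ho).surjective a
  rw [AlgEquiv.symm_apply_apply, equivOfBasis_apply]
  simp [map_sum, Finsupp.finsetSum_apply, Finsupp.single_apply]

end ofBasis

end SCData

end Claimed.Agent.R246
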