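import Claimed.Agent.R246.T.LD
import Claimed.Agent.R246.T.SC
import Claimed.Agent.R246.T.Jac

/-!
# Row 246, Theorem T, module LD in the formats of `T/SC.lean` and `T/Jac.lean`

* `LD.Data.sc` : the structure constants of lattice data form an `SCData` (**LD1**).
* `LD.Data.cramerProp_jacMat` : hypothesis (R) of LIFT for `jacMat b d` (**LD3**), for every `Q`-algebra with a
  basis `b` whose structure constants are `D.c`.
* `LD.Data.cramerProp_sc` : the same for `AA(Q,c) = D.sc.Alg`.
-/

set_option autoImplicit false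
set_option linter.unusedSectionVars false

namespace Claimed.Agent.R246.LD

open Polynomial Matrix

variable {Q : Type*} [CommRing Q] [IsDomain Q] {n : ℕ} [NeZero n]

/-- **LD1**: `SC(c)`. -/
def Data.sc (D : Data Q n) : SCData Q (Fin n) where
  c := D.c
  o := 0
  comm := D.c_comm
  unit j k := by
    rw [D.c_zero]
    by_cases h : j = k
    · simp [h]
    · simp [h, Ne.symm h]
  assoc := D.c_assoc

@[simp] theorem Data.sc_c (D : Data Q n) : D.sc.c = D.c := rfl
@[simp] theorem Data.sc_o (D : Data Q n) : D.sc.o = 0 := rfl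

theorem repr_mul_basis {S : Type*} [CommRing S] [Algebra Q S] (b : Module.Basis (Fin n) Q S)
    {c : Fin n → Fin n → Fin n → Q} (hb : ∀ i j, b i * b j = ∑ k, c i j k • b k) (i j l : Fin n) :
    b.repr (b i * b j) l = c i j l := by
  classical
  rw [hb]
  simp only [map_sum, map_smul, Module.Basis.repr_self, Finsupp.coe_finsetSum, Finset.sum_apply,
    Finsupp.smul_apply, smul_eq_mul]
  rw [Finset.sum_eq_single l]
  · simp
  · intro k _ hk
    simp [hk]
  · simp

/-- **LD3 = (R)** for `jacMat`. -/
theorem Data.cramerProp_jacMat (D : Data Q n) {k S J : Type*} [CommRing k] [Algebra k Q]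
    [CommRing S] [Algebra Q S] [Algebra k S] [IsScalarTower k Q S] [Fintype J] [DecidableEq J]
    (b : Module.Basis (Fin n) Q S) (hb : ∀ i j, b i * b j = ∑ k, D.c i j k • b k) (hb0 : b 0 = 1)
    (d : J → Derivation k Q Q) : LztCramerProp (Fin n) (jacMat b d) := by
  have h := D.cramerProp b hb hb0 (fun a => (d a : Q → Q)) (fun a => isDer_of_derivation (d a))
  have he : jacMat b d = jacM b D.c (fun a i j k => d a (D.c i j k)) := by
    ext ⟨i, j⟩ col
    rcases col with a | l
    · rw [jacMat_inl]
      simp only [jacM, repr_mul_basis b hb, Algebra.smul_def]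
    · rw [jacMat_inr]
      simp only [jacM, repr_mul_basis b hb, eq_comm]
  rw [he]
  exact h

/-- **LD3 = (R)** for `AA(Q,c)`. -/
theorem Data.cramerProp_sc (D : Data Q n) {k J : Type*} [CommRing k] [Algebra k Q]
    [Algebra k D.sc.Alg] [IsScalarTower k Q D.sc.Alg] [Fintype J] [DecidableEq J]
    (d : J → Derivation k Q Q) : LztCramerProp (Fin n) (jacMat D.sc.e d) :=
  D.cramerProp_jacMat D.sc.e (fun i j => D.sc.e_mul_e i j) D.sc.e_o d

end Claimed.Agent.R246.LD
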