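import Mathlib

/-!
# Row 246, Theorem T, step S1.3: perturbation of lattice data (abstract form)

`Q` a domain, `g ≠ 0` in the Jacobson radical.  Lattice data: `Π` monic, `E * M = M * E = g • 1`,
`(E_i E_j) %ₘ Π = g ∑ c_ijk E_k` where `E_i = latPoly (E i) = ∑_j E_ij X^j`.
If `Π', E'` are congruent to `Π, E` modulo `g ^ N` (`N ≥ 3`), then there are `M'`, `c'` over `Q` with the same identities,
`M' ≡ M mod g ^ (N-1)`, `c' ≡ c mod g ^ (N-3)`.
-/

set_option autoImplicit false
set_option linter.unusedSectionVars false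

namespace Claimed.Agent.R246

open Polynomial Matrix

section Poly

variable {Q : Type*} [CommRing Q] {n : ℕ}

/-- the polynomial with coefficient vector `a` -/
noncomputable def latPoly (a : Fin n → Q) : Q[X] := ∑ j, C (a j) * X ^ (j : ℕ)

theorem latPoly_coeff (a : Fin n → Q) (l : Fin n) : (latPoly a).coeff l = a l := by
  classical
  simp only [latPoly, finsetSum_coeff, coeff_C_mul, coeff_X_pow]
  rw [Finset.sum_eq_single l]
  · simp
  · intro b _ hb
    rw [if_neg, mul_zero]
    intro h
    exact hb (Fin.ext h.symm)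
  · simp

theorem latPoly_coeff_ge (a : Fin n → Q) {l : ℕ} (hl : n ≤ l) : (latPoly a).coeff l = 0 := by
  simp only [latPoly, finsetSum_coeff, coeff_C_mul, coeff_X_pow]
  refine Finset.sum_eq_zero fun j _ => ?_
  rw [if_neg, mul_zero]
  have := j.2
  omega

theorem latPoly_degree_lt (a : Fin n → Q) : (latPoly a).degree < n := by
  rw [degree_lt_iff_coeff_zero]
  intro l hl
  exact latPoly_coeff_ge a hl

theorem latPoly_ext {p q : Q[X]} (hp : p.degree < n) (hq : q.degree < n)
    (h : ∀ l : Fin n, p.coeff l = q.coeff l) : p = q := by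
  ext l
  by_cases hl : l < n
  · exact h ⟨l, hl⟩
  · rw [degree_lt_iff_coeff_zero] at hp hq
    rw [hp l (not_lt.1 hl), hq l (not_lt.1 hl)]

theorem latPoly_map {S : Type*} [CommRing S] (φ : Q →+* S) (a : Fin n → Q) :
    (latPoly a).map φ = latPoly (fun j => φ (a j)) := by
  simp [latPoly, Polynomial.map_sum]

/-- `g * p = ∑_k (vec p * M')_k E'_k` if `M' * E' = g` -/
theorem latPoly_key {g : Q} {M' E' : Matrix (Fin n) (Fin n) Q} (hME : M' * E' = g • 1)
    {p : Q[X]} (hp : p.degree < n) :
    C g * p = ∑ k, C (∑ j : Fin n, p.coeff j * M' j k) * latPoly (E' k) := by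
  classical
  refine latPoly_ext (n := n) ?_ ?_ ?_
  · rw [degree_lt_iff_coeff_zero] at hp ⊢
    intro l hl
    rw [coeff_C_mul, hp l hl, mul_zero]
  · rw [degree_lt_iff_coeff_zero]
    intro l hl
    simp only [finsetSum_coeff, coeff_C_mul, latPoly_coeff_ge _ hl, mul_zero, Finset.sum_const_zero]
  · intro l
    simp only [coeff_C_mul, finsetSum_coeff, latPoly_coeff, Finset.sum_mul]
    rw [Finset.sum_comm]
    have h1 : ∀ j : Fin n, ∑ k, p.coeff j * M' j k * E' k l = p.coeff j * (g • (1 : Matrix (Fin n) (Fin n) Q)) j l := by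
      intro j
      rw [← hME, Matrix.mul_apply, Finset.mul_sum]
      exact Finset.sum_congr rfl fun k _ => by ring
    simp only [h1, Matrix.smul_apply, Matrix.one_apply, smul_eq_mul]
    rw [Finset.sum_eq_single l]
    · simp [mul_comm]
    · intro b _ hb
      simp [hb]
    · simp

end Poly

section Perturb

variable {Q : Type*} [CommRing Q] {n : ℕ}

/-- congruent coefficients give equal images in the quotient -/
theorem lat_map_eq_of_dvd {a : Q} {p p' : Q[X]} (h : ∀ l, a ∣ p'.coeff l - p.coeff l) :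
    p'.map (Ideal.Quotient.mk (Ideal.span {a})) = p.map (Ideal.Quotient.mk (Ideal.span {a})) := by
  ext l
  rw [coeff_map, coeff_map, Ideal.Quotient.eq, Ideal.mem_span_singleton]
  exact h l

theorem lat_dvd_of_map_eq {a : Q} {p p' : Q[X]}
    (h : p'.map (Ideal.Quotient.mk (Ideal.span {a})) = p.map (Ideal.Quotient.mk (Ideal.span {a})))
    (l : ℕ) : a ∣ p'.coeff l - p.coeff l := by
  have := congrArg (fun r => r.coeff l) h
  simp only [coeff_map] at this
  rwa [Ideal.Quotient.eq, Ideal.mem_span_singleton] at this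

/-- `det (1 + g • X) = 1 + g * z` -/
theorem lat_det_one_add (g : Q) (Y : Matrix (Fin n) (Fin n) Q) :
    ∃ z, (1 + g • Y).det = 1 + g * z := by
  have h : Ideal.Quotient.mk (Ideal.span {g}) ((1 + g • Y).det) = 1 := by
    rw [RingHom.map_det]
    have : (Ideal.Quotient.mk (Ideal.span {g})).mapMatrix (1 + g • Y) = 1 := by
      have hg : Ideal.Quotient.mk (Ideal.span {g}) g = 0 :=
        Ideal.Quotient.eq_zero_iff_mem.2 (Ideal.mem_span_singleton_self g)
      ext i j
      by_cases hij : i = j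
      · subst hij; simp [hg]
      · simp [hg, Matrix.one_apply_ne hij]
    rw [this, Matrix.det_one]
  have h2 : (1 + g • Y).det - 1 ∈ Ideal.span {g} := by
    rw [← Ideal.Quotient.eq, h, map_one]
  obtain ⟨z, hz⟩ := Ideal.mem_span_singleton.1 h2
  exact ⟨z, by rw [← hz]; ring⟩

/-- **S1.3 (perturbation of lattice data).** -/
theorem lat_perturb [IsDomain Q] {g : Q} (hg0 : g ≠ 0) (hrad : ∀ z, IsUnit (1 + g * z))
    {Pi Pi' : Q[X]} (hPi : Pi.Monic) (hPi' : Pi'.Monic) (hdeg' : Pi'.natDegree = n)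
    {E M E' : Matrix (Fin n) (Fin n) Q} (hEM : E * M = g • 1) (hME : M * E = g • 1)
    {c : Fin n → Fin n → Fin n → Q}
    (hL3 : ∀ i j, (latPoly (E i) * latPoly (E j)) %ₘ Pi = C g * ∑ k, C (c i j k) * latPoly (E k))
    {N : ℕ} (hN : 3 ≤ N)
    (hPP : ∀ l, g ^ N ∣ Pi'.coeff l - Pi.coeff l) (hEE : ∀ i j, g ^ N ∣ E' i j - E i j) :
    ∃ (M' : Matrix (Fin n) (Fin n) Q) (c' : Fin n → Fin n → Fin n → Q),
      E' * M' = g • 1 ∧ M' * E' = g • 1 ∧ (∀ i j, g ^ (N - 1) ∣ M' i j - M i j) ∧
      (∀ i j, (latPoly (E' i) * latPoly (E' j)) %ₘ Pi'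
        = C g * ∑ k, C (c' i j k) * latPoly (E' k)) ∧
      ∀ i j k, g ^ (N - 3) ∣ c' i j k - c i j k := by
  classical
  choose eps heps using hEE
  set ε : Matrix (Fin n) (Fin n) Q := Matrix.of eps with hε
  have hE' : E' = E + g ^ N • ε := by
    ext i j
    have := heps i j
    simp only [Matrix.add_apply, Matrix.smul_apply, hε, Matrix.of_apply, smul_eq_mul]
    rw [← this]; ring
  set U : Matrix (Fin n) (Fin n) Q := 1 + g ^ (N - 1) • (M * ε) with hU
  have hUdet : IsUnit U.det := by
    have : U = 1 + g • (g ^ (N - 2) • (M * ε)) := by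
      rw [hU, smul_smul, ← pow_succ']
      congr 3
      omega
    obtain ⟨z, hz⟩ := lat_det_one_add g (g ^ (N - 2) • (M * ε))
    rw [this, hz]
    exact hrad z
  have hUU : U * U⁻¹ = 1 := Matrix.mul_nonsing_inv U hUdet
  have hUU' : U⁻¹ * U = 1 := Matrix.nonsing_inv_mul U hUdet
  have hEU : E * U = E' := by
    rw [hU, hE', Matrix.mul_add, Matrix.mul_one, Matrix.mul_smul, ← Matrix.mul_assoc, hEM,
      Matrix.smul_mul, Matrix.one_mul, smul_smul, ← pow_succ]
    congr 3
    omega
  set M' : Matrix (Fin n) (Fin n) Q := U⁻¹ * M with hM'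
  have h1 : E' * M' = g • 1 := by
    rw [← hEU, hM', Matrix.mul_assoc, ← Matrix.mul_assoc U, hUU, Matrix.one_mul, hEM]
  have h2 : M' * E' = g • 1 := by
    rw [← hEU, hM', Matrix.mul_assoc, ← Matrix.mul_assoc M, hME, Matrix.smul_mul, Matrix.one_mul,
      Matrix.mul_smul, hUU']
  have h3 : ∀ i j, g ^ (N - 1) ∣ M' i j - M i j := by
    have : M' - M = g ^ (N - 1) • (-(U⁻¹ * (M * ε) * M)) := by
      have hU1 : U⁻¹ - 1 = g ^ (N - 1) • (-(U⁻¹ * (M * ε))) := by
        have : U⁻¹ - 1 = U⁻¹ * (1 - U) := by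
          rw [Matrix.mul_sub, Matrix.mul_one, hUU']
        rw [this, hU]
        simp
      have : M' - M = (U⁻¹ - 1) * M := by
        rw [Matrix.sub_mul, Matrix.one_mul]
      rw [this, hU1]
      simp
    intro i j
    have h := congrFun (congrFun this i) j
    simp only [Matrix.sub_apply, Matrix.smul_apply, smul_eq_mul] at h
    exact ⟨_, h⟩
  -- the products
  set p : Fin n → Fin n → Q[X] := fun i j => (latPoly (E i) * latPoly (E j)) %ₘ Pi with hp
  set p' : Fin n → Fin n → Q[X] := fun i j => (latPoly (E' i) * latPoly (E' j)) %ₘ Pi' with hp'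
  have hp'deg : ∀ i j, (p' i j).degree < n := by
    intro i j
    have := degree_modByMonic_lt (latPoly (E' i) * latPoly (E' j)) hPi'
    rwa [degree_eq_natDegree hPi'.ne_zero, hdeg'] at this
  have hlat : ∀ i, (latPoly (E' i)).map (Ideal.Quotient.mk (Ideal.span {g ^ N}))
      = (latPoly (E i)).map (Ideal.Quotient.mk (Ideal.span {g ^ N})) := by
    intro i
    rw [latPoly_map, latPoly_map]
    congr 1
    funext j
    rw [Ideal.Quotient.eq, Ideal.mem_span_singleton]
    exact ⟨_, heps i j⟩
  have hpp : ∀ i j l, g ^ N ∣ (p' i j).coeff l - (p i j).coeff l := by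
    intro i j
    apply lat_dvd_of_map_eq
    rw [hp, hp']
    simp only
    rw [map_modByMonic _ hPi', map_modByMonic _ hPi, Polynomial.map_mul, Polynomial.map_mul,
      hlat, hlat, lat_map_eq_of_dvd hPP]
  have hpc : ∀ i j (l : Fin n), (p i j).coeff l = g * ∑ k, c i j k * E k l := by
    intro i j l
    simp only [hp, hL3, coeff_C_mul, finsetSum_coeff, latPoly_coeff]
  have hpM : ∀ i j m, ∑ l : Fin n, (p i j).coeff l * M l m = g ^ 2 * c i j m := by
    intro i j m
    simp only [hpc, Finset.mul_sum, Finset.sum_mul]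
    rw [Finset.sum_comm]
    have : ∀ k : Fin n, ∑ l, g * (c i j k * E k l) * M l m
        = g * c i j k * (g • (1 : Matrix (Fin n) (Fin n) Q)) k m := by
      intro k
      rw [← hEM, Matrix.mul_apply, Finset.mul_sum]
      exact Finset.sum_congr rfl fun l _ => by ring
    simp only [this, Matrix.smul_apply, Matrix.one_apply, smul_eq_mul]
    rw [Finset.sum_eq_single m]
    · simp; ring
    · intro b _ hb
      simp [hb]
    · simp
  have hdiv : ∀ i j m, g ^ (N - 1) ∣ ∑ l : Fin n, (p' i j).coeff l * M' l m - g ^ 2 * c i j m := by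
    intro i j m
    rw [← hpM, ← Finset.sum_sub_distrib]
    refine Finset.dvd_sum fun l _ => ?_
    have : (p' i j).coeff l * M' l m - (p i j).coeff l * M l m
        = ((p' i j).coeff l - (p i j).coeff l) * M' l m + (p i j).coeff l * (M' l m - M l m) := by
      ring
    rw [this]
    refine dvd_add (Dvd.dvd.mul_right ?_ _) (Dvd.dvd.mul_left (h3 l m) _)
    exact (pow_dvd_pow g (Nat.sub_le N 1)).trans (hpp i j l)
  choose w hw using hdiv
  refine ⟨M', fun i j m => c i j m + g ^ (N - 3) * w i j m, h1, h2, h3, ?_, ?_⟩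
  · intro i j
    have hkey := latPoly_key h2 (hp'deg i j)
    have hCg : (C g : Q[X]) ≠ 0 := by simpa using hg0
    apply mul_left_cancel₀ hCg
    change C g * p' i j = _
    rw [hkey, Finset.mul_sum, Finset.mul_sum]
    refine Finset.sum_congr rfl fun k _ => ?_
    have : ∑ l : Fin n, (p' i j).coeff l * M' l k = g * (g * (c i j k + g ^ (N - 3) * w i j k)) := by
      have h4 := hw i j k
      have h5 : g ^ (N - 1) = g ^ 2 * g ^ (N - 3) := by
        rw [← pow_add]; congr 1; omega
      have h6 : ∑ l : Fin n, (p' i j).coeff l * M' l k = g ^ 2 * c i j k + g ^ (N - 1) * w i j k := by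
        rw [← h4]; ring
      rw [h6, h5]; ring
    rw [this, C_mul, C_mul]
    ring
  · intro i j k
    exact ⟨w i j k, by ring⟩

end Perturb

end Claimed.Agent.R246

/-! ### hygiene (rule 6, on-demand lemmas): the equation lemmas of the definitions of this file are realised HERE.
Keep this block at the end of the file. -/
theorem Claimed.Agent.R246.Hyg.Latt : True := by
  have := @Claimed.Agent.R246.latPoly.eq_1.{0}
  have := @Claimed.Agent.R246.latPoly.eq_def.{0}
  trivial
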