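import Claimed.Agent.R246.T.LD
import Claimed.Agent.R246.T.W
import Claimed.Agent.R246.T.Latt

/-!
# Row 246, Theorem T, steps S1.2 + S1.3: lattice data over `A⟦X⟧` become polynomial in `X`

`A` a complete local domain (in the application `A = R = ℂ⟦t⟧`, `A⟦X⟧ = P^`, `A[X] = R[s]`).
`lat_step1`: lattice data `D` over `A⟦X⟧` such that `X * D.g * resultant (Pi, Pi')` is regular in `X`
are approximated modulo `g ^ N` by raw lattice data over `A[X]`, with `g` distinguished, `u(0)` a unit.
-/

set_option autoImplicit false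
set_option linter.unusedSectionVars false

namespace Claimed.Agent.R246

open Matrix IsLocalRing
open scoped Polynomial PowerSeries

section Aux

/-- in a domain `E * M = g` implies `M * E = g` -/
theorem lat_mul_comm {Q : Type*} [CommRing Q] [IsDomain Q] {n : ℕ} {g : Q} (hg : g ≠ 0)
    {E M : Matrix (Fin n) (Fin n) Q} (h : E * M = g • 1) : M * E = g • 1 := by
  set Y := M * E with hY
  have h1 : (Y - g • 1) * Y = 0 := by
    have : Y * Y = g • Y := by
      rw [hY, Matrix.mul_assoc, ← Matrix.mul_assoc E, h, Matrix.smul_mul, Matrix.one_mul,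
        Matrix.mul_smul]
    rw [Matrix.sub_mul, this, Matrix.smul_mul, Matrix.one_mul, sub_self]
  have hdet : Y.det ≠ 0 := by
    have : Y.det = g ^ n := by
      rw [hY, Matrix.det_mul, mul_comm, ← Matrix.det_mul, h, Matrix.det_smul, Matrix.det_one]
      simp
    rw [this]
    exact pow_ne_zero _ hg
  have h2 : Y.det • (Y - g • 1) = 0 := by
    have := congrArg (fun Z => Z * Y.adjugate) h1
    simp only [Matrix.mul_assoc, Matrix.mul_adjugate, Matrix.zero_mul, Matrix.mul_smul,
      Matrix.mul_one] at this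
    exact this
  have h3 : Y - g • 1 = 0 := by
    ext i j
    have := congrFun (congrFun h2 i) j
    simp only [Matrix.smul_apply, smul_eq_mul, Matrix.zero_apply, mul_eq_zero] at this
    rcases this with h | h
    · exact absurd h hdet
    · simpa using h
  exact sub_eq_zero.1 h3

theorem lat_rowPoly_eq {Q : Type*} [CommRing Q] {n : ℕ} (E : Matrix (Fin n) (Fin n) Q) (i : Fin n) :
    LD.rowPoly E i = latPoly (E i) := rfl

theorem latPoly_smul {Q : Type*} [CommRing Q] {n : ℕ} (a : Q) (v : Fin n → Q) :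
    latPoly (fun j => a * v j) = Polynomial.C a * latPoly v := by
  simp only [latPoly, Finset.mul_sum, Polynomial.C_mul, mul_assoc]

theorem lat_C_mul_modByMonic {Q : Type*} [CommRing Q] (a : Q) (p q : Q[X]) :
    (Polynomial.C a * p) %ₘ q = Polynomial.C a * (p %ₘ q) := by
  rw [← Polynomial.smul_eq_C_mul, ← Polynomial.smul_eq_C_mul, Polynomial.smul_modByMonic]

/-- `1 + a` is a unit if `a` lies in the maximal ideal -/
theorem lat_isUnit_one_add {A : Type*} [CommRing A] [IsLocalRing A] {a : A}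
    (ha : a ∈ maximalIdeal A) : IsUnit (1 + a) := by
  rcases IsLocalRing.isUnit_or_isUnit_of_add_one (a := 1 + a) (b := -a) (by ring) with h | h
  · exact h
  · exact absurd (by simpa using h) ((IsLocalRing.mem_maximalIdeal a).1 ha)

end Aux

section Step1

variable {A : Type*} [CommRing A] [IsDomain A] [IsLocalRing A] [IsAdicComplete (maximalIdeal A) A]
  {n : ℕ} [NeZero n]

local notation "ι" => (Polynomial.coeToPowerSeries.ringHom : A[X] →+* A⟦X⟧)

theorem lat_iota_apply (p : A[X]) : ι p = (p : A⟦X⟧) := rfl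

theorem lat_iota_injective : Function.Injective (ι : A[X] → A⟦X⟧) := Polynomial.coe_injective A

/-- a distinguished polynomial of positive degree lies in the Jacobson radical of `A⟦X⟧` -/
theorem lat_rad {g : A[X]} (hg : g.IsDistinguishedAt (maximalIdeal A)) (hpos : 0 < g.natDegree)
    (z : A⟦X⟧) : IsUnit (1 + (g : A⟦X⟧) * z) := by
  rw [PowerSeries.isUnit_iff_constantCoeff]
  simp only [map_add, map_one, map_mul, Polynomial.constantCoeff_coe]
  apply lat_isUnit_one_add
  exact Ideal.mul_mem_right _ _ (hg.mem hpos)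

theorem lat_not_isUnit {g : A[X]} (hg : g.IsDistinguishedAt (maximalIdeal A)) (hpos : 0 < g.natDegree) :
    ¬ IsUnit (g : A⟦X⟧) := by
  rw [PowerSeries.isUnit_iff_constantCoeff]
  simp only [Polynomial.constantCoeff_coe]
  exact (IsLocalRing.mem_maximalIdeal _).1 (hg.mem hpos)

/-- S1.2: rescaling of the lattice data -/
theorem lat_rescale {Q : Type*} [CommRing Q] [IsDomain Q] (D : LD.Data Q n) (κ : Q) (hκ : κ ≠ 0) :
    (κ • D.E) * D.M = (D.g * κ) • 1 ∧ D.M * (κ • D.E) = (D.g * κ) • 1 ∧
    (∀ i j, (latPoly ((κ • D.E) i) * latPoly ((κ • D.E) j)) %ₘ D.Pi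
      = Polynomial.C (D.g * κ) * ∑ k, Polynomial.C (D.c i j k) * latPoly ((κ • D.E) k)) := by
  have h1 : (κ • D.E) * D.M = (D.g * κ) • 1 := by
    rw [Matrix.smul_mul, D.L1, smul_smul, mul_comm]
  refine ⟨h1, lat_mul_comm (mul_ne_zero D.g_ne hκ) h1, fun i j => ?_⟩
  have hrow : ∀ i, latPoly ((κ • D.E) i) = Polynomial.C κ * latPoly (D.E i) := by
    intro i
    rw [← latPoly_smul]
    rfl
  have h3 := D.L3 i j
  simp only [lat_rowPoly_eq] at h3
  simp only [hrow]
  have : Polynomial.C κ * latPoly (D.E i) * (Polynomial.C κ * latPoly (D.E j))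
      = Polynomial.C (κ * κ) * (latPoly (D.E i) * latPoly (D.E j)) := by
    rw [Polynomial.C_mul]; ring
  rw [this, lat_C_mul_modByMonic, h3, Finset.mul_sum, Finset.mul_sum, Finset.mul_sum]
  refine Finset.sum_congr rfl fun k _ => ?_
  simp only [Polynomial.C_mul]
  ring

/-- S1.3, second half: descent of `M'`, `c'` to `A[X]` up to a unit `u`. -/
theorem lat_descend {g : A[X]} (hg : g.IsDistinguishedAt (maximalIdeal A))
    {Pi' : A[X][X]} (hPi' : Pi'.Monic)
    {E' : Matrix (Fin n) (Fin n) A[X]} {MQ : Matrix (Fin n) (Fin n) A⟦X⟧}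
    {cQ : Fin n → Fin n → Fin n → A⟦X⟧}
    (h1 : E'.map ι * MQ = (g : A⟦X⟧) • 1) (h2 : MQ * E'.map ι = (g : A⟦X⟧) • 1)
    (h3 : ∀ i j, (latPoly ((E'.map ι) i) * latPoly ((E'.map ι) j)) %ₘ (Pi'.map ι)
      = Polynomial.C (g : A⟦X⟧) * ∑ k, Polynomial.C (cQ i j k) * latPoly ((E'.map ι) k)) :
    ∃ (u : A[X]) (Mh : Matrix (Fin n) (Fin n) A[X]) (ch : Fin n → Fin n → Fin n → A[X]),
      IsUnit (u.coeff 0) ∧ E' * Mh = (u * g) • 1 ∧
      (∀ i j, Polynomial.C u * ((latPoly (E' i) * latPoly (E' j)) %ₘ Pi')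
        = Polynomial.C g * ∑ k, Polynomial.C (ch i j k) * latPoly (E' k)) ∧
      ∀ i j k, (ch i j k : A⟦X⟧) = (u : A⟦X⟧) * cQ i j k := by
  classical
  -- the determinant of `E'`
  have hdetmap : (E'.map ι).det = ((E'.det : A[X]) : A⟦X⟧) := by
    have := RingHom.map_det ι E'
    rw [lat_iota_apply] at this
    rw [this]
    rfl
  have hdet : ((E'.det : A[X]) : A⟦X⟧) * MQ.det = (g : A⟦X⟧) ^ n := by
    rw [← hdetmap, ← Matrix.det_mul, h1, Matrix.det_smul, Matrix.det_one]
    simp
  have hreg : ((E'.det : A[X]) : A⟦X⟧).map (residue A) ≠ 0 := by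
    intro h0
    have := congrArg (PowerSeries.map (residue A)) hdet
    rw [map_mul, h0, zero_mul, map_pow] at this
    exact pow_ne_zero n (T.tw_map_ne_zero hg) this.symm
  obtain ⟨e, u, he, hu, hdeu⟩ := T.tw_preparation hreg
  -- `Mh`
  have hadj : ((E'.det : A[X]) : A⟦X⟧) • MQ = (g : A⟦X⟧) • (E'.adjugate).map ι := by
    have hm : (E'.adjugate).map ι = (E'.map ι).adjugate := by
      have := RingHom.map_adjugate ι E'
      simpa [RingHom.mapMatrix_apply] using this
    have := congrArg (fun Z => Z * (E'.map ι).adjugate) h2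
    simp only [Matrix.mul_assoc, Matrix.mul_adjugate, Matrix.mul_smul, Matrix.mul_one,
      Matrix.smul_mul, Matrix.one_mul] at this
    rw [hm, ← this, hdetmap]
  have hMh : ∀ i j, ∃ p' : A[X], (u : A⟦X⟧) * MQ i j = p' := by
    intro i j
    have h := congrFun (congrFun hadj i) j
    simp only [Matrix.smul_apply, smul_eq_mul, Matrix.map_apply, lat_iota_apply] at h
    obtain ⟨p', hp', -⟩ := T.tw_exists_coe_of_mul he (h := (u : A⟦X⟧) * MQ i j)
      (p := g * E'.adjugate i j) (by
        rw [Polynomial.coe_mul, ← h, hdeu, Polynomial.coe_mul]; ring)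
    exact ⟨p', hp'⟩
  choose Mh hMh using hMh
  -- the products
  set p' : Fin n → Fin n → A[X][X] := fun i j => (latPoly (E' i) * latPoly (E' j)) %ₘ Pi' with hp'
  have hlatmap : ∀ i, (latPoly (E' i)).map ι = latPoly ((E'.map ι) i) := by
    intro i
    rw [latPoly_map]
    rfl
  have hp'map : ∀ i j, (p' i j).map ι
      = Polynomial.C (g : A⟦X⟧) * ∑ k, Polynomial.C (cQ i j k) * latPoly ((E'.map ι) k) := by
    intro i j
    rw [← h3, hp']
    simp only
    rw [Polynomial.map_modByMonic _ hPi', Polynomial.map_mul, hlatmap, hlatmap]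
  have hp'coeff : ∀ i j (l : Fin n), (((p' i j).coeff l : A[X]) : A⟦X⟧)
      = (g : A⟦X⟧) * ∑ k, cQ i j k * (E'.map ι) k l := by
    intro i j l
    have := congrArg (fun r => r.coeff (l : ℕ)) (hp'map i j)
    simp only [Polynomial.coeff_map, Polynomial.coeff_C_mul, Polynomial.finsetSum_coeff,
      latPoly_coeff, lat_iota_apply] at this
    exact this
  have hch : ∀ i j k, ∃ q' : A[X], (u : A⟦X⟧) * cQ i j k = q' := by
    intro i j k
    obtain ⟨q', hq', -⟩ := T.tw_exists_coe_of_mul (T.tw_pow hg 2) (h := (u : A⟦X⟧) * cQ i j k)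
      (p := ∑ l : Fin n, (p' i j).coeff l * Mh l k) (by
        have hsum : ((∑ l : Fin n, (p' i j).coeff l * Mh l k : A[X]) : A⟦X⟧)
            = ∑ l : Fin n, (((p' i j).coeff l : A[X]) : A⟦X⟧) * ((u : A⟦X⟧) * MQ l k) := by
          rw [← lat_iota_apply, map_sum]
          refine Finset.sum_congr rfl fun l _ => ?_
          rw [map_mul, lat_iota_apply, lat_iota_apply, hMh]
        rw [hsum]
        simp only [hp'coeff, Finset.mul_sum, Finset.sum_mul]
        rw [Finset.sum_comm]
        have : ∀ m : Fin n, ∑ l : Fin n, (g : A⟦X⟧) * (cQ i j m * (E'.map ι) m l) * ((u : A⟦X⟧) * MQ l k)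
            = (g : A⟦X⟧) * cQ i j m * (u : A⟦X⟧) * ((g : A⟦X⟧) • (1 : Matrix (Fin n) (Fin n) A⟦X⟧)) m k := by
          intro m
          rw [← h1, Matrix.mul_apply, Finset.mul_sum]
          exact Finset.sum_congr rfl fun l _ => by ring
        simp only [this, Matrix.smul_apply, Matrix.one_apply, smul_eq_mul]
        rw [Finset.sum_eq_single k]
        · simp only [if_true, Polynomial.coe_pow]; ring
        · intro b _ hb
          simp [hb]
        · simp)
    exact ⟨q', hq'⟩
  choose ch hch using hch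
  refine ⟨u, Matrix.of Mh, ch, hu, ?_, ?_, fun i j k => (hch i j k).symm⟩
  · -- L1
    have hinj : Function.Injective (fun Z : Matrix (Fin n) (Fin n) A[X] => Z.map ι) := by
      intro Z Z' h
      refine Matrix.ext fun i j => ?_
      exact lat_iota_injective (congrFun (congrFun h i) j)
    apply hinj
    simp only
    rw [Matrix.map_mul]
    have hM : (Matrix.of Mh).map ι = (u : A⟦X⟧) • MQ := by
      ext i j : 2
      simp only [Matrix.map_apply, Matrix.of_apply, lat_iota_apply, Matrix.smul_apply, smul_eq_mul,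
        hMh]
    rw [hM, Matrix.mul_smul, h1, smul_smul]
    ext i j : 2
    by_cases hij : i = j
    · subst hij
      simp
    · simp [Matrix.one_apply_ne hij]
  · -- L3
    intro i j
    apply Polynomial.map_injective ι lat_iota_injective
    change (Polynomial.C u * p' i j).map ι = _
    rw [Polynomial.map_mul, hp'map, Polynomial.map_mul, Polynomial.map_C, Polynomial.map_C,
      Polynomial.map_sum, Finset.mul_sum, Finset.mul_sum, Finset.mul_sum]
    refine Finset.sum_congr rfl fun k _ => ?_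
    rw [Polynomial.map_mul, Polynomial.map_C, hlatmap, lat_iota_apply, lat_iota_apply,
      lat_iota_apply, ← hch, Polynomial.C_mul]
    ring

/-- **S1.2 + S1.3.**  Lattice data over `A⟦X⟧` are approximated by raw lattice data over `A[X]`. -/
theorem lat_step1 (D : LD.Data A⟦X⟧ n)
    (hreg : (PowerSeries.X * D.g * Polynomial.resultant D.Pi (Polynomial.derivative D.Pi) n (n - 1)
      : A⟦X⟧).map (residue A) ≠ 0) (N : ℕ) :
    ∃ R1 : LD.RawData A[X] n, R1.g.IsDistinguishedAt (maximalIdeal A) ∧ 0 < R1.g.natDegree ∧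
      IsUnit (R1.u.coeff 0) ∧ R1.Delta ≠ 0 ∧
      ∀ i j k, (R1.g : A⟦X⟧) ^ N ∣ (R1.ch i j k : A⟦X⟧) - (R1.u : A⟦X⟧) * D.c i j k := by
  classical
  set res : A⟦X⟧ := Polynomial.resultant D.Pi (Polynomial.derivative D.Pi) n (n - 1) with hres
  obtain ⟨g, h, hg, hh, hfac⟩ := T.tw_preparation_series hreg
  obtain ⟨hinv, hhinv⟩ := hh.exists_right_inv
  have hres0 : res ≠ 0 := by
    intro h0
    apply hreg
    rw [h0, mul_zero, map_zero]
  have hinv0 : hinv ≠ 0 := by
    intro h0
    rw [h0, mul_zero] at hhinv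
    exact zero_ne_one hhinv
  set κ : A⟦X⟧ := PowerSeries.X * res * hinv with hκ
  have hκ0 : κ ≠ 0 := mul_ne_zero (mul_ne_zero PowerSeries.X_ne_zero hres0) hinv0
  have hgκ : D.g * κ = (g : A⟦X⟧) := by
    have : D.g * κ = (PowerSeries.X * D.g * res) * hinv := by rw [hκ]; ring
    rw [this, hfac, mul_assoc, hhinv, mul_one]
  have hpos : 0 < g.natDegree := by
    rcases Nat.eq_zero_or_pos g.natDegree with h0 | h0
    · exfalso
      have hg1 : g = 1 := Polynomial.eq_one_of_monic_natDegree_zero hg.monic h0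
      rw [hg1, Polynomial.coe_one, one_mul] at hfac
      have hX : IsUnit (PowerSeries.X : A⟦X⟧) := by
        have : IsUnit (PowerSeries.X * (D.g * res) : A⟦X⟧) := by
          rw [← mul_assoc, hfac]; exact hh
        exact isUnit_of_mul_isUnit_left this
      rw [PowerSeries.isUnit_iff_constantCoeff] at hX
      simp at hX
    · exact h0
  have hg0 : (g : A⟦X⟧) ≠ 0 := by
    intro h0
    exact hg.monic.ne_zero (Polynomial.coe_injective A (by simpa using h0))
  obtain ⟨hEM, hME, hL3⟩ := lat_rescale D κ hκ0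
  rw [hgκ] at hEM hME
  simp only [hgκ] at hL3
  -- the approximation
  set N1 := N + 3 with hN1
  have hG := T.tw_pow hg N1
  set low : A[X][X] := latPoly (fun l : Fin n => T.twRem (g ^ N1) (D.Pi.coeff l)) with hlow
  set Pi' : A[X][X] := Polynomial.X ^ n + low with hPi'def
  have hlowdeg : low.degree < n := latPoly_degree_lt _
  have hPi' : Pi'.Monic := Polynomial.monic_X_pow_add hlowdeg
  have hPi'deg : Pi'.natDegree = n := by
    rw [hPi'def, Polynomial.natDegree_add_eq_left_of_degree_lt
      (by rw [Polynomial.degree_X_pow]; exact hlowdeg), Polynomial.natDegree_X_pow]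
  set E' : Matrix (Fin n) (Fin n) A[X] := Matrix.of fun i j => T.twRem (g ^ N1) ((κ • D.E) i j)
    with hE'
  have hrem : ∀ f : A⟦X⟧, (g : A⟦X⟧) ^ N1 ∣ ((T.twRem (g ^ N1) f : A[X]) : A⟦X⟧) - f := by
    intro f
    have := T.twRem_dvd_sub hG f
    rw [Polynomial.coe_pow] at this
    rw [← neg_sub]
    exact (dvd_neg).2 this
  have hPP : ∀ l, (g : A⟦X⟧) ^ N1 ∣ (Pi'.map ι).coeff l - D.Pi.coeff l := by
    intro l
    rw [Polynomial.coeff_map, hPi'def, Polynomial.coeff_add, Polynomial.coeff_X_pow]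
    rcases lt_trichotomy l n with hl | hl | hl
    · rw [if_neg (ne_of_lt hl), zero_add]
      have : low.coeff l = T.twRem (g ^ N1) (D.Pi.coeff l) := latPoly_coeff _ ⟨l, hl⟩
      rw [this]
      exact hrem _
    · subst hl
      rw [if_pos rfl, latPoly_coeff_ge _ le_rfl, add_zero, map_one]
      have : D.Pi.coeff l = 1 := by
        have := D.monic.coeff_natDegree
        rwa [D.natDegree_eq] at this
      rw [this, sub_self]
      exact dvd_zero _
    · rw [if_neg (ne_of_gt hl), latPoly_coeff_ge _ hl.le, add_zero, map_zero,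
        Polynomial.coeff_eq_zero_of_natDegree_lt (by rw [D.natDegree_eq]; exact hl), sub_self]
      exact dvd_zero _
  have hEE : ∀ i j, (g : A⟦X⟧) ^ N1 ∣ (E'.map ι) i j - (κ • D.E) i j := fun i j => hrem _
  obtain ⟨MQ, cQ, h1, h2, -, h3, h4⟩ := lat_perturb hg0 (lat_rad hg hpos) D.monic
    (hPi'.map ι) (by rw [hPi'.natDegree_map, hPi'deg]) hEM hME hL3 (N := N1) (by omega) hPP hEE
  obtain ⟨u, Mh, ch, hu, hL1', hL3', hchQ⟩ := lat_descend hg hPi' h1 h2 h3
  -- L4
  have hn0 : n ≠ 0 := NeZero.ne n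
  obtain ⟨pA, pB, -, -, hAB⟩ := Polynomial.exists_mul_add_mul_eq_C_resultant (m := n) (n := n - 1)
    Pi' (Polynomial.derivative Pi') hPi'deg.le
    (by have := Polynomial.natDegree_derivative_le Pi'; rwa [hPi'deg] at this) (Or.inl hn0)
  set res' : A[X] := Polynomial.resultant Pi' (Polynomial.derivative Pi') n (n - 1) with hres'
  have hres'0 : res' ≠ 0 := by
    intro h0
    have hmap : Polynomial.map (Ideal.Quotient.mk (Ideal.span {(g : A⟦X⟧) ^ N1})) (Pi'.map ι)
        = Polynomial.map (Ideal.Quotient.mk (Ideal.span {(g : A⟦X⟧) ^ N1})) D.Pi :=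
      lat_map_eq_of_dvd hPP
    have e1 : Ideal.Quotient.mk (Ideal.span {(g : A⟦X⟧) ^ N1}) (ι res')
        = Ideal.Quotient.mk (Ideal.span {(g : A⟦X⟧) ^ N1}) res := by
      rw [hres', hres, ← Polynomial.resultant_map_map, ← Polynomial.resultant_map_map,
        ← Polynomial.resultant_map_map, ← Polynomial.derivative_map, ← Polynomial.derivative_map,
        ← Polynomial.derivative_map, hmap]
    rw [h0, map_zero, map_zero, eq_comm, Ideal.Quotient.eq_zero_iff_mem,
      Ideal.mem_span_singleton] at e1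
    -- `g ^ N1 ∣ res ∣ g * h`
    have e2 : (g : A⟦X⟧) ^ N1 ∣ (g : A⟦X⟧) * h := by
      rw [← hfac]
      exact e1.mul_left _
    have e3 : (g : A⟦X⟧) * (g : A⟦X⟧) ^ (N + 2) ∣ (g : A⟦X⟧) * h := by
      rw [← pow_succ']
      exact e2
    have e4 : (g : A⟦X⟧) ^ (N + 2) ∣ h := (mul_dvd_mul_iff_left hg0).1 e3
    have e5 : (g : A⟦X⟧) ∣ h := (dvd_pow_self _ (by omega)).trans e4
    exact lat_not_isUnit hg hpos (isUnit_of_dvd_unit e5 hh)
  -- L2
  have hE0 : ∀ j : Fin n, D.E 0 j = if j = 0 then D.g else 0 := by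
    intro j
    have := congrArg (fun r => r.coeff (j : ℕ)) D.L2
    simp only [LD.coeff_rowPoly, Polynomial.coeff_C] at this
    rw [this]
    by_cases hj : j = 0
    · subst hj; simp
    · rw [if_neg hj, if_neg]
      intro h0
      exact hj (Fin.ext (by simpa using h0))
  have hL2' : LD.rowPoly E' 0 = Polynomial.C g := by
    rw [lat_rowPoly_eq]
    refine latPoly_ext (n := n) (latPoly_degree_lt _) ?_ ?_
    · refine lt_of_le_of_lt Polynomial.degree_C_le ?_
      exact_mod_cast Nat.pos_of_ne_zero hn0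
    · intro l
      rw [latPoly_coeff, Polynomial.coeff_C]
      simp only [hE', Matrix.of_apply, Matrix.smul_apply, smul_eq_mul, hE0]
      by_cases hl : l = 0
      · subst hl
        simp only [if_true, Fin.val_zero]
        rw [mul_comm, hgκ, T.twRem_coe hG, Polynomial.modByMonic_eq_self_iff hG.monic]
        rw [Polynomial.degree_eq_natDegree hg.monic.ne_zero,
          Polynomial.degree_eq_natDegree hG.monic.ne_zero, hg.monic.natDegree_pow]
        have : g.natDegree < N1 * g.natDegree := by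
          have : 1 * g.natDegree < N1 * g.natDegree := Nat.mul_lt_mul_of_pos_right (by omega) hpos
          simpa using this
        exact_mod_cast this
      · rw [if_neg hl, mul_zero, T.twRem_zero, if_neg]
        intro h0
        exact hl (Fin.ext (by simpa using h0))
  refine ⟨{ Pi := Pi', E := E', Mh := Mh, g := g, u := u, Delta := res', ch := ch, A := pA, B := pB,
            monic := hPi', natDegree_eq := hPi'deg, L1 := hL1', L2 := hL2', L3 := hL3',
            L4 := by rw [← hAB]; ring }, hg, hpos, hu, hres'0, ?_⟩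
  intro i j k
  simp only
  rw [hchQ, ← mul_sub]
  have := h4 i j k
  have hN : N1 - 3 = N := by omega
  rw [hN] at this
  exact this.mul_left _

end Step1

end Claimed.Agent.R246
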