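import Claimed.Agent.R246.TLift

/-!
# Row 246, Theorem T: the abstract perturbation lemma (S1.4-S1.8 and S2.2 of `R246_T.md` in one statement)

`LztPkg ι M ev x y c0 N0 M0` ("package") collects what is carried through the two approximation steps:
* `x 0, x 1` (= `s, t`) are killed by `ev`;
* (J) `u * x a ^ c0` lies in the ideal of the `ι`-minors of `M`, `ev u ≠ 0`;
* (V) two vectors `v 0, v 1` in the kernel of `M`, killed by `ev`;
* (W) `u * x a ^ N0` lies in the ideal of the `2 × 2` minors of `(v 0, v 1)`, `ev u ≠ 0`;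
* (5) `u * y l ^ M0 ∈ (x 0, x 1)`, `ev u ≠ 0`.

`lzt_pert`: the package passes from `(B, M)` to `(B', M')` if both rings map to a common ring `Bb`
(`ρ`, `ρ'`, in the application `Bb = B / g ^ e`), the matrices and `x`, `y` agree there, every element of `B` has
an approximant in `B'`, the kernel of `ρ'` is divisible by `g' ^ e` and `M'` has "rank `≤ |ι|`".
-/

set_option autoImplicit false
set_option linter.unusedSectionVars false

namespace Claimed.Agent.R246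

open Matrix

/-- the ideal of the `2 × 2` minors of two vectors -/
def lztFrameIdeal {B q : Type*} [CommRing B] (v : Fin 2 → q → B) : Ideal B :=
  Ideal.span {d | ∃ z z' : q, d = v 0 z * v 1 z' - v 0 z' * v 1 z}

/-- the package -/
structure LztPkg {k B m q L : Type*} [CommRing k] [CommRing B] [Fintype m] [Fintype q]
    (ι : Type*) [Fintype ι] [DecidableEq ι]
    (M : Matrix m q B) (ev : B →+* k) (x : Fin 2 → B) (y : L → B) (c0 N0 M0 : ℕ) : Prop where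
  ev_x : ∀ a, ev (x a) = 0
  jac : ∃ u, ev u ≠ 0 ∧ ∀ a, u * x a ^ c0 ∈ lztMinorIdeal ι M
  frame : ∃ v : Fin 2 → q → B, (∀ i, M *ᵥ v i = 0) ∧ (∀ i z, ev (v i z) = 0) ∧
    ∃ u, ev u ≠ 0 ∧ ∀ a, u * x a ^ N0 ∈ lztFrameIdeal v
  nil : ∀ l, ∃ u, ev u ≠ 0 ∧ u * y l ^ M0 ∈ Ideal.span (Set.range x)

section Transfer

variable {B B' Bb : Type*} [CommRing B] [CommRing B'] [CommRing Bb]

/-- transfer of ideal membership along `ρ`, `ρ'` -/
theorem lzt_transfer (ρ : B →+* Bb) (ρ' : B' →+* Bb) (hsurj : ∀ b, ∃ b', ρ' b' = ρ b)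
    (S : Set B) (S' : Set B') (hS : ∀ s ∈ S, ∃ s' ∈ S', ρ' s' = ρ s) :
    ∀ z ∈ Ideal.span S, ∃ z' ∈ Ideal.span S', ρ' z' = ρ z := by
  intro z hz
  refine Submodule.span_induction (p := fun z _ => ∃ z' ∈ Ideal.span S', ρ' z' = ρ z)
    ?_ ?_ ?_ ?_ hz
  · intro s hs
    obtain ⟨s', hs', h⟩ := hS s hs
    exact ⟨s', Ideal.subset_span hs', h⟩
  · exact ⟨0, Ideal.zero_mem _, by simp⟩
  · rintro a b _ _ ⟨a', ha', ha⟩ ⟨b', hb', hb⟩
    exact ⟨a' + b', Ideal.add_mem _ ha' hb', by simp [ha, hb]⟩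
  · rintro c a _ ⟨a', ha', ha⟩
    obtain ⟨c', hc⟩ := hsurj c
    exact ⟨c' * a', Ideal.mul_mem_left _ _ ha', by simp [ha, hc]⟩

/-- `g ∈ (x 0, x 1)` implies `g ^ (2 N) ∈ (x 0 ^ N, x 1 ^ N)` -/
theorem lzt_pow_two_mul {A : Type*} [CommRing A] (x : Fin 2 → A) {g : A}
    (hg : g ∈ Ideal.span (Set.range x)) (N : ℕ) :
    ∃ Y : Fin 2 → A, g ^ (2 * N) = ∑ b, Y b * x b ^ N := by
  have h1 : Ideal.span (Set.range x) = Ideal.span {x 0} ⊔ Ideal.span {x 1} := by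
    rw [← Ideal.span_union]
    congr 1
    ext z
    constructor
    · rintro ⟨a, rfl⟩
      fin_cases a <;> simp
    · rintro (h | h)
      · exact ⟨0, h.symm⟩
      · exact ⟨1, h.symm⟩
  have h2 : g ^ (N + N) ∈ Ideal.span {x 0} ^ N ⊔ Ideal.span {x 1} ^ N :=
    Ideal.sup_pow_add_le_pow_sup_pow (Ideal.pow_mem_pow (h1 ▸ hg) _)
  rw [Ideal.span_singleton_pow, Ideal.span_singleton_pow, Submodule.mem_sup] at h2
  obtain ⟨p, hp, q, hq, hpq⟩ := h2
  obtain ⟨p', rfl⟩ := Ideal.mem_span_singleton'.1 hp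
  obtain ⟨q', rfl⟩ := Ideal.mem_span_singleton'.1 hq
  refine ⟨![p', q'], ?_⟩
  rw [two_mul, ← hpq]
  simp [Fin.sum_univ_two]

/-- an element divisible by `g ^ e`, `e ≥ 2 N + 1`, is a combination of `x b ^ N` with coefficients in `(g)` -/
theorem lzt_pow_comb {A : Type*} [CommRing A] (x : Fin 2 → A) {g : A}
    (hg : g ∈ Ideal.span (Set.range x)) {N e : ℕ} (he : 2 * N + 1 ≤ e) {z : A} (hz : g ^ e ∣ z) :
    ∃ Y : Fin 2 → A, (∀ b, g ∣ Y b) ∧ z = ∑ b, Y b * x b ^ N := by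
  obtain ⟨Y, hY⟩ := lzt_pow_two_mul x hg N
  obtain ⟨w, rfl⟩ := hz
  obtain ⟨d, rfl⟩ := Nat.exists_eq_add_of_le he
  refine ⟨fun b => g * (g ^ d * w * Y b), fun b => Dvd.intro _ rfl, ?_⟩
  have : g ^ (2 * N + 1 + d) * w = g * (g ^ d * w) * g ^ (2 * N) := by ring
  rw [this, hY, Finset.mul_sum]
  refine Finset.sum_congr rfl fun b _ => ?_
  ring

end Transfer

section Pert

variable {k B B' Bb m q L : Type*} [CommRing k] [IsDomain k] [CommRing B] [CommRing B'] [CommRing Bb]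
  [Fintype m] [Fintype q] [DecidableEq q] {ι : Type*} [Fintype ι] [DecidableEq ι]

/-- **PERT.**  The package passes to an approximating algebra. -/
theorem lzt_pert (ρ : B →+* Bb) (ρ' : B' →+* Bb) (evb : Bb →+* k)
    (hsurj : ∀ b, ∃ b', ρ' b' = ρ b)
    {M : Matrix m q B} {M' : Matrix m q B'} (hM : ∀ i j, ρ' (M' i j) = ρ (M i j))
    {x : Fin 2 → B} {x' : Fin 2 → B'} (hx : ∀ a, ρ' (x' a) = ρ (x a))
    {y : L → B} {y' : L → B'} (hy : ∀ l, ρ' (y' l) = ρ (y l))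
    {g' : B'} (hg : g' ∈ nonZeroDivisors B') (hgx : g' ∈ Ideal.span (Set.range x'))
    {e : ℕ} (hker : ∀ b', ρ' b' = 0 → g' ^ e ∣ b')
    (hR : LztCramerProp ι M')
    {c0 N0 M0 : ℕ} (he : 2 * c0 + 2 * N0 + 1 ≤ e)
    (h : LztPkg ι M (evb.comp ρ) x y c0 N0 M0) :
    LztPkg ι M' (evb.comp ρ') x' y' c0 N0 M0 := by
  classical
  set ev' : B' →+* k := evb.comp ρ' with hev'
  have hev : ∀ b b', ρ' b' = ρ b → ev' b' = (evb.comp ρ) b := by
    intro b b' hb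
    simp [hev', hb]
  have hevx : ∀ a, ev' (x' a) = 0 := fun a => (hev _ _ (hx a)).trans (h.ev_x a)
  have hevI : ∀ z ∈ Ideal.span (Set.range x'), ev' z = 0 := by
    intro z hz
    have : Ideal.span (Set.range x') ≤ RingHom.ker ev' := by
      rw [Ideal.span_le]
      rintro _ ⟨a, rfl⟩
      exact hevx a
    exact this hz
  have hevg : ev' g' = 0 := hevI _ hgx
  have hevdvd : ∀ z, g' ∣ z → ev' z = 0 := by
    rintro _ ⟨w, rfl⟩
    simp [hevg]
  -- (J)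
  obtain ⟨u, hu, hJ⟩ := h.jac
  obtain ⟨ut, hut⟩ := hsurj u
  have hminor : ∀ s ∈ {d | ∃ (I : ι → m) (J : ι → q), d = (M.submatrix I J).det},
      ∃ s' ∈ {d | ∃ (I : ι → m) (J : ι → q), d = (M'.submatrix I J).det}, ρ' s' = ρ s := by
    rintro _ ⟨I, J, rfl⟩
    refine ⟨_, ⟨I, J, rfl⟩, ?_⟩
    rw [RingHom.map_det, RingHom.map_det]
    congr 1
    ext a b
    simp [hM]
  have hJ' : ∃ u1, ev' u1 ≠ 0 ∧ ∀ a, u1 * x' a ^ c0 ∈ lztMinorIdeal ι M' := by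
    have hstep : ∀ a, ∃ Y : Fin 2 → B', (∀ b, ev' (Y b) = 0) ∧
        ut * x' a ^ c0 - ∑ b, Y b * x' b ^ c0 ∈ lztMinorIdeal ι M' := by
      intro a
      obtain ⟨z', hz', hz⟩ := lzt_transfer ρ ρ' hsurj _ _ hminor _ (hJ a)
      have h0 : ρ' (ut * x' a ^ c0 - z') = 0 := by
        simp [hz, hut, hx]
      obtain ⟨Y, hY, hYe⟩ := lzt_pow_comb x' hgx (N := c0) (by omega) (hker _ h0)
      refine ⟨Y, fun b => hevdvd _ (hY b), ?_⟩
      rw [← hYe]
      have hz'' : z' ∈ lztMinorIdeal ι M' := hz'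
      simpa using hz''
    choose Y hY hYm using hstep
    obtain ⟨u1, hu1, hu1m⟩ := lzt_det_trick ev' (lztMinorIdeal ι M') (fun a => x' a ^ c0) ut
      (Matrix.of Y) (fun a b => hY a b) (fun a => hYm a)
    refine ⟨u1, ?_, hu1m⟩
    rw [hu1]
    exact pow_ne_zero _ (by rw [hev _ _ hut]; exact hu)
  obtain ⟨u1, hu1, hu1m⟩ := hJ'
  -- (V)
  obtain ⟨v, hMv, hevv, uW, huW, hW⟩ := h.frame
  choose vt hvt using fun (i : Fin 2) (z : q) => hsurj (v i z)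
  have hC : g' ^ (2 * c0) * u1 ∈ lztMinorIdeal ι M' := by
    obtain ⟨Y, hY⟩ := lzt_pow_two_mul x' hgx c0
    rw [hY, Finset.sum_mul]
    refine Ideal.sum_mem _ fun b _ => ?_
    have : Y b * x' b ^ c0 * u1 = Y b * (u1 * x' b ^ c0) := by ring
    rw [this]
    exact Ideal.mul_mem_left _ _ (hu1m b)
  have hr : ∀ i, ∃ r : m → B', M' *ᵥ vt i = g' ^ e • r := by
    intro i
    have : ∀ j, g' ^ e ∣ (M' *ᵥ vt i) j := by
      intro j
      apply hker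
      have h1 : ρ ((M *ᵥ v i) j) = 0 := by rw [hMv i]; simp
      rw [← h1]
      simp [Matrix.mulVec, dotProduct, hM, hvt]
    choose r hr using this
    exact ⟨r, funext fun j => by simpa using hr j⟩
  choose r hr using hr
  have hw : ∀ i, ∃ w : q → B', M' *ᵥ (u1 • vt i - g' ^ (e - 2 * c0) • w) = 0 := fun i =>
    lzt_lift hR hg hC (by omega) (hr i)
  choose w hw using hw
  set G : B' := g' ^ (e - 2 * c0) with hG
  have hevG : ev' G = 0 := by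
    rw [hG, map_pow, hevg]
    exact zero_pow (by omega)
  set v' : Fin 2 → q → B' := fun i => u1 • vt i - G • w i with hv'
  have hv'z : ∀ i z, v' i z = u1 * vt i z - G * w i z := fun i z => rfl
  -- (W)
  obtain ⟨uWt, huWt⟩ := hsurj uW
  have hframe : ∀ s ∈ {d | ∃ z z' : q, d = v 0 z * v 1 z' - v 0 z' * v 1 z},
      ∃ s' ∈ {d | ∃ z z' : q, d = vt 0 z * vt 1 z' - vt 0 z' * vt 1 z}, ρ' s' = ρ s := by
    rintro _ ⟨z, z', rfl⟩
    exact ⟨_, ⟨z, z', rfl⟩, by simp [hvt]⟩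
  have hcmp : ∀ d ∈ lztFrameIdeal vt, ∃ t ∈ lztFrameIdeal v', G ∣ u1 ^ 2 * d - t := by
    intro d hd
    refine Submodule.span_induction
      (p := fun d _ => ∃ t ∈ lztFrameIdeal v', G ∣ u1 ^ 2 * d - t) ?_ ?_ ?_ ?_ hd
    · rintro _ ⟨z, z', rfl⟩
      refine ⟨v' 0 z * v' 1 z' - v' 0 z' * v' 1 z, Ideal.subset_span ⟨z, z', rfl⟩, ?_⟩
      refine ⟨(u1 * vt 0 z * w 1 z' + u1 * w 0 z * vt 1 z' - G * w 0 z * w 1 z')
        - (u1 * vt 0 z' * w 1 z + u1 * w 0 z' * vt 1 z - G * w 0 z' * w 1 z), ?_⟩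
      simp only [hv'z]
      ring
    · exact ⟨0, Ideal.zero_mem _, by simp⟩
    · rintro a b _ _ ⟨ta, hta, ⟨ca, hca⟩⟩ ⟨tb, htb, ⟨cb, hcb⟩⟩
      refine ⟨ta + tb, Ideal.add_mem _ hta htb, ⟨ca + cb, ?_⟩⟩
      have : u1 ^ 2 * (a + b) - (ta + tb) = (u1 ^ 2 * a - ta) + (u1 ^ 2 * b - tb) := by ring
      rw [this, hca, hcb]; ring
    · rintro c a _ ⟨ta, hta, ⟨ca, hca⟩⟩
      refine ⟨c * ta, Ideal.mul_mem_left _ _ hta, ⟨c * ca, ?_⟩⟩
      have : u1 ^ 2 * (c • a) - c * ta = c * (u1 ^ 2 * a - ta) := by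
        simp only [smul_eq_mul]; ring
      rw [this, hca]; ring
  have hW' : ∃ u2, ev' u2 ≠ 0 ∧ ∀ a, u2 * x' a ^ N0 ∈ lztFrameIdeal v' := by
    have hstep : ∀ a, ∃ Y : Fin 2 → B', (∀ b, ev' (Y b) = 0) ∧
        (u1 ^ 2 * uWt) * x' a ^ N0 - ∑ b, Y b * x' b ^ N0 ∈ lztFrameIdeal v' := by
      intro a
      obtain ⟨z', hz', hz⟩ := lzt_transfer ρ ρ' hsurj _ _ hframe _ (hW a)
      have h0 : ρ' (uWt * x' a ^ N0 - z') = 0 := by
        simp [hz, huWt, hx]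
      obtain ⟨c1, hc1⟩ := hker _ h0
      obtain ⟨t, ht, c2, hc2⟩ := hcmp z' hz'
      have hdvd : g' ^ (e - 2 * c0) ∣ (u1 ^ 2 * uWt) * x' a ^ N0 - t := by
        refine ⟨u1 ^ 2 * g' ^ (2 * c0) * c1 + c2, ?_⟩
        have h1 : (u1 ^ 2 * uWt) * x' a ^ N0 - t
            = u1 ^ 2 * (uWt * x' a ^ N0 - z') + (u1 ^ 2 * z' - t) := by ring
        have h2 : g' ^ e = g' ^ (e - 2 * c0) * g' ^ (2 * c0) := by
          rw [← pow_add]; congr 1; omega
        rw [h1, hc1, hc2, h2, ← hG]; ring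
      obtain ⟨Y, hY, hYe⟩ := lzt_pow_comb x' hgx (N := N0) (by omega) hdvd
      refine ⟨Y, fun b => hevdvd _ (hY b), ?_⟩
      rw [← hYe]
      simpa using ht
    choose Y hY hYm using hstep
    obtain ⟨u2, hu2, hu2m⟩ := lzt_det_trick ev' (lztFrameIdeal v') (fun a => x' a ^ N0)
      (u1 ^ 2 * uWt) (Matrix.of Y) (fun a b => hY a b) (fun a => hYm a)
    refine ⟨u2, ?_, hu2m⟩
    rw [hu2]
    refine pow_ne_zero _ ?_
    rw [map_mul, map_pow]
    exact mul_ne_zero (pow_ne_zero _ hu1) (by rw [hev _ _ huWt]; exact huW)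
  refine ⟨hevx, ⟨u1, hu1, hu1m⟩, ⟨v', hw, ?_, hW'⟩, ?_⟩
  · intro i z
    rw [hv'z, map_sub, map_mul, map_mul, hevG, hev _ _ (hvt i z), hevv i z]
    simp
  · intro l
    obtain ⟨u5, hu5, h5⟩ := h.nil l
    obtain ⟨u5t, hu5t⟩ := hsurj u5
    have hrange : ∀ s ∈ Set.range x, ∃ s' ∈ Set.range x', ρ' s' = ρ s := by
      rintro _ ⟨a, rfl⟩
      exact ⟨_, ⟨a, rfl⟩, hx a⟩
    obtain ⟨z', hz', hz⟩ := lzt_transfer ρ ρ' hsurj _ _ hrange _ h5
    have h0 : ρ' (u5t * y' l ^ M0 - z') = 0 := by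
      simp [hz, hu5t, hy]
    obtain ⟨c1, hc1⟩ := hker _ h0
    refine ⟨u5t, by rw [hev _ _ hu5t]; exact hu5, ?_⟩
    have h1 : u5t * y' l ^ M0 = z' + g' ^ e * c1 := by rw [← hc1]; ring
    rw [h1]
    refine Ideal.add_mem _ hz' (Ideal.mul_mem_right _ _ ?_)
    exact Ideal.pow_mem_of_mem _ hgx _ (by omega)

end Pert

end Claimed.Agent.R246

/-! ### hygiene (rule 6, on-demand lemmas): the equation lemmas of the definitions of this file are realised HERE.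
Keep this block at the end of the file. -/
theorem Claimed.Agent.R246.Hyg.Pert : True := by
  have := @Claimed.Agent.R246.lztFrameIdeal.eq_1.{0, 0}
  have := @Claimed.Agent.R246.lztFrameIdeal.eq_def.{0, 0}
  trivial
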