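import Claimed.Agent.R246.T.SC
import Claimed.Agent.R246.T.Jac
import Claimed.Agent.R246.T.Pert
import Claimed.Agent.R246.T.Desc

/-!
# Row 246, Theorem T: `lzt_pert` and `lzt_desc` for structure-constant algebras

* `lzt_pert_sc`: PERT for `AA(Pa,ca) → AA(Qb,cq) ← AA(Pb,cb)` (`Qb` = common quotient of the base rings,
  e.g. `P^ / g ^ e`), with the Jacobian matrices `jacMat C.e d`.
* `lzt_desc_sc`: DESC for `AA(P0,c0) → AA(P,c)`, `P0 → P` injective: the package descends as soon as the image of `P0`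
  contains a certain finite subset of `P`.
-/

set_option autoImplicit false
set_option linter.unusedSectionVars false

namespace Claimed.Agent.R246

open Matrix

section JacMap

variable {k Pa Qb I : Type*} [CommRing k] [CommRing Pa] [CommRing Qb] [Algebra k Pa]
  [Fintype I] [DecidableEq I]

/-- image of the Jacobian matrix under a coordinatewise map -/
theorem jacMat_mapHom (Ca : SCData Pa I) (Cq : SCData Qb I)
    [Algebra k Ca.Alg] [IsScalarTower k Pa Ca.Alg]
    (α : Pa →+* Qb) (hoa : Cq.o = Ca.o) (hα : ∀ i j l, α (Ca.c i j l) = Cq.c i j l)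
    (da : Fin 2 → Derivation k Pa Pa) (ij : I × I) (z : Fin 2 ⊕ I) :
    Ca.mapHom Cq α hoa hα (jacMat Ca.e da ij z) =
      match z with
      | Sum.inl a => - ∑ l, algebraMap Qb Cq.Alg (α (da a (Ca.c ij.1 ij.2 l))) * Cq.e l
      | Sum.inr l => (if ij.1 = l then Cq.e ij.2 else 0) + (if ij.2 = l then Cq.e ij.1 else 0)
          - algebraMap Qb Cq.Alg (Cq.c ij.1 ij.2 l) := by
  obtain ⟨i, j⟩ := ij
  rcases z with a | l
  · rw [jacMat_inl]
    simp only [map_neg, map_sum, map_mul, SCData.mapHom_algebraMap, SCData.mapHom_e,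
      SCData.e_repr, SCData.e_mul_e_co]
  · rw [jacMat_inr]
    simp only [map_sub, map_add, SCData.mapHom_algebraMap, SCData.e_repr, SCData.e_mul_e_co, hα]
    congr 2
    · split_ifs <;> simp
    · split_ifs <;> simp

end JacMap

section PertSC

variable {k K Pa Pb Qb I L : Type*} [CommRing k] [CommRing K] [IsDomain K]
  [CommRing Pa] [CommRing Pb] [CommRing Qb] [Algebra k Pa] [Algebra k Pb]
  [Fintype I] [DecidableEq I]

/-- **PERT for structure-constant algebras.** -/
theorem lzt_pert_sc (Ca : SCData Pa I) (Cb : SCData Pb I) (Cq : SCData Qb I)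
    [Algebra k Ca.Alg] [IsScalarTower k Pa Ca.Alg] [Algebra k Cb.Alg] [IsScalarTower k Pb Cb.Alg]
    (α : Pa →+* Qb) (β : Pb →+* Qb) (hoa : Cq.o = Ca.o) (hob : Cq.o = Cb.o)
    (hα : ∀ i j l, α (Ca.c i j l) = Cq.c i j l) (hβ : ∀ i j l, β (Cb.c i j l) = Cq.c i j l)
    (da : Fin 2 → Derivation k Pa Pa) (db : Fin 2 → Derivation k Pb Pb)
    (hd : ∀ a i j l, β (db a (Cb.c i j l)) = α (da a (Ca.c i j l)))
    (hrange : ∀ p, ∃ p', β p' = α p)
    {g : Pb} (hg : g ∈ nonZeroDivisors Pb) {e : ℕ} (hker : ∀ p, β p = 0 → g ^ e ∣ p)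
    {xa : Fin 2 → Pa} {xb : Fin 2 → Pb} (hx : ∀ a, β (xb a) = α (xa a))
    (hgx : g ∈ Ideal.span (Set.range xb))
    {ya : L → Ca.Alg} {yb : L → Cb.Alg}
    (hy : ∀ l, Cb.mapHom Cq β hob hβ (yb l) = Ca.mapHom Cq α hoa hα (ya l))
    (evq : Cq.Alg →+* K) (hR : LztCramerProp I (jacMat Cb.e db))
    {c0 N0 M0 : ℕ} (he : 2 * c0 + 2 * N0 + 1 ≤ e)
    (h : LztPkg I (jacMat Ca.e da) (evq.comp (Ca.mapHom Cq α hoa hα))
      (fun a => algebraMap Pa Ca.Alg (xa a)) ya c0 N0 M0) :
    LztPkg I (jacMat Cb.e db) (evq.comp (Cb.mapHom Cq β hob hβ))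
      (fun a => algebraMap Pb Cb.Alg (xb a)) yb c0 N0 M0 := by
  classical
  refine lzt_pert (Ca.mapHom Cq α hoa hα) (Cb.mapHom Cq β hob hβ) evq ?_ ?_ ?_ hy
    (g' := algebraMap Pb Cb.Alg g) ?_ ?_ (e := e) ?_ hR he h
  · -- approximants
    intro b
    choose p hp using fun l => hrange (b.co l)
    exact ⟨⟨p⟩, by apply SCData.Alg.ext'; intro l; simp [hp]⟩
  · intro ij z
    rw [jacMat_mapHom, jacMat_mapHom]
    rcases z with a | l
    · simp only [hd]
    · rfl
  · intro a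
    simp [hx]
  · -- non-zero-divisor
    rw [mem_nonZeroDivisors_iff_right]
    intro x hx0
    apply SCData.Alg.ext'
    intro l
    have h1 : (x * algebraMap Pb Cb.Alg g).co l = g * x.co l := by
      rw [mul_comm, ← Algebra.smul_def]
      rfl
    have h2 : g * x.co l = 0 := by rw [← h1, hx0]; rfl
    have h3 := (mem_nonZeroDivisors_iff_right.1 hg) (x.co l) (by rw [mul_comm]; exact h2)
    exact h3
  · -- `g ∈ (x)`
    have : Ideal.span (Set.range fun a => algebraMap Pb Cb.Alg (xb a))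
        = (Ideal.span (Set.range xb)).map (algebraMap Pb Cb.Alg) := by
      rw [Ideal.map_span, ← Set.range_comp]
      rfl
    rw [this]
    exact Ideal.mem_map_of_mem _ hgx
  · -- kernel
    intro b hb
    rw [SCData.mapHom_eq_zero_iff] at hb
    obtain ⟨z, hz⟩ := SCData.Alg.exists_smul_of_dvd (g ^ e) b fun l => hker _ (hb l)
    exact ⟨z, by rw [hz, Algebra.smul_def, map_pow]⟩

end PertSC

section DescSC

universe v w

variable {k K P L : Type*} {I : Type w} [CommRing k] [CommRing K] [CommRing P] [Algebra k P]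
  [Fintype I] [DecidableEq I] [Finite L]

/-- the Jacobian matrix of `AA(P,c)` in terms of the structure constants -/
theorem jacMat_sc (C : SCData P I) [Algebra k C.Alg] [IsScalarTower k P C.Alg]
    (d : Fin 2 → Derivation k P P) (ij : I × I) (z : Fin 2 ⊕ I) :
    jacMat C.e d ij z =
      match z with
      | Sum.inl a => - ∑ l, algebraMap P C.Alg (d a (C.c ij.1 ij.2 l)) * C.e l
      | Sum.inr l => (if ij.1 = l then C.e ij.2 else 0) + (if ij.2 = l then C.e ij.1 else 0)
          - algebraMap P C.Alg (C.c ij.1 ij.2 l) := by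
  obtain ⟨i, j⟩ := ij
  rcases z with a | l
  · rw [jacMat_inl]
    simp only [SCData.e_repr, SCData.e_mul_e_co]
  · rw [jacMat_inr]
    simp only [SCData.e_repr, SCData.e_mul_e_co]

/-- **DESC for structure-constant algebras.** -/
theorem lzt_desc_sc (C : SCData P I) [Algebra k C.Alg] [IsScalarTower k P C.Alg]
    (d : Fin 2 → Derivation k P P) {ev : C.Alg →+* K} {x : Fin 2 → P} {y : L → C.Alg}
    {c0 N0 M0 : ℕ}
    (h : LztPkg I (jacMat C.e d) ev (fun a => algebraMap P C.Alg (x a)) y c0 N0 M0) :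
    ∃ F : Finset P, ∀ (P0 : Type v) [CommRing P0] [Algebra k P0] (φ : P0 →+* P),
      Function.Injective φ → ∀ (C0 : SCData P0 I) [Algebra k C0.Alg] [IsScalarTower k P0 C0.Alg]
      (ho : C.o = C0.o) (hc : ∀ i j l, φ (C0.c i j l) = C.c i j l)
      (d0 : Fin 2 → Derivation k P0 P0) (x0 : Fin 2 → P0) (y0 : L → C0.Alg),
      (∀ a i j l, φ (d0 a (C0.c i j l)) = d a (C.c i j l)) → (∀ a, φ (x0 a) = x a) →
      (∀ l, C0.mapHom C φ ho hc (y0 l) = y l) → (∀ p ∈ F, ∃ p0, φ p0 = p) →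
      LztPkg I (jacMat C0.e d0) (ev.comp (C0.mapHom C φ ho hc))
        (fun a => algebraMap P0 C0.Alg (x0 a)) y0 c0 N0 M0 := by
  classical
  obtain ⟨FB, hFB⟩ := lzt_desc.{max v w} h
  refine ⟨FB.biUnion fun b => Finset.univ.image b.co, ?_⟩
  intro P0 _ _ φ hφ C0 _ _ ho hc d0 x0 y0 hd hx hy hF
  refine hFB C0.Alg (C0.mapHom C φ ho hc) (SCData.mapHom_injective φ ho hc hφ) _ _ _ ?_ ?_ hy ?_
  · intro ij z
    rw [jacMat_mapHom, jacMat_sc]
    rcases z with a | l
    · simp only [hd]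
    · rfl
  · intro a
    simp [hx]
  · intro b hb
    have : ∀ l, ∃ p0, φ p0 = b.co l := fun l => hF _ (Finset.mem_biUnion.2
      ⟨b, hb, Finset.mem_image.2 ⟨l, Finset.mem_univ _, rfl⟩⟩)
    choose p hp using this
    exact ⟨⟨p⟩, by apply SCData.Alg.ext'; intro l; simp [hp]⟩

end DescSC

end Claimed.Agent.R246
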