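import Claimed.Agent.R246.T.SC

/-!
# Row 246, Theorem T: the `k`-algebra structure on `AA(P,c)` for a `k`-algebra `P`; descent of structure constants
-/

set_option autoImplicit false
set_option linter.unusedSectionVars false

namespace Claimed.Agent.R246

/-- structure constants descend along an injective ring hom -/
def SCData.descend {P P0 I : Type*} [CommRing P] [CommRing P0] [Fintype I] [DecidableEq I]
    (C : SCData P I) (φ : P0 →+* P) (hφ : Function.Injective φ) (c0 : I → I → I → P0)
    (hc : ∀ i j l, φ (c0 i j l) = C.c i j l) : SCData P0 I where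
  c := c0
  o := C.o
  comm i j l := hφ (by rw [hc, hc, C.comm])
  unit j l := hφ (by rw [hc, C.unit]; split_ifs <;> simp)
  assoc i j l m := hφ (by simp only [map_sum, map_mul, hc, C.assoc])

/-- the `k`-algebra structure on `AA(P,c)`, `P` a `k`-algebra (not an instance) -/
@[reducible] def SCData.algOver (k : Type*) {P I : Type*} [CommRing k] [CommRing P] [Algebra k P]
    [Fintype I] [DecidableEq I] (C : SCData P I) : Algebra k C.Alg :=
  Algebra.compHom C.Alg (algebraMap k P)

theorem SCData.algOver_tower (k : Type*) {P I : Type*} [CommRing k] [CommRing P] [Algebra k P]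
    [Fintype I] [DecidableEq I] (C : SCData P I) :
    letI := C.algOver k
    IsScalarTower k P C.Alg :=
  letI := C.algOver k
  IsScalarTower.of_algebraMap_eq fun _ => rfl

end Claimed.Agent.R246

/-! ### hygiene (rule 6) -/
theorem Claimed.Agent.R246.Hyg.sctower : True := by
  have := @Claimed.Agent.R246.SCData.descend.eq_1.{0,0,0}
  have := @Claimed.Agent.R246.SCData.descend.eq_def.{0,0,0}
  have := @Claimed.Agent.R246.SCData.algOver.eq_1.{0,0,0}
  have := @Claimed.Agent.R246.SCData.algOver.eq_def.{0,0,0}
  trivial
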