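import Claimed.Agent.R246.T.PRing
import Claimed.Agent.R246.T.SCTower
import Claimed.Agent.R246.T.PertSC
import Claimed.Agent.R246.T.Final

/-!
# Row 246, Theorem T, module (D) = TFINAL

A package `LztPkg` for a structure-constant algebra over `P_2 = R^alg[s][1/u]` gives the frozen statement:
descent to `P_3 = S_3[s][1/u]` with `S_3` finitely generated, `d/dt`-stable (`lzt_desc_sc`, `lzt_RA4`,
`tQ_exists_finset`), then `lzt_final_fg`.
-/

set_option autoImplicit false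
set_option linter.unusedSectionVars false

namespace Claimed.Agent.R246

open scoped PowerSeries Polynomial
open T

section TFinal

local notation "𝒪" => PowerSeries ℂ
local notation "𝒫" => PowerSeries (PowerSeries ℂ)

variable {I : Type} [Fintype I] [DecidableEq I]

/-- **TFINAL over `P_3`**: `S` finitely generated, algebraic, `d/dt`-stable. -/
theorem tfinal_fg {S : Subalgebra ℂ 𝒪} (hfg : S.FG) (hT : PowerSeries.X ∈ S)
    (halg : ∀ x ∈ S, IsAlgebraic ℂ[X] x) (hder : ∀ x ∈ S, PowerSeries.derivative ℂ x ∈ S)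
    {u : 𝒪[X]} (hu : u ∈ tqPol S) (hu0 : PowerSeries.constantCoeff (u.coeff 0) ≠ 0)
    (C : SCData (tQ S u) I) [Algebra ℂ C.Alg] [IsScalarTower ℂ (tQ S u) C.Alg]
    (ev : C.Alg →ₐ[ℂ] ℂ) (hev : ∀ p, ev (algebraMap (tQ S u) C.Alg p) = tqEvQ S u p)
    {c0 N0 M0 : ℕ}
    (pkg : LztPkg I (jacMat C.e (tqD hder hu hu0)) (ev : C.Alg →+* ℂ)
      (fun a => algebraMap (tQ S u) C.Alg (tqPQ hT u a))
      (fun l => C.e l - algebraMap ℂ C.Alg (ev (C.e l))) c0 N0 M0) : LZGoal := by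
  have : Algebra.FiniteType ℂ (tQ S u) := (Subalgebra.fg_iff_finiteType _).1 (tQ_fg hfg u)
  exact lzt_final_fg C.e (tqD hder hu hu0) (tqPQ hT u) (tqD_PQ hT hder hu hu0)
    (tqPQ_isTranscendenceBasis hT halg hu hu0) (tqEvQ S u) (tq_nilQ hT halg hu hu0) ev hev pkg


/-- **TFINAL** (module (D) of the assembly): a package over `AA(P_2, c)`, `P_2 = R^alg[s][1/u]`, gives the
frozen statement. -/
theorem tfinal {u : 𝒪[X]} (hu : u ∈ tqPol (tRalg ℂ))
    (hu0 : PowerSeries.constantCoeff (u.coeff 0) ≠ 0)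
    (C : SCData (tQ (tRalg ℂ) u) I) [Algebra ℂ C.Alg] [IsScalarTower ℂ (tQ (tRalg ℂ) u) C.Alg]
    (ev : C.Alg →ₐ[ℂ] ℂ) (hev : ∀ p, ev (algebraMap (tQ (tRalg ℂ) u) C.Alg p) = tqEvQ (tRalg ℂ) u p)
    {c0 N0 M0 : ℕ}
    (pkg : LztPkg I (jacMat C.e (tqD tRalg_derivative hu hu0)) (ev : C.Alg →+* ℂ)
      (fun a => algebraMap (tQ (tRalg ℂ) u) C.Alg (tqPQ tRalg_X_mem u a))
      (fun l => C.e l - algebraMap ℂ C.Alg (ev (C.e l))) c0 N0 M0) : LZGoal := by
  classical
  obtain ⟨F, hF⟩ := lzt_desc_sc.{0, 0} C (tqD tRalg_derivative hu hu0) pkg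
  -- the finitely many series involved
  let F2 : Finset 𝒫 := F.image Subtype.val ∪
    (Finset.univ : Finset (I × I × I)).image fun t => (C.c t.1 t.2.1 t.2.2 : 𝒫)
  have hF2 : ∀ f ∈ F2, f ∈ tQ (tRalg ℂ) u := by
    intro f hf
    rcases Finset.mem_union.1 hf with hf | hf
    · obtain ⟨x, _, rfl⟩ := Finset.mem_image.1 hf
      exact x.2
    · obtain ⟨x, _, rfl⟩ := Finset.mem_image.1 hf
      exact (C.c _ _ _).2
  obtain ⟨ys, hys, hys2⟩ := tQ_exists_finset hu hu0 F2 hF2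
  obtain ⟨S, hfg, hT, hyS, halg, hder⟩ := lzt_RA4
    (ys ∪ (Finset.range (u.natDegree + 1)).image u.coeff) (by
      intro y hy
      rcases Finset.mem_union.1 hy with hy | hy
      · exact hys y hy
      · obtain ⟨i, _, rfl⟩ := Finset.mem_image.1 hy
        exact hu i)
  have huS : u ∈ tqPol S := by
    intro i
    by_cases hi : i < u.natDegree + 1
    · exact hyS _ (Finset.mem_union_right _ (Finset.mem_image.2 ⟨i, Finset.mem_range.2 hi, rfl⟩))
    · rw [Polynomial.coeff_eq_zero_of_natDegree_lt (by omega)]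
      exact S.zero_mem
  have hF2S : ∀ f ∈ F2, f ∈ tQ S u := hys2 S fun y hy => hyS y (Finset.mem_union_left _ hy)
  have hQ : tQ S u ≤ tQ (tRalg ℂ) u := tQ_mono (fun x hx => halg x hx) u
  let φ : tQ S u →+* tQ (tRalg ℂ) u := (Subalgebra.inclusion hQ).toRingHom
  have hφ : Function.Injective φ := Subalgebra.inclusion_injective hQ
  have hφc : ∀ x : tQ S u, ((φ x : tQ (tRalg ℂ) u) : 𝒫) = x := fun _ => rfl
  let c3 : I → I → I → tQ S u := fun i j l => ⟨(C.c i j l : 𝒫), hF2S _ (Finset.mem_union_right _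
    (Finset.mem_image.2 ⟨(i, j, l), Finset.mem_univ _, rfl⟩))⟩
  have hc3 : ∀ i j l, φ (c3 i j l) = C.c i j l := fun i j l => Subtype.ext rfl
  let C3 : SCData (tQ S u) I := C.descend φ hφ c3 hc3
  let _ := C3.algOver ℂ
  have := C3.algOver_tower ℂ
  have ho : C.o = C3.o := rfl
  have hc : ∀ i j l, φ (C3.c i j l) = C.c i j l := hc3
  have hmapalg : ∀ r : ℂ, C3.mapHom C φ ho hc (algebraMap ℂ C3.Alg r) = algebraMap ℂ C.Alg r := by
    intro r
    have h1 : algebraMap ℂ C3.Alg r = algebraMap (tQ S u) C3.Alg (algebraMap ℂ (tQ S u) r) := rfl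
    rw [h1, SCData.mapHom_algebraMap, IsScalarTower.algebraMap_apply ℂ (tQ (tRalg ℂ) u) C.Alg]
    rfl
  have pkg3 := hF (tQ S u) φ hφ C3 ho hc (tqD hder huS hu0) (tqPQ hT u)
    (fun l => C3.e l - algebraMap ℂ C3.Alg (ev (C.e l)))
    (by
      intro a i j l
      apply Subtype.ext
      fin_cases a <;> rfl)
    (by
      intro a
      apply Subtype.ext
      rw [hφc, tqPQ_coe, tqPQ_coe])
    (by
      intro l
      rw [map_sub, SCData.mapHom_e, hmapalg])
    (by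
      intro p hp
      exact ⟨⟨(p : 𝒫), hF2S _ (Finset.mem_union_left _ (Finset.mem_image.2 ⟨p, hp, rfl⟩))⟩,
        Subtype.ext rfl⟩)
  let ev3 : C3.Alg →ₐ[ℂ] ℂ :=
    { (ev : C.Alg →+* ℂ).comp (C3.mapHom C φ ho hc) with
      commutes' := fun r => by
        change ev (C3.mapHom C φ ho hc (algebraMap ℂ C3.Alg r)) = _
        rw [hmapalg, AlgHom.commutes] }
  have hev3 : ∀ x, ev3 x = ev (C3.mapHom C φ ho hc x) := fun _ => rfl
  refine tfinal_fg hfg hT halg hder huS hu0 C3 ev3 ?_ (c0 := c0) (N0 := N0) (M0 := M0) ?_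
  · intro p
    rw [hev3, SCData.mapHom_algebraMap, hev]
    rfl
  · have hy : (fun l => C3.e l - algebraMap ℂ C3.Alg (ev3 (C3.e l)))
        = fun l => C3.e l - algebraMap ℂ C3.Alg (ev (C.e l)) := by
      funext l
      rw [hev3, SCData.mapHom_e]
    rw [hy]
    exact pkg3

end TFinal

end Claimed.Agent.R246
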