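import Claimed.Agent.R246.T.Step
import Claimed.Agent.R246.T.PRing
import Claimed.Agent.R246.T.Latt2
import Claimed.Agent.R246.T.LDJac

/-!
# Row 246, Theorem T, (F) = STEP1: from `P^ = k⟦t⟧⟦s⟧` to `P_1 = k⟦t⟧[s][1/u]`

`lzt_step1`: lattice data `D0` over `𝒫` (regular in `s`) with a package on `AA(𝒫, D0.c)` give raw lattice data `R1` over
`𝒪[X]` (`g` distinguished, `u(0,0) ≠ 0`, `Delta ≠ 0`) such that EVERY `D1 : LD.Data (tQ ⊤ R1.u) n` with `u * D1.c = R1.ch`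
carries the package on `AA(P_1, D1.c)`, with the same constants.
(`lat_step1` + `lzt_step` + the ring lemmas of `T/PRing.lean`.)
-/

set_option autoImplicit false
set_option linter.unusedSectionVars false

namespace Claimed.Agent.R246

open Matrix IsLocalRing T
open scoped Polynomial PowerSeries

section Step1

variable {k : Type*} [Field k]

local notation "𝒪" => PowerSeries k
local notation "𝒫" => PowerSeries (PowerSeries k)

theorem tqPol_top_mem (N : 𝒪[X]) : N ∈ tqPol (⊤ : Subalgebra k 𝒪) :=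
  mem_tqPol.2 fun _ => Algebra.mem_top

/-- a distinguished polynomial of positive degree lies in `(s, t)` of `P_1` -/
theorem tq_dist_mem_span (u : 𝒪[X]) {g : 𝒪[X]} (hg : g.IsDistinguishedAt (maximalIdeal 𝒪))
    (hpos : 0 < g.natDegree) :
    (⟨(g : 𝒫), tQ_coe_mem u (tqPol_top_mem g)⟩ : tQ (⊤ : Subalgebra k 𝒪) u) ∈
      Ideal.span (Set.range (tqPQ (S := (⊤ : Subalgebra k 𝒪)) Algebra.mem_top u)) := by
  have h0 : g.coeff 0 ∈ maximalIdeal 𝒪 := hg.mem hpos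
  have h1 : (PowerSeries.X : 𝒪) ∣ g.coeff 0 := by
    rw [PowerSeries.X_dvd_iff]
    by_contra hne
    have : IsUnit (g.coeff 0) := by
      rw [PowerSeries.isUnit_iff_constantCoeff]
      exact isUnit_iff_ne_zero.2 hne
    exact (IsLocalRing.mem_maximalIdeal _).1 h0 this
  obtain ⟨b0, hb0⟩ := h1
  have hdecomp : (⟨(g : 𝒫), tQ_coe_mem u (tqPol_top_mem g)⟩ : tQ (⊤ : Subalgebra k 𝒪) u)
      = ⟨((Polynomial.divX g : 𝒪[X]) : 𝒫), tQ_coe_mem u (tqPol_top_mem _)⟩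
          * tqPQ (S := (⊤ : Subalgebra k 𝒪)) Algebra.mem_top u 0
        + ⟨(PowerSeries.C b0 : 𝒫), tQ_C_mem u Algebra.mem_top⟩
          * tqPQ (S := (⊤ : Subalgebra k 𝒪)) Algebra.mem_top u 1 := by
    apply Subtype.ext
    simp only [Subalgebra.coe_add, Subalgebra.coe_mul, tqPQ_coe, tqP_zero, tqP_one]
    conv_lhs => rw [← Polynomial.divX_mul_X_add g]
    rw [Polynomial.coe_add, Polynomial.coe_mul, Polynomial.coe_X, Polynomial.coe_C, hb0, map_mul]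
    ring
  rw [hdecomp]
  exact Ideal.add_mem _ (Ideal.mul_mem_left _ _ (Ideal.subset_span ⟨0, rfl⟩))
    (Ideal.mul_mem_left _ _ (Ideal.subset_span ⟨1, rfl⟩))

/-- **(F) STEP1.** -/
theorem lzt_step1 {n : ℕ} [NeZero n] (D0 : LD.Data 𝒫 n)
    (hreg : (PowerSeries.X * D0.g
      * Polynomial.resultant D0.Pi (Polynomial.derivative D0.Pi) n (n - 1) : 𝒫).map (residue 𝒪) ≠ 0)
    [Algebra k D0.sc.Alg] [IsScalarTower k 𝒫 D0.sc.Alg]
    (dh : Fin 2 → Derivation k 𝒫 𝒫) (hdh0 : dh 0 = tds k) (hdh1 : dh 1 = tdt k)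
    (p : Fin 2 → 𝒫) (hp : p = tqP k)
    (ev : D0.sc.Alg →+* k) (hev : ∀ f, ev (algebraMap 𝒫 D0.sc.Alg f) = tqEv k f)
    {c0 N0 M0 : ℕ}
    (pkg : LztPkg (Fin n) (jacMat D0.sc.e dh) ev (fun a => algebraMap 𝒫 D0.sc.Alg (p a))
      (fun l => D0.sc.e l - algebraMap k D0.sc.Alg (ev (D0.sc.e l))) c0 N0 M0) :
    ∃ (R1 : LD.RawData 𝒪[X] n) (hu0 : PowerSeries.constantCoeff (R1.u.coeff 0) ≠ 0),
      R1.g.IsDistinguishedAt (maximalIdeal 𝒪) ∧ 0 < R1.g.natDegree ∧ R1.Delta ≠ 0 ∧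
      ∀ (D1 : LD.Data (tQ (⊤ : Subalgebra k 𝒪) R1.u) n),
        (∀ i j l, (R1.u : 𝒫) * (D1.c i j l : 𝒫) = (R1.ch i j l : 𝒫)) →
        ∀ [Algebra k D1.sc.Alg] [IsScalarTower k (tQ (⊤ : Subalgebra k 𝒪) R1.u) D1.sc.Alg],
        ∃ ev1 : D1.sc.Alg →+* k,
          (∀ f, ev1 (algebraMap _ D1.sc.Alg f) = tqEvQ (⊤ : Subalgebra k 𝒪) R1.u f) ∧
          (∀ l, ev1 (D1.sc.e l) = ev (D0.sc.e l)) ∧
          LztPkg (Fin n)
            (jacMat D1.sc.e (tqD (S := (⊤ : Subalgebra k 𝒪)) (fun _ _ => Algebra.mem_top)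
              (tqPol_top_mem R1.u) hu0))
            ev1 (fun a => algebraMap _ D1.sc.Alg (tqPQ (S := (⊤ : Subalgebra k 𝒪)) Algebra.mem_top R1.u a))
            (fun l => D1.sc.e l - algebraMap k D1.sc.Alg (ev1 (D1.sc.e l))) c0 N0 M0 := by
  classical
  set e : ℕ := 2 * c0 + 2 * N0 + 1 with he
  obtain ⟨R1, hg, hpos, hu, hΔ, hcong⟩ := lat_step1 D0 hreg (e + 1)
  have hu0 : PowerSeries.constantCoeff (R1.u.coeff 0) ≠ 0 := by
    rw [PowerSeries.isUnit_iff_constantCoeff] at hu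
    exact hu.ne_zero
  refine ⟨R1, hu0, hg, hpos, hΔ, ?_⟩
  intro D1 hD1 _ _
  have huU : IsUnit (R1.u : 𝒫) := tq_isUnit hu0
  set g' : tQ (⊤ : Subalgebra k 𝒪) R1.u := ⟨(R1.g : 𝒫), tQ_coe_mem R1.u (tqPol_top_mem R1.g)⟩
    with hg'
  have hg'0 : g' ≠ 0 := by
    intro h0
    have h1 : (R1.g : 𝒫) = 0 := congrArg Subtype.val h0
    exact hg.monic.ne_zero (Polynomial.coe_injective 𝒪 (by simpa using h1))
  obtain ⟨ev1, hev1, hev1e, pkg1⟩ := lzt_step (AlgHom.id k 𝒫) (tQ (⊤ : Subalgebra k 𝒪) R1.u).val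
    dh dh (tqD (S := (⊤ : Subalgebra k 𝒪)) (fun _ _ => Algebra.mem_top) (tqPol_top_mem R1.u) hu0)
    (fun _ _ => rfl)
    (by
      intro a f
      fin_cases a
      · exact (tqD_zero_coe (S := (⊤ : Subalgebra k 𝒪)) (fun _ _ => Algebra.mem_top)
          (tqPol_top_mem R1.u) hu0 f).trans (congrFun (congrArg DFunLike.coe hdh0.symm) _)
      · exact (tqD_one_coe (S := (⊤ : Subalgebra k 𝒪)) (fun _ _ => Algebra.mem_top)
          (tqPol_top_mem R1.u) hu0 f).trans (congrFun (congrArg DFunLike.coe hdh1.symm) _))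
    D0.sc D1.sc rfl g' (mem_nonZeroDivisors_of_ne_zero hg'0) e
    (by
      intro i j l
      change (R1.g : 𝒫) ^ (e + 1) ∣ (D1.c i j l : 𝒫) - D0.c i j l
      have h1 := hcong i j l
      rw [← hD1, ← mul_sub] at h1
      exact (huU.dvd_mul_left).1 h1)
    (by
      intro f
      obtain ⟨f', hf', hdvd⟩ := tQ_approx_g (⊤ : Subalgebra k 𝒪) rfl R1.u hg e f
      exact ⟨⟨f', hf'⟩, hdvd⟩)
    (by
      rintro ⟨f', hf'⟩ ⟨h, hh⟩
      change f' = (R1.g : 𝒫) ^ e * h at hh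
      have hmem := tQ_top_sat hu0 hg e hf' hh
      exact ⟨⟨h, hmem⟩, Subtype.ext hh⟩)
    p (tqPQ (S := (⊤ : Subalgebra k 𝒪)) Algebra.mem_top R1.u)
    (by
      intro a
      exact (tqPQ_coe (S := (⊤ : Subalgebra k 𝒪)) Algebra.mem_top R1.u a).trans (by rw [hp]; rfl))
    (tq_dist_mem_span R1.u hg hpos)
    (D1.cramerProp_sc _)
    (tqEv k) ev hev (le_of_eq he.symm) pkg
  refine ⟨ev1, ?_, hev1e, ?_⟩
  · intro f
    rw [hev1, tqEvQ_apply]
    rfl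
  · simpa only [hev1e] using pkg1

end Step1

end Claimed.Agent.R246
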