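import Claimed.Agent.R246.FC
import Claimed.Agent.R246.T.Step1
import Claimed.Agent.R246.T.PFinal

/-!
# Row 246: THEOREM T  (`FormalCert A` ⟹ frozen S0485), final assembly (helper615)
-/

set_option autoImplicit false
set_option linter.unusedSectionVars false

namespace Claimed.Agent.R246

open Matrix IsLocalRing T
open scoped Polynomial PowerSeries

local notation "𝒪" => PowerSeries ℂ
local notation "𝒫" => PowerSeries (PowerSeries ℂ)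

/-- a ring hom `AA(P,c) → k` that is `k`-linear on `P` is a `k`-algebra hom -/
def lztToAlgHom {k P I : Type*} [CommRing k] [CommRing P] [Algebra k P] [Fintype I] [DecidableEq I]
    (C : SCData P I) [Algebra k C.Alg] [IsScalarTower k P C.Alg] (ev : C.Alg →+* k) (evP : P →ₐ[k] k)
    (hev : ∀ f, ev (algebraMap P C.Alg f) = evP f) : C.Alg →ₐ[k] k :=
  { ev with
    commutes' := fun r => by
      change ev (algebraMap k C.Alg r) = _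
      rw [IsScalarTower.algebraMap_apply k P C.Alg, hev, AlgHom.commutes] }

/-- interface: STEP0 -/
def TStep0 : Prop :=
  ∀ (A : Type) [CommRing A] [IsDomain A] [Algebra ℂ A] [Algebra P2h A] [IsScalarTower ℂ P2h A]
    [Module.Free P2h A] [Module.Finite P2h A] (_ : FormalCert A),
    ∃ (n : ℕ) (_ : NeZero n) (D0 : LD.Data 𝒫 n),
      (PowerSeries.X * D0.g
        * Polynomial.resultant D0.Pi (Polynomial.derivative D0.Pi) n (n - 1) : 𝒫).map (residue 𝒪) ≠ 0 ∧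
      letI := D0.sc.algOver ℂ
      ∃ (ev : D0.sc.Alg →+* ℂ) (c0 N0 M0 : ℕ), (∀ f, ev (algebraMap 𝒫 D0.sc.Alg f) = tqEv ℂ f) ∧
        LztPkg (Fin n) (jacMat D0.sc.e ![tds ℂ, tdt ℂ]) ev (fun a => algebraMap 𝒫 D0.sc.Alg (tqP ℂ a))
          (fun l => D0.sc.e l - algebraMap ℂ D0.sc.Alg (ev (D0.sc.e l))) c0 N0 M0

/-- interface: (E3) -/
def TData1 : Prop :=
  ∀ (n : ℕ) [NeZero n] (R1 : LD.RawData 𝒪[X] n) (_ : PowerSeries.constantCoeff (R1.u.coeff 0) ≠ 0)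
    (_ : R1.g ≠ 0) (_ : R1.Delta ≠ 0),
    ∃ D1 : LD.Data (tQ (⊤ : Subalgebra ℂ 𝒪) R1.u) n,
      ∀ i j l, (R1.u : 𝒫) * (D1.c i j l : 𝒫) = (R1.ch i j l : 𝒫)

/-- interface: STEP2 -/
def TStep2 : Prop :=
  ∀ (n : ℕ) [NeZero n] (R1 : LD.RawData 𝒪[X] n)
    (hu0 : PowerSeries.constantCoeff (R1.u.coeff 0) ≠ 0)
    (_ : R1.g.IsDistinguishedAt (maximalIdeal 𝒪)) (_ : R1.Delta ≠ 0)
    (D1 : LD.Data (tQ (⊤ : Subalgebra ℂ 𝒪) R1.u) n)
    (_ : ∀ i j l, (R1.u : 𝒫) * (D1.c i j l : 𝒫) = (R1.ch i j l : 𝒫))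
    [Algebra ℂ D1.sc.Alg] [IsScalarTower ℂ (tQ (⊤ : Subalgebra ℂ 𝒪) R1.u) D1.sc.Alg]
    (ev1 : D1.sc.Alg →+* ℂ)
    (_ : ∀ f, ev1 (algebraMap _ D1.sc.Alg f) = tqEvQ (⊤ : Subalgebra ℂ 𝒪) R1.u f)
    (c0 N0 M0 : ℕ)
    (_ : LztPkg (Fin n)
      (jacMat D1.sc.e (tqD (S := (⊤ : Subalgebra ℂ 𝒪)) (fun _ _ => Algebra.mem_top)
        (tqPol_top_mem R1.u) hu0))
      ev1 (fun a => algebraMap _ D1.sc.Alg (tqPQ (S := (⊤ : Subalgebra ℂ 𝒪)) Algebra.mem_top R1.u a))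
      (fun l => D1.sc.e l - algebraMap ℂ D1.sc.Alg (ev1 (D1.sc.e l))) c0 N0 M0),
    ∃ (u2 : 𝒪[X]) (hu2 : u2 ∈ tqPol (tRalg ℂ))
      (hu20 : PowerSeries.constantCoeff (u2.coeff 0) ≠ 0)
      (C2 : SCData (tQ (tRalg ℂ) u2) (Fin n)),
      letI := C2.algOver ℂ
      ∃ ev2 : C2.Alg →+* ℂ, (∀ f, ev2 (algebraMap _ C2.Alg f) = tqEvQ (tRalg ℂ) u2 f) ∧
        LztPkg (Fin n) (jacMat C2.e (tqD tRalg_derivative hu2 hu20)) ev2
          (fun a => algebraMap _ C2.Alg (tqPQ tRalg_X_mem u2 a))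
          (fun l => C2.e l - algebraMap ℂ C2.Alg (ev2 (C2.e l))) c0 N0 M0

theorem theoremT_of (h0 : TStep0) (hE : TData1) (h2 : TStep2)
    (A : Type) [CommRing A] [IsDomain A] [Algebra ℂ A] [Algebra P2h A]
    [IsScalarTower ℂ P2h A] [Module.Free P2h A] [Module.Finite P2h A] (F : FormalCert A) : LZGoal := by
  obtain ⟨n, _, D0, hreg, H0⟩ := h0 A F
  let _ := D0.sc.algOver ℂ
  have := D0.sc.algOver_tower ℂ
  obtain ⟨ev, c0, N0, M0, hev, pkg⟩ := H0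
  obtain ⟨R1, hu0, hg, hpos, hΔ, H1⟩ := lzt_step1 D0 hreg ![tds ℂ, tdt ℂ] rfl rfl (tqP ℂ) rfl ev hev pkg
  obtain ⟨D1, hD1⟩ := hE n R1 hu0 hg.monic.ne_zero hΔ
  let _ := D1.sc.algOver ℂ
  have := D1.sc.algOver_tower ℂ
  obtain ⟨ev1, hev1, -, pkg1⟩ := H1 D1 hD1
  obtain ⟨u2, hu2, hu20, C2, H2⟩ := h2 n R1 hu0 hg hΔ D1 hD1 ev1 hev1 c0 N0 M0 pkg1
  let _ := C2.algOver ℂ
  have := C2.algOver_tower ℂ
  obtain ⟨ev2, hev2, pkg2⟩ := H2
  exact tfinal hu2 hu20 C2 (lztToAlgHom C2 ev2 (tqEvQ (tRalg ℂ) u2) hev2) hev2 pkg2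

end Claimed.Agent.R246

/-! ### hygiene (rule 6) -/
theorem Claimed.Agent.R246.Hyg.tmain : True := by
  have := @Claimed.Agent.R246.lztToAlgHom.eq_1.{0,0,0}
  have := @Claimed.Agent.R246.lztToAlgHom.eq_def.{0,0,0}
  have := @Claimed.Agent.R246.TStep0.eq_1
  have := @Claimed.Agent.R246.TStep0.eq_def
  have := @Claimed.Agent.R246.TData1.eq_1
  have := @Claimed.Agent.R246.TData1.eq_def
  have := @Claimed.Agent.R246.TStep2.eq_1
  have := @Claimed.Agent.R246.TStep2.eq_def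
  trivial
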