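import Mathlib
import Claimed.Agent.R246.T.SC
import Claimed.Agent.R246.T.Jac
import Claimed.Agent.R246.T.Pert

/-!
# Row 246, Theorem T: one approximation step at the level of structure constants

`lzt_step` instantiates the abstract perturbation lemma `lzt_pert` for structure-constant algebras.
Rings `P --ι--> Ph <--ι'-- P'` with compatible derivations; structure constants `C` over `P`, `C'` over `P'`,
congruent modulo `g ^ (e + 1)` in `Ph`.  The package of `(C.Alg, jacMat C.e d)` passes to `(C'.Alg, jacMat C'.e d')`.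

Step 1 of the blueprint: `P = Ph = k[[t]][[s]]`, `P' = P_1`, `g` the distinguished polynomial.
Step 2: `P = P_1` (or again `Ph`), `P' = P_2`, `g = t`.

`LztPkg.push`: the package is pushed forward by any ring hom compatible with the evaluations.
`jacMat_map_algHom`, `jacMat_sc_map`: the Jacobian matrix is compatible with isomorphisms and base change.
-/

set_option autoImplicit false
set_option linter.unusedSectionVars false

namespace Claimed.Agent.R246

open Matrix

section JacSC

variable {k P I J : Type*} [CommRing k] [CommRing P] [Algebra k P] [Fintype I] [DecidableEq I]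
  [Fintype J] [DecidableEq J]

/-- the entries of the Jacobian matrix of a structure-constant algebra, derivative columns -/
theorem jacMat_sc_inl (C : SCData P I) (d : J → Derivation k P P) (i j : I) (a : J) :
    jacMat C.e d (i, j) (Sum.inl a) = - ∑ l, algebraMap P C.Alg (d a (C.c i j l)) * C.e l := by
  have : jacMat C.e d (i, j) (Sum.inl a)
      = - ∑ l, algebraMap P C.Alg (d a (C.e.repr (C.e i * C.e j) l)) * C.e l := rfl
  rw [this]
  simp only [SCData.e_repr, SCData.e_mul_e_co]

/-- the entries of the Jacobian matrix of a structure-constant algebra, the other columns -/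
theorem jacMat_sc_inr (C : SCData P I) (d : J → Derivation k P P) (i j l : I) :
    jacMat C.e d (i, j) (Sum.inr l) = (if i = l then C.e j else 0) + (if j = l then C.e i else 0)
      - algebraMap P C.Alg (C.c i j l) := by
  have : jacMat C.e d (i, j) (Sum.inr l) = (if i = l then C.e j else 0) + (if j = l then C.e i else 0)
      - algebraMap P C.Alg (C.e.repr (C.e i * C.e j) l) := rfl
  rw [this]
  simp only [SCData.e_repr, SCData.e_mul_e_co]

/-- a non-zero-divisor of `P` is a non-zero-divisor of `AA(P,c)` -/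
theorem SCData.algebraMap_mem_nonZeroDivisors (C : SCData P I) {g : P} (hg : g ∈ nonZeroDivisors P) :
    algebraMap P C.Alg g ∈ nonZeroDivisors C.Alg := by
  rw [mem_nonZeroDivisors_iff_right]
  intro x hx
  rw [mul_comm, ← Algebra.smul_def] at hx
  apply SCData.Alg.ext'
  intro l
  have h1 : g * x.co l = 0 := congrArg (fun w => SCData.Alg.co w l) hx
  rw [mul_comm] at h1
  exact (mem_nonZeroDivisors_iff_right.mp hg) _ h1

end JacSC

section Step

variable {k P Ph P' I : Type*} [Field k] [CommRing P] [CommRing Ph] [CommRing P']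
  [Algebra k P] [Algebra k Ph] [Algebra k P'] [Fintype I] [DecidableEq I]

/-- a derivation maps multiples of `g ^ (e + 1)` to multiples of `g ^ e` -/
theorem lzt_der_pow_dvd (D : Derivation k Ph Ph) (g : Ph) (e : ℕ) {z : Ph} (hz : g ^ (e + 1) ∣ z) :
    g ^ e ∣ D z := by
  obtain ⟨w, rfl⟩ := hz
  rw [Derivation.leibniz, Derivation.leibniz_pow, smul_eq_mul, smul_eq_mul]
  refine dvd_add ?_ ?_
  · exact Dvd.dvd.mul_right (pow_dvd_pow _ (Nat.le_succ e)) _
  · refine Dvd.dvd.mul_left ?_ _
    rw [Nat.add_sub_cancel]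
    simp only [smul_eq_mul, nsmul_eq_mul]
    exact ⟨((e + 1 : ℕ) : Ph) * D g, by push_cast; ring⟩

/-- **STEP.**  One approximation step for structure-constant algebras. -/
theorem lzt_step (ι : P →ₐ[k] Ph) (ι' : P' →ₐ[k] Ph)
    (d : Fin 2 → Derivation k P P) (dh : Fin 2 → Derivation k Ph Ph) (d' : Fin 2 → Derivation k P' P')
    (hd : ∀ a f, ι (d a f) = dh a (ι f)) (hd' : ∀ a f, ι' (d' a f) = dh a (ι' f))
    (C : SCData P I) (C' : SCData P' I) (ho : C'.o = C.o)
    [Algebra k C.Alg] [IsScalarTower k P C.Alg] [Algebra k C'.Alg] [IsScalarTower k P' C'.Alg]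
    (g' : P') (hg : g' ∈ nonZeroDivisors P') (e : ℕ)
    (hc : ∀ i j l, ι' g' ^ (e + 1) ∣ ι' (C'.c i j l) - ι (C.c i j l))
    (happ : ∀ f : P, ∃ f' : P', ι' g' ^ e ∣ ι' f' - ι f)
    (hsat : ∀ f' : P', ι' g' ^ e ∣ ι' f' → g' ^ e ∣ f')
    (p : Fin 2 → P) (p' : Fin 2 → P') (hp : ∀ a, ι' (p' a) = ι (p a))
    (hgp : g' ∈ Ideal.span (Set.range p'))
    (hR : LztCramerProp I (jacMat C'.e d'))
    (evh : Ph →ₐ[k] k) (ev : C.Alg →+* k) (hev : ∀ f, ev (algebraMap P C.Alg f) = evh (ι f))
    {c0 N0 M0 : ℕ} (he : 2 * c0 + 2 * N0 + 1 ≤ e)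
    (pkg : LztPkg I (jacMat C.e d) ev (fun a => algebraMap P C.Alg (p a))
      (fun l => C.e l - algebraMap k C.Alg (ev (C.e l))) c0 N0 M0) :
    ∃ ev' : C'.Alg →+* k, (∀ f', ev' (algebraMap P' C'.Alg f') = evh (ι' f')) ∧
      (∀ l, ev' (C'.e l) = ev (C.e l)) ∧
      LztPkg I (jacMat C'.e d') ev' (fun a => algebraMap P' C'.Alg (p' a))
        (fun l => C'.e l - algebraMap k C'.Alg (ev (C.e l))) c0 N0 M0 := by
  classical
  set gh : Ph := ι' g' with hgh
  -- `evh gh = 0`
  have hevp : ∀ a, evh (ι' (p' a)) = 0 := by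
    intro a
    rw [hp, ← hev]
    exact pkg.ev_x a
  have hevg : evh gh = 0 := by
    have hle : Ideal.span (Set.range p') ≤ RingHom.ker ((evh : Ph →+* k).comp (ι' : P' →+* Ph)) := by
      rw [Ideal.span_le]
      rintro _ ⟨a, rfl⟩
      exact hevp a
    exact hle hgp
  -- the quotient
  let Jd : Ideal Ph := Ideal.span {gh ^ e}
  let π : Ph →+* Ph ⧸ Jd := Ideal.Quotient.mk Jd
  have hπ : ∀ z, π z = 0 ↔ gh ^ e ∣ z := by
    intro z
    rw [Ideal.Quotient.eq_zero_iff_mem, Ideal.mem_span_singleton]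
  have hπeq : ∀ z w, gh ^ e ∣ z - w → π z = π w := by
    intro z w h
    rw [← sub_eq_zero, ← map_sub]
    exact (hπ _).2 h
  let evq : Ph ⧸ Jd →+* k := Ideal.Quotient.lift Jd (evh : Ph →+* k) (by
    intro z hz
    obtain ⟨w, rfl⟩ := Ideal.mem_span_singleton.1 hz
    have he0 : e ≠ 0 := by omega
    simp [hevg, he0])
  have hevq : ∀ z, evq (π z) = evh z := fun z => rfl
  let Cb : SCData (Ph ⧸ Jd) I := C.map (π.comp (ι : P →+* Ph))
  have hCbo : Cb.o = C.o := rfl
  have hCbc : ∀ i j l, (π.comp (ι : P →+* Ph)) (C.c i j l) = Cb.c i j l := fun _ _ _ => rfl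
  let ρ : C.Alg →+* Cb.Alg := C.mapHom Cb (π.comp (ι : P →+* Ph)) hCbo hCbc
  have hcb : ∀ i j l, (π.comp (ι' : P' →+* Ph)) (C'.c i j l) = Cb.c i j l := by
    intro i j l
    exact hπeq _ _ (dvd_trans (pow_dvd_pow _ (Nat.le_succ e)) (hc i j l))
  let ρ' : C'.Alg →+* Cb.Alg := C'.mapHom Cb (π.comp (ι' : P' →+* Ph)) ho.symm hcb
  let evb : Cb.Alg →+* k := Cb.lift evq (fun l => ev (C.e l))
    (by
      change ev (C.e C.o) = 1
      rw [SCData.e_o, map_one])
    (by
      intro i j
      rw [← map_mul, SCData.e_mul_e, map_sum]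
      refine Finset.sum_congr rfl fun l _ => ?_
      rw [Algebra.smul_def, map_mul, hev]
      rfl)
  have hρa : ∀ f, ρ (algebraMap P C.Alg f) = algebraMap _ Cb.Alg (π (ι f)) := fun f =>
    SCData.mapHom_algebraMap _ _ _ f
  have hρ'a : ∀ f, ρ' (algebraMap P' C'.Alg f) = algebraMap _ Cb.Alg (π (ι' f)) := fun f =>
    SCData.mapHom_algebraMap _ _ _ f
  have hρe : ∀ l, ρ (C.e l) = Cb.e l := fun l => SCData.mapHom_e _ _ _ l
  have hρ'e : ∀ l, ρ' (C'.e l) = Cb.e l := fun l => SCData.mapHom_e _ _ _ l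
  have hevba : ∀ z, evb (algebraMap _ Cb.Alg z) = evq z := fun z => SCData.lift_algebraMap _ _ _ _ z
  have hevbe : ∀ l, evb (Cb.e l) = ev (C.e l) := fun l => SCData.lift_e _ _ _ _ l
  have hevρ : evb.comp ρ = ev := by
    apply SCData.ringHom_ext
    · intro f
      rw [RingHom.comp_apply, hρa, hevba, hevq, hev]
    · intro i
      rw [RingHom.comp_apply, hρe, hevbe]
  have hsurj : ∀ b, ∃ b', ρ' b' = ρ b := by
    intro b
    choose f hf using fun l => happ (b.co l)
    refine ⟨⟨f⟩, ?_⟩
    apply SCData.Alg.ext'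
    intro l
    exact hπeq _ _ (hf l)
  have hM : ∀ ij z, ρ' (jacMat C'.e d' ij z) = ρ (jacMat C.e d ij z) := by
    rintro ⟨i, j⟩ (a | l)
    · rw [jacMat_sc_inl, jacMat_sc_inl]
      simp only [map_neg, map_sum, map_mul, hρa, hρ'a, hρe, hρ'e]
      congr 1
      refine Finset.sum_congr rfl fun l _ => ?_
      congr 2
      rw [hd, hd']
      apply hπeq
      rw [← map_sub]
      exact lzt_der_pow_dvd _ _ _ (hc i j l)
    · rw [jacMat_sc_inr, jacMat_sc_inr]
      simp only [map_sub, map_add, hρa, hρ'a]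
      congr 1
      · congr 1
        · split_ifs
          · rw [hρe, hρ'e]
          · simp
        · split_ifs
          · rw [hρe, hρ'e]
          · simp
      · congr 1
        exact hcb i j l
  have hx : ∀ a, ρ' (algebraMap P' C'.Alg (p' a)) = ρ (algebraMap P C.Alg (p a)) := by
    intro a
    rw [hρa, hρ'a, hp]
  have hy : ∀ l, ρ' (C'.e l - algebraMap k C'.Alg (ev (C.e l)))
      = ρ (C.e l - algebraMap k C.Alg (ev (C.e l))) := by
    intro l
    rw [map_sub, map_sub, hρe, hρ'e, IsScalarTower.algebraMap_apply k P' C'.Alg,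
      IsScalarTower.algebraMap_apply k P C.Alg, hρa, hρ'a, AlgHom.commutes, AlgHom.commutes]
  have hker : ∀ b', ρ' b' = 0 → algebraMap P' C'.Alg g' ^ e ∣ b' := by
    intro b' hb'
    have h1 : ∀ l, g' ^ e ∣ b'.co l := by
      intro l
      apply hsat
      rw [← hπ]
      exact (SCData.mapHom_eq_zero_iff _ _ _ b').1 hb' l
    obtain ⟨z, hz⟩ := SCData.Alg.exists_smul_of_dvd _ b' h1
    refine ⟨z, ?_⟩
    rw [hz, Algebra.smul_def, map_pow]
  have hgx : algebraMap P' C'.Alg g' ∈ Ideal.span (Set.range fun a => algebraMap P' C'.Alg (p' a)) := by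
    have h1 := Ideal.mem_map_of_mem (algebraMap P' C'.Alg) hgp
    rw [Ideal.map_span] at h1
    refine Ideal.span_mono ?_ h1
    rintro _ ⟨_, ⟨a, rfl⟩, rfl⟩
    exact ⟨a, rfl⟩
  refine ⟨evb.comp ρ', ?_, ?_, ?_⟩
  · intro f'
    rw [RingHom.comp_apply, hρ'a, hevba, hevq]
  · intro l
    rw [RingHom.comp_apply, hρ'e, hevbe]
  · exact lzt_pert ρ ρ' evb hsurj hM hx hy (C'.algebraMap_mem_nonZeroDivisors hg) hgx hker hR he
      (by rw [hevρ]; exact pkg)

end Step

section Push

variable {k B B1 m q L : Type*} [CommRing k] [CommRing B] [CommRing B1] [Fintype m] [Fintype q]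
  {ι : Type*} [Fintype ι] [DecidableEq ι]

/-- **PUSH.**  The package is pushed forward by a ring hom compatible with the evaluations. -/
theorem LztPkg.push {M : Matrix m q B} {ev : B →+* k} {x : Fin 2 → B} {y : L → B} {c0 N0 M0 : ℕ}
    (h : LztPkg ι M ev x y c0 N0 M0) (φ : B →+* B1) (ev1 : B1 →+* k) (hev : ∀ b, ev1 (φ b) = ev b) :
    LztPkg ι (M.map φ) ev1 (fun a => φ (x a)) (fun l => φ (y l)) c0 N0 M0 := by
  classical
  obtain ⟨u, hu, hJ⟩ := h.jac
  obtain ⟨v, hMv, hevv, uW, huW, hW⟩ := h.frame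
  refine ⟨fun a => by rw [hev]; exact h.ev_x a, ⟨φ u, by rw [hev]; exact hu, ?_⟩,
    ⟨fun i z => φ (v i z), ?_, fun i z => by rw [hev]; exact hevv i z, φ uW, by rw [hev]; exact huW, ?_⟩, ?_⟩
  · intro a
    have h1 := Ideal.mem_map_of_mem φ (hJ a)
    rw [lztMinorIdeal, Ideal.map_span] at h1
    rw [map_mul, map_pow] at h1
    refine Ideal.span_mono ?_ h1
    rintro _ ⟨_, ⟨I, J, rfl⟩, rfl⟩
    refine ⟨I, J, ?_⟩
    rw [RingHom.map_det]
    rfl
  · intro i
    funext j
    have h1 : φ ((M *ᵥ v i) j) = 0 := by rw [hMv i]; simp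
    rw [RingHom.map_mulVec] at h1
    exact h1
  · intro a
    have h1 := Ideal.mem_map_of_mem φ (hW a)
    rw [lztFrameIdeal, Ideal.map_span] at h1
    rw [map_mul, map_pow] at h1
    refine Ideal.span_mono ?_ h1
    rintro _ ⟨_, ⟨z, z', rfl⟩, rfl⟩
    exact ⟨z, z', by simp⟩
  · intro l
    obtain ⟨u5, hu5, h5⟩ := h.nil l
    refine ⟨φ u5, by rw [hev]; exact hu5, ?_⟩
    have h1 := Ideal.mem_map_of_mem φ h5
    rw [Ideal.map_span, map_mul, map_pow] at h1
    refine Ideal.span_mono ?_ h1
    rintro _ ⟨_, ⟨a, rfl⟩, rfl⟩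
    exact ⟨a, rfl⟩

end Push

section JacMap

variable {k P P' A A' I J : Type*} [CommRing k] [CommRing P] [CommRing P'] [CommRing A] [CommRing A']
  [Algebra k P] [Algebra k P'] [Algebra P A] [Algebra P A'] [Fintype I] [DecidableEq I]
  [Fintype J] [DecidableEq J]

/-- the Jacobian matrix is compatible with `P`-algebra homs carrying basis to basis -/
theorem jacMat_map_algHom (b : Module.Basis I P A) (b' : Module.Basis I P A') (φ : A →ₐ[P] A')
    (hφ : ∀ i, φ (b i) = b' i) (d : J → Derivation k P P) :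
    (jacMat b d).map φ = jacMat b' d := by
  have hrepr : ∀ x l, b'.repr (φ x) l = b.repr x l := by
    intro x l
    conv_lhs => rw [← b.sum_repr x]
    simp only [map_sum, map_smul, hφ, b'.repr_self, Finsupp.finsetSum_apply, Finsupp.smul_apply,
      Finsupp.single_apply, smul_eq_mul]
    rw [Finset.sum_eq_single l]
    · simp
    · intro i _ hi; simp [hi]
    · intro h; exact absurd (Finset.mem_univ _) h
  ext ⟨i, j⟩ (a | l)
  · have h1 : jacMat b d (i, j) (Sum.inl a)
        = - ∑ l, algebraMap P A (d a (b.repr (b i * b j) l)) * b l := rfl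
    have h2 : jacMat b' d (i, j) (Sum.inl a)
        = - ∑ l, algebraMap P A' (d a (b'.repr (b' i * b' j) l)) * b' l := rfl
    rw [Matrix.map_apply, h1, h2]
    simp only [map_neg, map_sum, map_mul, AlgHom.commutes, hφ]
    simp only [← hφ, ← map_mul, hrepr]
  · have h1 : jacMat b d (i, j) (Sum.inr l) = (if i = l then b j else 0) + (if j = l then b i else 0)
        - algebraMap P A (b.repr (b i * b j) l) := rfl
    have h2 : jacMat b' d (i, j) (Sum.inr l) = (if i = l then b' j else 0) + (if j = l then b' i else 0)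
        - algebraMap P A' (b'.repr (b' i * b' j) l) := rfl
    rw [Matrix.map_apply, h1, h2]
    simp only [map_sub, map_add, AlgHom.commutes, apply_ite φ, map_zero, hφ]
    simp only [← hφ, ← map_mul, hrepr]

/-- the Jacobian matrix is compatible with base change of structure constants -/
theorem jacMat_sc_map (C : SCData P I) (C' : SCData P' I) (f : P →+* P') (ho : C'.o = C.o)
    (h : ∀ i j l, f (C.c i j l) = C'.c i j l)
    (d : J → Derivation k P P) (d' : J → Derivation k P' P') (hd : ∀ a x, f (d a x) = d' a (f x)) :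
    (jacMat C.e d).map (C.mapHom C' f ho h) = jacMat C'.e d' := by
  ext ⟨i, j⟩ (a | l)
  · rw [Matrix.map_apply, jacMat_sc_inl, jacMat_sc_inl]
    simp only [map_neg, map_sum, map_mul, SCData.mapHom_algebraMap, SCData.mapHom_e, hd, h]
  · rw [Matrix.map_apply, jacMat_sc_inr, jacMat_sc_inr]
    simp only [map_sub, map_add, SCData.mapHom_algebraMap, apply_ite (C.mapHom C' f ho h), map_zero,
      SCData.mapHom_e, h]

end JacMap

end Claimed.Agent.R246
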