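import Mathlib
import Claimed.Agent.R246.T.Step
import Claimed.Agent.R246.T.Step1
import Claimed.Agent.R246.T.PRing
import Claimed.Agent.R246.T.LDJac
import Claimed.Agent.R246.T.LDAR
import Claimed.Agent.R246.T.SCTower

/-!
# Row 246, Theorem T, module (G) = STEP 2: the coefficients become algebraic power series

`lzt_step2_core`: the package passes from `AA(P_1, c_1)`, `P_1 = R[s][1/u_1] = tQ ⊤ u1`, to `AA(P_2, c_2)`,
`P_2 = R^alg[s][1/u_2] = tQ (tRalg k) u2`, if `u_2 = u_1` and `u_2 c_2 = u_1 c_1` modulo `t ^ (2 c0 + 2 N0 + 2)` and `c_2`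
comes from lattice data.

`lzt_step2` = module (G): input = the conclusion of `lzt_step1`, output = the hypotheses of `tfinal`.
-/

set_option autoImplicit false
set_option linter.unusedSectionVars false

namespace Claimed.Agent.R246

open scoped PowerSeries Polynomial
open T

section Step2

variable {k : Type*} [Field k]

local notation "𝒪" => PowerSeries k
local notation "𝒫" => PowerSeries (PowerSeries k)

theorem tq_top_der : ∀ x ∈ (⊤ : Subalgebra k 𝒪), PowerSeries.derivative k x ∈ (⊤ : Subalgebra k 𝒪) :=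
  fun _ _ => Algebra.mem_top

/-- coefficientwise congruence modulo `t ^ N` gives a congruence in `𝒫` -/
theorem tq_coe_congr {N : ℕ} {a b : 𝒪[X]}
    (h : ∀ i, (PowerSeries.X : 𝒪) ^ N ∣ a.coeff i - b.coeff i) :
    (PowerSeries.C PowerSeries.X : 𝒫) ^ N ∣ (a : 𝒫) - (b : 𝒫) := by
  rw [← map_pow, tw_C_dvd_iff]
  intro i
  rw [map_sub, Polynomial.coeff_coe, Polynomial.coeff_coe]
  exact h i

/-- the derivations of `tQ S u` are the restrictions of `∂/∂s`, `∂/∂t` -/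
theorem tqD_coe {S : Subalgebra k 𝒪} (hS : ∀ x ∈ S, PowerSeries.derivative k x ∈ S) {u : 𝒪[X]}
    (hu : u ∈ tqPol S) (hu0 : PowerSeries.constantCoeff (u.coeff 0) ≠ 0) (a : Fin 2) (f : tQ S u) :
    ((tqD hS hu hu0 a f : tQ S u) : 𝒫) = (![tds k, tdt k] : Fin 2 → Derivation k 𝒫 𝒫) a f := by
  fin_cases a <;> rfl

variable [CharZero k] {n : ℕ} [NeZero n]

/-- **STEP 2, core.** -/
theorem lzt_step2_core {u1 u2 : 𝒪[X]} (hu10 : PowerSeries.constantCoeff (u1.coeff 0) ≠ 0)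
    (hu2 : u2 ∈ tqPol (tRalg k)) (hu20 : PowerSeries.constantCoeff (u2.coeff 0) ≠ 0)
    (C1 : SCData (tQ (⊤ : Subalgebra k 𝒪) u1) (Fin n)) (hC1o : C1.o = 0)
    (D2 : LD.Data (tQ (tRalg k) u2) n)
    [Algebra k C1.Alg] [IsScalarTower k (tQ (⊤ : Subalgebra k 𝒪) u1) C1.Alg]
    [Algebra k D2.sc.Alg] [IsScalarTower k (tQ (tRalg k) u2) D2.sc.Alg]
    {c0 N0 M0 : ℕ}
    (huu : (PowerSeries.C PowerSeries.X : 𝒫) ^ (2 * c0 + 2 * N0 + 2) ∣ (u2 : 𝒫) - (u1 : 𝒫))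
    (hcc : ∀ i j l, (PowerSeries.C PowerSeries.X : 𝒫) ^ (2 * c0 + 2 * N0 + 2) ∣
      (u2 : 𝒫) * (D2.c i j l : 𝒫) - (u1 : 𝒫) * (C1.c i j l : 𝒫))
    (ev1 : C1.Alg →+* k)
    (hev1 : ∀ f, ev1 (algebraMap (tQ (⊤ : Subalgebra k 𝒪) u1) C1.Alg f) = tqEvQ ⊤ u1 f)
    (pkg : LztPkg (Fin n) (jacMat C1.e (tqD tq_top_der (tqPol_top_mem u1) hu10)) ev1
      (fun a => algebraMap (tQ (⊤ : Subalgebra k 𝒪) u1) C1.Alg (tqPQ Algebra.mem_top u1 a))
      (fun l => C1.e l - algebraMap k C1.Alg (ev1 (C1.e l))) c0 N0 M0) :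
    ∃ ev2 : D2.sc.Alg →+* k,
      (∀ f, ev2 (algebraMap (tQ (tRalg k) u2) D2.sc.Alg f) = tqEvQ (tRalg k) u2 f) ∧
      (∀ l, ev2 (D2.sc.e l) = ev1 (C1.e l)) ∧
      LztPkg (Fin n) (jacMat D2.sc.e (tqD tRalg_derivative hu2 hu20)) ev2
        (fun a => algebraMap (tQ (tRalg k) u2) D2.sc.Alg (tqPQ tRalg_X_mem u2 a))
        (fun l => D2.sc.e l - algebraMap k D2.sc.Alg (ev1 (C1.e l))) c0 N0 M0 := by
  classical
  set e : ℕ := 2 * c0 + 2 * N0 + 1 with he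
  have hU2 := tq_isUnit hu20
  have hg1 : ((tqPQ tRalg_X_mem u2 1 : tQ (tRalg k) u2) : 𝒫) = PowerSeries.C PowerSeries.X := rfl
  refine lzt_step (tQ (⊤ : Subalgebra k 𝒪) u1).val (tQ (tRalg k) u2).val
    (tqD tq_top_der (tqPol_top_mem u1) hu10) ![tds k, tdt k] (tqD tRalg_derivative hu2 hu20)
    (fun a f => tqD_coe _ _ _ a f) (fun a f => tqD_coe _ _ _ a f)
    C1 D2.sc (by rw [hC1o]; rfl) (tqPQ tRalg_X_mem u2 1) ?_ e ?_ ?_ ?_
    (tqPQ Algebra.mem_top u1) (tqPQ tRalg_X_mem u2) ?_ ?_ (D2.cramerProp_sc _) (tqEv k) ev1 hev1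
    (le_refl _) pkg
  · -- `t` is a non-zero-divisor
    apply mem_nonZeroDivisors_of_ne_zero
    intro h0
    have h1 := congrArg (fun x : tQ (tRalg k) u2 => (x : 𝒫)) h0
    simp only [hg1] at h1
    have h2 : (PowerSeries.X : 𝒪) = 0 := PowerSeries.C_injective (by rw [h1]; simp)
    exact PowerSeries.X_ne_zero h2
  · -- congruence of the structure constants
    intro i j l
    change (PowerSeries.C PowerSeries.X : 𝒫) ^ (e + 1) ∣ (D2.c i j l : 𝒫) - (C1.c i j l : 𝒫)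
    have h1 : (D2.c i j l : 𝒫) - (C1.c i j l : 𝒫) = Ring.inverse (u2 : 𝒫) *
        (((u2 : 𝒫) * (D2.c i j l : 𝒫) - (u1 : 𝒫) * (C1.c i j l : 𝒫))
          - ((u2 : 𝒫) - (u1 : 𝒫)) * (C1.c i j l : 𝒫)) := by
      have h3 : Ring.inverse (u2 : 𝒫) * (u2 : 𝒫) = 1 := Ring.inverse_mul_cancel _ hU2
      calc (D2.c i j l : 𝒫) - (C1.c i j l : 𝒫)
          = (Ring.inverse (u2 : 𝒫) * (u2 : 𝒫)) * ((D2.c i j l : 𝒫) - (C1.c i j l : 𝒫)) := by
            rw [h3, one_mul]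
        _ = _ := by ring
    rw [h1]
    exact Dvd.dvd.mul_left (dvd_sub (hcc i j l) (Dvd.dvd.mul_right huu _)) _
  · -- approximation
    intro f
    obtain ⟨f', hf', h⟩ := tQ_approx_t (S' := tRalg k) tRalg_X_mem (tqPol_top_mem u1) hu10 hu20 e
      (dvd_trans (pow_dvd_pow _ (Nat.le_succ e)) huu) f.2
    exact ⟨⟨f', hf'⟩, h⟩
  · -- saturation
    intro f' hf'
    obtain ⟨h, hh⟩ := hf'
    have hmem := tQ_sat_t tRalg_div hu2 hu20 e f'.2 hh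
    exact ⟨⟨h, hmem⟩, Subtype.ext hh⟩
  · intro a
    change ((tqPQ tRalg_X_mem u2 a : tQ (tRalg k) u2) : 𝒫)
      = ((tqPQ Algebra.mem_top u1 a : tQ (⊤ : Subalgebra k 𝒪) u1) : 𝒫)
    rw [tqPQ_coe, tqPQ_coe]
  · exact Ideal.subset_span ⟨1, rfl⟩

/-- **(G) STEP 2.**  Input: the conclusion of `lzt_step1`.  Output: the hypotheses of `tfinal`. -/
theorem lzt_step2 (R1 : LD.RawData 𝒪[X] n) (hu0 : PowerSeries.constantCoeff (R1.u.coeff 0) ≠ 0)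
    (hg : R1.g ≠ 0) (hΔ : R1.Delta ≠ 0)
    (C1 : SCData (tQ (⊤ : Subalgebra k 𝒪) R1.u) (Fin n)) (hC1o : C1.o = 0)
    (hC1 : ∀ i j l, (R1.u : 𝒫) * (C1.c i j l : 𝒫) = (R1.ch i j l : 𝒫))
    [Algebra k C1.Alg] [IsScalarTower k (tQ (⊤ : Subalgebra k 𝒪) R1.u) C1.Alg]
    (ev1 : C1.Alg →+* k)
    (hev1 : ∀ f, ev1 (algebraMap (tQ (⊤ : Subalgebra k 𝒪) R1.u) C1.Alg f) = tqEvQ ⊤ R1.u f)
    {c0 N0 M0 : ℕ}
    (pkg : LztPkg (Fin n) (jacMat C1.e (tqD (S := (⊤ : Subalgebra k 𝒪)) (fun _ _ => Algebra.mem_top)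
        (tqPol_top_mem R1.u) hu0)) ev1
      (fun a => algebraMap (tQ (⊤ : Subalgebra k 𝒪) R1.u) C1.Alg
        (tqPQ (S := (⊤ : Subalgebra k 𝒪)) Algebra.mem_top R1.u a))
      (fun l => C1.e l - algebraMap k C1.Alg (ev1 (C1.e l))) c0 N0 M0) :
    ∃ (u2 : 𝒪[X]) (hu2 : u2 ∈ tqPol (tRalg k)) (hu20 : PowerSeries.constantCoeff (u2.coeff 0) ≠ 0)
      (C2 : SCData (tQ (tRalg k) u2) (Fin n)),
      letI := C2.algOver k
      ∃ ev2 : C2.Alg →+* k,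
        (∀ f, ev2 (algebraMap (tQ (tRalg k) u2) C2.Alg f) = tqEvQ (tRalg k) u2 f) ∧
        LztPkg (Fin n) (jacMat C2.e (tqD tRalg_derivative hu2 hu20)) ev2
          (fun a => algebraMap (tQ (tRalg k) u2) C2.Alg (tqPQ tRalg_X_mem u2 a))
          (fun l => C2.e l - algebraMap k C2.Alg (ev2 (C2.e l))) c0 N0 M0 := by
  classical
  have hu : IsUnit (R1.u.coeff 0) := by
    rw [PowerSeries.isUnit_iff_constantCoeff]
    exact IsUnit.mk0 _ hu0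
  obtain ⟨R2, hin, hrel, hg2, hΔ2, hu2u, -⟩ := LD.exists_algData R1 hg hΔ hu (2 * c0 + 2 * N0 + 2)
  have hu20 : PowerSeries.constantCoeff (R2.u.coeff 0) ≠ 0 := by
    rw [PowerSeries.isUnit_iff_constantCoeff] at hu2u
    exact hu2u.ne_zero
  obtain ⟨D2, hD2, -⟩ := LD.exists_data_tQ (tRalg k) R2 hin hu20 hg2 hΔ2
  refine ⟨R2.u, hin.u, hu20, D2.sc, ?_⟩
  letI := D2.sc.algOver k
  haveI := D2.sc.algOver_tower k
  obtain ⟨ev2, hev2, hev2e, pkg2⟩ := lzt_step2_core hu0 hin.u hu20 C1 hC1o D2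
    (tq_coe_congr hrel.u)
    (by
      intro i j l
      rw [hD2, hC1]
      exact tq_coe_congr (hrel.ch i j l))
    ev1 hev1 pkg
  refine ⟨ev2, hev2, ?_⟩
  simpa only [hev2e] using pkg2

end Step2

end Claimed.Agent.R246
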