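import Claimed.Agent.R246.T.Main
import Claimed.Agent.R246.T.LDAR
import Claimed.Agent.R246.T.Step2

/-!
# Row 246, Theorem T: the interfaces `TData1` and `TStep2` of `T/Main.lean` hold (helper615)
(from helper516's `T/LDAR.lean` and helper344's `T/Step2.lean`)
-/

set_option autoImplicit false
set_option linter.unusedSectionVars false

namespace Claimed.Agent.R246

open Matrix IsLocalRing T
open scoped Polynomial PowerSeries

local notation "𝒪" => PowerSeries ℂ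
local notation "𝒫" => PowerSeries (PowerSeries ℂ)

theorem lzt_inSet_top_main {n : ℕ} [NeZero n] (R : LD.RawData 𝒪[X] n) :
    R.InSet (tqPol (⊤ : Subalgebra ℂ 𝒪) : Set 𝒪[X]) :=
  ⟨fun _ => tqPol_top_mem _, fun _ _ => tqPol_top_mem _, fun _ _ => tqPol_top_mem _, tqPol_top_mem _,
    tqPol_top_mem _, tqPol_top_mem _, fun _ _ _ => tqPol_top_mem _, fun _ => tqPol_top_mem _,
    fun _ => tqPol_top_mem _⟩

theorem tData1 : TData1 := by
  intro n _ R1 hu0 hg hΔ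
  obtain ⟨D, hD, -⟩ := LD.exists_data_tQ ⊤ R1 (lzt_inSet_top_main R1) hu0 hg hΔ
  exact ⟨D, hD⟩

theorem tStep2 : TStep2 := by
  intro n _ R1 hu0 hg hΔ D1 hD1 _ _ ev1 hev1 c0 N0 M0 pkg1
  have hu : IsUnit (R1.u.coeff 0) := by
    rw [PowerSeries.isUnit_iff_constantCoeff]
    exact isUnit_iff_ne_zero.2 hu0
  obtain ⟨R2, hin, hrel, hg2, hΔ2, hu2, -⟩ :=
    LD.exists_algData R1 hg.monic.ne_zero hΔ hu (2 * c0 + 2 * N0 + 2)
  have hu20 : PowerSeries.constantCoeff (R2.u.coeff 0) ≠ 0 := by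
    rw [PowerSeries.isUnit_iff_constantCoeff] at hu2
    exact hu2.ne_zero
  obtain ⟨D2, hD2, -⟩ := LD.exists_data_tQ (tRalg ℂ) R2 hin hu20 hg2 hΔ2
  refine ⟨R2.u, hin.u, hu20, D2.sc, ?_⟩
  let _ := D2.sc.algOver ℂ
  have := D2.sc.algOver_tower ℂ
  obtain ⟨ev2, hev2, hee, pkg2⟩ := lzt_step2_core hu0 hin.u hu20 D1.sc rfl D2
    (tq_coe_congr hrel.u)
    (fun i j l => by
      have h1 : (D1.sc.c i j l : 𝒫) = (D1.c i j l : 𝒫) := rfl
      rw [hD2, h1, hD1]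
      exact tq_coe_congr (hrel.ch i j l))
    ev1 hev1 pkg1
  refine ⟨ev2, hev2, ?_⟩
  have hy : (fun l => D2.sc.e l - algebraMap ℂ D2.sc.Alg (ev2 (D2.sc.e l)))
      = fun l => D2.sc.e l - algebraMap ℂ D2.sc.Alg (ev1 (D1.sc.e l)) := by
    funext l
    rw [hee]
  rw [hy]
  exact pkg2

end Claimed.Agent.R246
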