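import Claimed.Agent.R246.T.LD
import Claimed.Agent.R246.AA.PE

/-!
# Row 246, Theorem T (blueprint of helper350, `R246_T.md`), S1.1: lattice data of a finite free domain

`exists_rawData` : a domain `A`, free with basis `b` (`b 0 = 1`) over a domain `P` of characteristic zero, has
lattice data `RawData P n` with `u = 1` whose `ch` are the structure constants of `b`.
-/

set_option autoImplicit false
set_option linter.unusedSectionVars false

namespace Claimed.Agent.R246.LD

open Polynomial Matrix

section MatOfPolys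

variable {Q : Type*} [CommRing Q] {n : ℕ}

/-- the matrix of coefficients of a family of polynomials -/
def matOfPolys (p : Fin n → Q[X]) : Matrix (Fin n) (Fin n) Q := fun i j => (p i).coeff (j : ℕ)

theorem rowPoly_matOfPolys (p : Fin n → Q[X]) (hp : ∀ i, (p i).degree < n) (i : Fin n) :
    rowPoly (matOfPolys p) i = p i := by
  ext m
  by_cases hm : m < n
  · exact coeff_rowPoly (matOfPolys p) i ⟨m, hm⟩
  · have h1 : (rowPoly (matOfPolys p) i).coeff m = 0 :=
      coeff_eq_zero_of_degree_lt (lt_of_lt_of_le (degree_rowPoly_lt _ _) (by exact_mod_cast not_lt.1 hm))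
    have h2 : (p i).coeff m = 0 :=
      coeff_eq_zero_of_degree_lt (lt_of_lt_of_le (hp i) (by exact_mod_cast not_lt.1 hm))
    rw [h1, h2]

theorem aeval_rowPoly {S : Type*} [CommRing S] [Algebra Q S] (E : Matrix (Fin n) (Fin n) Q)
    (i : Fin n) (x : S) : aeval x (rowPoly E i) = ∑ j : Fin n, E i j • x ^ (j : ℕ) := by
  simp [rowPoly, Algebra.smul_def]

end MatOfPolys

section Uniq

variable {P A : Type*} [CommRing P] [CommRing A] [Algebra P A] {n : ℕ}

/-- `1, θ, …, θ^(n-1)` are linearly independent over `P` -/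
def PowIndep (P : Type*) {A : Type*} [CommRing P] [CommRing A] [Algebra P A] (n : ℕ) (th : A) : Prop :=
  ∀ p : P[X], p.degree < n → aeval th p = 0 → p = 0

theorem PowIndep.eq {th : A} (h : PowIndep P n th) {p q : P[X]} (hp : p.degree < n)
    (hq : q.degree < n) (he : aeval th p = aeval th q) : p = q := by
  refine sub_eq_zero.1 (h _ (lt_of_le_of_lt (degree_sub_le _ _) (max_lt hp hq)) ?_)
  rw [map_sub, he, sub_self]

theorem PowIndep.dvd {th : A} (h : PowIndep P n th) {χ : P[X]} (hm : χ.Monic)
    (hd : χ.natDegree = n) (hχ : aeval th χ = 0) {q : P[X]} (hq : aeval th q = 0) : χ ∣ q := by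
  nontriviality P
  rw [← modByMonic_eq_zero_iff_dvd hm]
  refine h _ ?_ ?_
  · have := degree_modByMonic_lt q hm
    rwa [degree_eq_natDegree hm.ne_zero, hd] at this
  · rw [aeval_modByMonic_eq_self_of_root hχ, hq]

end Uniq

section PE

variable {P A : Type} [CommRing P] [IsDomain P] [CharZero P] [CommRing A] [IsDomain A] [Algebra P A]
  {n : ℕ} [NeZero n]

theorem algebraMap_injective_of_basis (b : Module.Basis (Fin n) P A) (hb0 : b 0 = 1) :
    Function.Injective (algebraMap P A) := by
  intro p q h
  rw [Algebra.algebraMap_eq_smul_one, Algebra.algebraMap_eq_smul_one, ← hb0] at h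
  have := congrArg (fun x => b.repr x 0) h
  simpa using this

/-- **S1.1**: lattice data of `A` over `P`. -/
theorem exists_rawData (b : Module.Basis (Fin n) P A) (hb0 : b 0 = 1) :
    ∃ (R : RawData P n) (th : A), R.u = 1 ∧ R.g ≠ 0 ∧ R.Delta ≠ 0 ∧
      (∀ i j k, R.ch i j k = b.repr (b i * b j) k) ∧ aeval th R.Pi = 0 ∧ PowIndep P n th ∧
      (∀ i, aeval th (rowPoly R.E i) = R.g • b i) ∧
      (∀ j : Fin n, th ^ (j : ℕ) = ∑ i, R.Mh j i • b i) := by
  classical
  have hinj := algebraMap_injective_of_basis b hb0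
  have hfin : Module.Finite P A := Module.Finite.of_basis b
  have halg : ∀ j, ∃ q : P[X], q ≠ 0 ∧ q.eval₂ (algebraMap P A) (b j) = 0 := by
    intro j
    obtain ⟨q, hq, h⟩ := Algebra.IsIntegral.isIntegral (R := P) (b j)
    exact ⟨q, hq.ne_zero, h⟩
  obtain ⟨th, Pm, Δ, Rr, hP0, hP', hΔ, hR, hdiv⟩ :=
    AA.primitive_element_cleared (algebraMap P A) hinj (Fin n) b halg
  -- the characteristic polynomial
  set χ : P[X] := (Algebra.leftMulMatrix b th).charpoly with hχdef
  have hmon : χ.Monic := Matrix.charpoly_monic _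
  have hdeg : χ.natDegree = n := by
    rw [hχdef, Matrix.charpoly_natDegree_eq_dim, Fintype.card_fin]
  have hχ : aeval th χ = 0 := by
    apply Algebra.leftMulMatrix_injective b
    rw [← Polynomial.aeval_algHom_apply, map_zero]
    exact Matrix.aeval_self_charpoly _
  have hdegmod : ∀ q : P[X], (q %ₘ χ).degree < n := by
    intro q
    have := degree_modByMonic_lt q hmon
    rwa [degree_eq_natDegree hmon.ne_zero, hdeg] at this
  -- the matrices
  set E : Matrix (Fin n) (Fin n) P := matOfPolys (fun i => Rr i %ₘ χ) with hE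
  have hrow : ∀ i, rowPoly E i = Rr i %ₘ χ := fun i => rowPoly_matOfPolys _ (fun i => hdegmod _) i
  set Mh : Matrix (Fin n) (Fin n) P := fun j i => b.repr (th ^ (j : ℕ)) i with hMh
  have hpow : ∀ j : Fin n, th ^ (j : ℕ) = ∑ i, Mh j i • b i := fun j => (b.sum_repr _).symm
  have hEb : ∀ i, aeval th (rowPoly E i) = Δ • b i := by
    intro i
    rw [hrow, aeval_modByMonic_eq_self_of_root hχ, aeval_def, ← hR, Algebra.smul_def]
  have hL1 : E * Mh = Δ • (1 : Matrix (Fin n) (Fin n) P) := by
    ext i k
    have h1 := congrArg (fun x => b.repr x k) (hEb i)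
    simp only [aeval_rowPoly, map_sum, map_smul, Finsupp.coe_finsetSum, Finset.sum_apply,
      Finsupp.smul_apply, smul_eq_mul, Module.Basis.repr_self] at h1
    rw [Matrix.mul_apply, Matrix.smul_apply, Matrix.one_apply]
    rw [h1, Finsupp.single_apply]
    simp
  have hdetM : Mh.det ≠ 0 := by
    intro h0
    have := congrArg Matrix.det hL1
    rw [Matrix.det_mul, h0, mul_zero, Matrix.det_smul, Matrix.det_one, mul_one] at this
    exact pow_ne_zero _ hΔ this.symm
  have hind : PowIndep P n th := by
    intro p hp h0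
    have hv : (fun j : Fin n => p.coeff (j : ℕ)) ᵥ* Mh = 0 := by
      funext k
      have hp' : p = rowPoly (matOfPolys fun _ : Fin n => p) 0 :=
        (rowPoly_matOfPolys (fun _ : Fin n => p) (fun _ => hp) 0).symm
      rw [hp', aeval_rowPoly] at h0
      have h1 := congrArg (fun x => b.repr x k) h0
      simp only [map_sum, map_smul, Finsupp.coe_finsetSum, Finset.sum_apply,
        Finsupp.smul_apply, smul_eq_mul, map_zero, Finsupp.coe_zero, Pi.zero_apply] at h1
      simpa [Matrix.vecMul, dotProduct, matOfPolys] using h1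
    have hz := Matrix.eq_zero_of_vecMul_eq_zero hdetM hv
    ext m
    by_cases hm : m < n
    · exact congrFun hz ⟨m, hm⟩
    · rw [coeff_zero]
      exact coeff_eq_zero_of_degree_lt (lt_of_lt_of_le hp (by exact_mod_cast not_lt.1 hm))
  have hn0 : (0 : WithBot ℕ) < n := by exact_mod_cast Nat.pos_of_ne_zero (NeZero.ne n)
  have hL2 : rowPoly E 0 = C Δ := by
    refine hind.eq (degree_rowPoly_lt _ _) (lt_of_le_of_lt degree_C_le hn0) ?_
    rw [hEb, hb0, aeval_C, Algebra.algebraMap_eq_smul_one]
  have hsumdeg : ∀ (c : Fin n → P), (C Δ * ∑ k, C (c k) * rowPoly E k).degree < n := by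
    intro c
    rw [← smul_eq_C_mul]
    refine lt_of_le_of_lt (degree_smul_le _ _) ?_
    refine lt_of_le_of_lt (degree_sum_le _ _) ?_
    refine (Finset.sup_lt_iff (WithBot.bot_lt_coe n)).2 fun k _ => ?_
    rw [← smul_eq_C_mul]
    exact lt_of_le_of_lt (degree_smul_le _ _) (degree_rowPoly_lt _ _)
  have hL3 : ∀ i j, C (1 : P) * ((rowPoly E i * rowPoly E j) %ₘ χ)
      = C Δ * ∑ k, C (b.repr (b i * b j) k) * rowPoly E k := by
    intro i j
    rw [C_1, one_mul]
    refine hind.eq (hdegmod _) (hsumdeg _) ?_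
    rw [aeval_modByMonic_eq_self_of_root hχ, map_mul, hEb, hEb, map_mul, aeval_C, map_sum]
    simp only [map_mul, aeval_C, hEb]
    conv_lhs => rw [smul_mul_smul_comm, ← b.sum_repr (b i * b j)]
    simp only [Algebra.smul_def, Finset.mul_sum, map_mul]
    refine Finset.sum_congr rfl fun k _ => by ring
  -- separability
  have hy : aeval th (derivative χ) ≠ 0 := by
    obtain ⟨E0, H, hE0, hH⟩ := hdiv χ (by rw [← aeval_def]; exact hχ)
    have hHth : aeval th H ≠ 0 := by
      intro h0
      obtain ⟨H2, rfl⟩ := hind.dvd hmon hdeg hχ h0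
      have h1 : χ * (C E0) = χ * (H2 * Pm) := by rw [mul_comm, hH]; ring
      have h2 := mul_left_cancel₀ hmon.ne_zero h1
      have h3 := congrArg (aeval th) h2
      rw [aeval_C, map_mul, aeval_def th Pm, hP0, mul_zero] at h3
      exact hE0 (hinj (h3.trans (map_zero _).symm))
    intro h0
    have h1 := congrArg (fun q => aeval th (derivative q)) hH
    simp only [derivative_mul, derivative_C, zero_mul, zero_add, map_add, map_mul, aeval_C, h0,
      mul_zero, aeval_def th Pm, hP0] at h1
    rcases mul_eq_zero.1 h1.symm with h2 | h2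
    · exact hHth h2
    · exact hP' (by rw [← aeval_def]; exact h2)
  obtain ⟨δ, hδ, w, hw⟩ := (Algebra.IsIntegral.isIntegral (R := P)
    (aeval th (derivative χ))).isAlgebraic.exists_nonzero_dvd (mem_nonZeroDivisors_of_ne_zero hy)
  set W : P[X] := ∑ i, C (b.repr w i) * rowPoly E i with hW
  have hWth : aeval th W = Δ • w := by
    rw [hW, map_sum]
    simp only [map_mul, aeval_C, hEb]
    conv_rhs => rw [← b.sum_repr w, Finset.smul_sum]
    refine Finset.sum_congr rfl fun i _ => ?_
    simp only [Algebra.smul_def]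
    ring
  obtain ⟨G, hG⟩ := hind.dvd hmon hdeg hχ (q := W * derivative χ - C (Δ * δ)) (by
    rw [map_sub, map_mul, hWth, aeval_C, map_mul, hw, Algebra.smul_def]
    ring)
  refine ⟨{ Pi := χ, E := E, Mh := Mh, g := Δ, u := 1, Delta := Δ * δ,
            ch := fun i j k => b.repr (b i * b j) k, A := -G, B := W, monic := hmon,
            natDegree_eq := hdeg, L1 := by rw [one_mul]; exact hL1, L2 := hL2, L3 := hL3,
            L4 := by linear_combination hG }, th, rfl, hΔ, mul_ne_zero hΔ hδ, fun _ _ _ => rfl,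
          hχ, hind, hEb, hpow⟩

end PE

end Claimed.Agent.R246.LD
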