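import Mathlib
import Claimed.Agent.R246.T.JacNonzero
import Claimed.Agent.R246.T.Pert

/-!
# Row 246, Theorem T: the package `LztPkg` of a formal certificate (start of the chain S1/S2), and the
comparison "frame ideal = ideal of minors"

* `jac_minors_le_frame`: for derivations `D 0, D 1` satisfying the chain rule, every minor
  `D 0 g * D 1 h - D 0 h * D 1 g` lies in `lztFrameIdeal` of the vectors `jacVec b (D i) (α i)`.
* `jac_frame_le_minors`: conversely, for vectors `v i` killed by the Jacobian matrix and coordinates `x a`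
  (`d a (x a') = δ`), `lztFrameIdeal v` is contained in the ideal of minors of `jacDer b d (v i)`.
* `lztPkg_of_formal`: (FC2)-(FC5) over a base `DSBase k P` give `LztPkg I (jacMat b base.d) ev x y c0 N0 M0`.
-/

set_option autoImplicit false
set_option linter.unusedSectionVars false

namespace Claimed.Agent.R246

open Finset Matrix

section Frame

variable {k P A I J : Type*} [CommRing k] [CommRing P] [CommRing A] [Algebra k P] [Algebra P A]
  [Algebra k A] [IsScalarTower k P A] [Fintype I] [DecidableEq I] [Fintype J] [DecidableEq J]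
  (b : Module.Basis I P A) (d : J → Derivation k P P)

/-- the "partial derivatives" of an element: `jacOp b d v x = ∑ z, v z * jacCo b d x z` -/
noncomputable def jacCo (x : A) : J ⊕ I → A :=
  Sum.elim (fun a => jacNabla b d a x) (fun l => algebraMap P A (b.repr x l))

theorem jacOp_eq_sum (v : J ⊕ I → A) (x : A) : jacOp b d v x = ∑ z, v z * jacCo b d x z := by
  rw [Fintype.sum_sum_type]
  rfl

theorem jac_minor_eq (v : Fin 2 → J ⊕ I → A) (g h : A) :
    jacOp b d (v 0) g * jacOp b d (v 1) h - jacOp b d (v 0) h * jacOp b d (v 1) g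
      = ∑ z, ∑ z', (jacCo b d g z * jacCo b d h z') * (v 0 z * v 1 z' - v 0 z' * v 1 z) := by
  simp only [jacOp_eq_sum, mul_sub, Finset.sum_sub_distrib]
  congr 1
  · rw [Finset.sum_mul_sum]
    refine Finset.sum_congr rfl fun z _ => Finset.sum_congr rfl fun z' _ => ?_
    ring
  · rw [mul_comm, Finset.sum_mul_sum]
    refine Finset.sum_congr rfl fun z _ => Finset.sum_congr rfl fun z' _ => ?_
    ring

/-- minors of derivations lie in the frame ideal -/
theorem jac_minors_le_frame (D : Fin 2 → Derivation k A A) (α : Fin 2 → J → A)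
    (hD : ∀ i p, D i (algebraMap P A p) = ∑ a, α i a * algebraMap P A (d a p)) :
    Ideal.span {m : A | ∃ g h, m = D 0 g * D 1 h - D 0 h * D 1 g}
      ≤ lztFrameIdeal (fun i => jacVec b (D i) (α i)) := by
  rw [Ideal.span_le]
  rintro _ ⟨g, h, rfl⟩
  rw [jacOp_of_derivation b d (D 0) (α 0) (hD 0) g, jacOp_of_derivation b d (D 0) (α 0) (hD 0) h,
    jacOp_of_derivation b d (D 1) (α 1) (hD 1) g, jacOp_of_derivation b d (D 1) (α 1) (hD 1) h]
  have := jac_minor_eq b d (fun i => jacVec b (D i) (α i)) g h
  rw [SetLike.mem_coe, this]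
  refine Ideal.sum_mem _ fun z _ => Ideal.sum_mem _ fun z' _ => Ideal.mul_mem_left _ _ ?_
  exact Ideal.subset_span ⟨z, z', rfl⟩

/-- the frame ideal lies in the ideal of minors -/
theorem jac_frame_le_minors (x : J → P) (hx : ∀ a a', d a (x a') = if a = a' then 1 else 0)
    (v : Fin 2 → J ⊕ I → A) (hv : ∀ i, jacMat b d *ᵥ v i = 0) :
    lztFrameIdeal v ≤ Ideal.span {m : A | ∃ g h, m = jacDer b d (v 0) (hv 0) g * jacDer b d (v 1) (hv 1) h
      - jacDer b d (v 0) (hv 0) h * jacDer b d (v 1) (hv 1) g} := by
  rw [lztFrameIdeal, Ideal.span_le]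
  rintro _ ⟨z, z', rfl⟩
  -- every component of `v i` is a value of the derivation
  have hval : ∀ z : J ⊕ I, ∃ g : A, ∀ i, jacDer b d (v i) (hv i) g = v i z := by
    rintro (a | l)
    · refine ⟨algebraMap P A (x a), fun i => ?_⟩
      rw [jacDer_algebraMap]
      simp only [hx]
      rw [Finset.sum_eq_single a]
      · simp
      · intro a' _ ha'; simp [ha']
      · intro h; exact absurd (Finset.mem_univ _) h
    · exact ⟨b l, fun i => jacDer_basis b d (v i) (hv i) l⟩
  obtain ⟨g, hg⟩ := hval z
  obtain ⟨h, hh⟩ := hval z'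
  exact Ideal.subset_span ⟨g, h, by rw [hg, hg, hh, hh]⟩

end Frame

section Pkg

variable {k P A I : Type*} [Field k] [CharZero k] [CommRing P] [Algebra k P] [CommRing A] [IsDomain A]
  [Algebra k A] [Algebra P A] [IsScalarTower k P A] [IsNoetherianRing P]
  [Fintype I] [DecidableEq I]

/-- **The package of a formal certificate.** -/
theorem lztPkg_of_formal (base : DSBase k P)
    (hcomm : ∀ a a' p, base.d a (base.d a' p) = base.d a' (base.d a p))
    (b : Module.Basis I P A) (D : Fin 2 → Derivation k A A) (ev : A →ₐ[k] k)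
    (ev_x : ∀ a, ev (algebraMap P A (base.x a)) = 0) (ev_D : ∀ i a, ev (D i a) = 0)
    (N0 : ℕ) (minors : ∀ a, algebraMap P A (base.x a) ^ N0 ∈
      Ideal.span {m : A | ∃ g h, m = D 0 g * D 1 h - D 0 h * D 1 g})
    (M0 : ℕ) (nil : ∀ y : A, ev y = 0 → y ^ M0 ∈
      Ideal.span (Set.range fun a => algebraMap P A (base.x a))) :
    ∃ c0 : ℕ, LztPkg I (jacMat b base.d) (ev : A →+* k) (fun a => algebraMap P A (base.x a))
      (fun l => b l - algebraMap k A (ev (b l))) c0 N0 M0 := by
  have : Module.Finite P A := Module.Finite.of_basis b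
  have : IsNoetherianRing A := IsNoetherianRing.of_finite P A
  obtain ⟨c, hc⟩ := jac_exists_pow_mem base hcomm b D _ N0 (minors 0)
  obtain ⟨c', hc'⟩ := jac_exists_pow_mem base hcomm b D _ N0 (minors 1)
  have hchain : ∀ i p, D i (algebraMap P A p)
      = ∑ a, D i (algebraMap P A (base.x a)) * algebraMap P A (base.d a p) := by
    intro i p
    rw [dsChain base (D i) p, Fin.sum_univ_two]
  refine ⟨c + c', ?_⟩
  refine ⟨fun a => ev_x a, ⟨1, by simp, ?_⟩, ?_, ?_⟩
  · intro a
    rw [one_mul]
    fin_cases a
    · change algebraMap P A (base.x 0) ^ (c + c') ∈ _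
      rw [pow_add]
      exact Ideal.mul_mem_right _ _ hc
    · change algebraMap P A (base.x 1) ^ (c + c') ∈ _
      rw [pow_add]
      exact Ideal.mul_mem_left _ _ hc'
  · refine ⟨fun i => jacVec b (D i) (fun a => D i (algebraMap P A (base.x a))), ?_, ?_, 1, by simp, ?_⟩
    · intro i
      exact jacMat_mulVec_of_derivation b base.d (D i) _ (hchain i)
    · rintro i (a | l)
      · exact ev_D i _
      · exact ev_D i _
    · intro a
      rw [one_mul]
      exact jac_minors_le_frame b base.d D _ hchain (minors a)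
  · intro l
    refine ⟨1, by simp, ?_⟩
    rw [one_mul]
    apply nil
    simp

end Pkg

end Claimed.Agent.R246
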