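import Mathlib
import Claimed.Agent.R246.T.SC
import Claimed.Agent.R246.T.SCTower

/-!
# Row 246, Theorem T, module SC (complements)

* `SCData.semiEquiv` : `A ≃ AA(P',c')` for an algebra `A` with a `P`-basis `b` and an isomorphism `θ : P ≃ P'`
  carrying the structure constants of `b` to `c'`.
-/

set_option autoImplicit false

namespace Claimed.Agent.R246

namespace SCData

variable {P : Type*} [CommRing P] {I : Type*} [Fintype I] [DecidableEq I]

section semi

variable {P' A : Type*} [CommRing P'] [CommRing A] [Algebra P A]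

theorem semi_mul (C' : SCData P' I) (θ : P ≃+* P') (b : Module.Basis I P A)
    (hc : ∀ i j k, C'.c i j k = θ (b.repr (b i * b j) k)) (i j : I) :
    b i * b j = ∑ k, ((algebraMap P A).comp (θ.symm : P' →+* P)) (C'.c i j k) * b k := by
  conv_lhs => rw [← b.sum_repr (b i * b j)]
  simp only [hc, RingHom.comp_apply, RingHom.coe_coe, RingEquiv.symm_apply_apply,
    Algebra.smul_def]

/-- the ring hom `AA(P',c') → A`, `x ↦ ∑ θ⁻¹(x_l) b_l` -/
noncomputable def semiHom (C' : SCData P' I) (θ : P ≃+* P') (b : Module.Basis I P A)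
    (ho : b C'.o = 1) (hc : ∀ i j k, C'.c i j k = θ (b.repr (b i * b j) k)) : C'.Alg →+* A :=
  C'.lift ((algebraMap P A).comp (θ.symm : P' →+* P)) b ho (semi_mul C' θ b hc)

theorem semiHom_apply (C' : SCData P' I) (θ : P ≃+* P') (b : Module.Basis I P A)
    (ho : b C'.o = 1) (hc : ∀ i j k, C'.c i j k = θ (b.repr (b i * b j) k)) (x : C'.Alg) :
    semiHom C' θ b ho hc x = ∑ l, θ.symm (x.co l) • b l := by
  rw [semiHom, lift_apply]
  simp only [RingHom.comp_apply, RingHom.coe_coe, Algebra.smul_def]

/-- the ring isomorphism `AA(P',c') ≃ A`, `x ↦ ∑ θ⁻¹(x_l) b_l` -/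
noncomputable def semiEquiv (C' : SCData P' I) (θ : P ≃+* P') (b : Module.Basis I P A)
    (ho : b C'.o = 1) (hc : ∀ i j k, C'.c i j k = θ (b.repr (b i * b j) k)) : C'.Alg ≃+* A :=
  { semiHom C' θ b ho hc with
    invFun := fun a => ⟨fun l => θ (b.repr a l)⟩
    left_inv := fun x => by
      apply Alg.ext'
      intro l
      change θ (b.repr (semiHom C' θ b ho hc x) l) = x.co l
      rw [semiHom_apply]
      simp only [map_sum, map_smul,
        Module.Basis.repr_self, Finsupp.coe_finsetSum, Finset.sum_apply, Finsupp.smul_apply,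
        Finsupp.single_apply, smul_eq_mul, mul_ite, mul_one, mul_zero, Finset.sum_ite_eq',
        Finset.mem_univ, if_true, RingEquiv.apply_symm_apply]
    right_inv := fun a => by
      change semiHom C' θ b ho hc _ = a
      rw [semiHom_apply]
      simp only [RingEquiv.symm_apply_apply]
      exact b.sum_repr a }

variable (C' : SCData P' I) (θ : P ≃+* P') (b : Module.Basis I P A)
    (ho : b C'.o = 1) (hc : ∀ i j k, C'.c i j k = θ (b.repr (b i * b j) k))

theorem semiEquiv_apply (x : C'.Alg) :
    semiEquiv C' θ b ho hc x = ∑ l, θ.symm (x.co l) • b l := semiHom_apply C' θ b ho hc x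

theorem semiEquiv_symm_co (a : A) (l : I) :
    ((semiEquiv C' θ b ho hc).symm a).co l = θ (b.repr a l) := rfl

@[simp] theorem semiEquiv_e (i : I) : semiEquiv C' θ b ho hc (C'.e i) = b i := by
  change semiHom C' θ b ho hc _ = _
  rw [semiHom, lift_e]

@[simp] theorem semiEquiv_algebraMap (p : P') :
    semiEquiv C' θ b ho hc (algebraMap P' C'.Alg p) = algebraMap P A (θ.symm p) := by
  change semiHom C' θ b ho hc _ = _
  rw [semiHom, lift_algebraMap]
  rfl

@[simp] theorem semiEquiv_symm_basis (i : I) : (semiEquiv C' θ b ho hc).symm (b i) = C'.e i := by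
  rw [RingEquiv.symm_apply_eq, semiEquiv_e]

@[simp] theorem semiEquiv_symm_algebraMap (p : P) :
    (semiEquiv C' θ b ho hc).symm (algebraMap P A p) = algebraMap P' C'.Alg (θ p) := by
  rw [RingEquiv.symm_apply_eq, semiEquiv_algebraMap, RingEquiv.symm_apply_apply]

end semi

end SCData

end Claimed.Agent.R246
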