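import Mathlib
import Claimed.Agent.R246.T.PkgFC
import Claimed.Agent.R246.T.SCSemi

/-!
# Row 246, Theorem T, STEP0 (abstract part): the package of a formal certificate, transported to `AA(P',c')`
along an isomorphism `θ : P ≃ P'` of the base rings
-/

set_option autoImplicit false
set_option linter.unusedSectionVars false

namespace Claimed.Agent.R246

open Finset Matrix

section

variable {k P P' A I : Type*} [Field k] [CharZero k] [CommRing P] [Algebra k P]
  [CommRing P'] [Algebra k P'] [IsNoetherianRing P'] [CommRing A] [IsDomain A]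
  [Algebra k A] [Algebra P A] [IsScalarTower k P A] [Fintype I] [DecidableEq I]

/-- membership in a span is transported by a ring hom carrying generators to generators -/
theorem lzt_map_mem_span {B B' : Type*} [CommRing B] [CommRing B'] (f : B →+* B') (S : Set B)
    (S' : Set B') (hS : ∀ s ∈ S, f s ∈ S') {z : B} (hz : z ∈ Ideal.span S) :
    f z ∈ Ideal.span S' := by
  have h1 : f z ∈ Ideal.map f (Ideal.span S) := Ideal.mem_map_of_mem f hz
  rw [Ideal.map_span] at h1
  refine Ideal.span_mono ?_ h1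
  rintro _ ⟨s, hs, rfl⟩
  exact hS s hs

/-- **STEP0, abstract part.** -/
theorem lztPkg_of_formal_semi (base : DSBase k P')
    (hcomm : ∀ a a' p, base.d a (base.d a' p) = base.d a' (base.d a p))
    (θ : P ≃ₐ[k] P') (b : Module.Basis I P A) (C' : SCData P' I) (ho : b C'.o = 1)
    (hc : ∀ i j l, C'.c i j l = θ (b.repr (b i * b j) l))
    (D : Fin 2 → Derivation k A A) (ev : A →ₐ[k] k)
    (ev_x : ∀ a, ev (algebraMap P A (θ.symm (base.x a))) = 0) (ev_D : ∀ i a, ev (D i a) = 0)
    (N0 : ℕ) (minors : ∀ a, algebraMap P A (θ.symm (base.x a)) ^ N0 ∈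
      Ideal.span {m : A | ∃ g h, m = D 0 g * D 1 h - D 0 h * D 1 g})
    (M0 : ℕ) (nil : ∀ y : A, ev y = 0 → y ^ M0 ∈
      Ideal.span (Set.range fun a => algebraMap P A (θ.symm (base.x a)))) :
    letI := SCData.algOver k C'
    ∃ (ev' : C'.Alg →ₐ[k] k) (c0 : ℕ),
      (∀ p, ev' (algebraMap P' C'.Alg p) = ev (algebraMap P A (θ.symm p))) ∧
      (∀ l, ev' (C'.e l) = ev (b l)) ∧
      LztPkg I (jacMat C'.e base.d) (ev' : C'.Alg →+* k) (fun a => algebraMap P' C'.Alg (base.x a))
        (fun l => C'.e l - algebraMap k C'.Alg (ev' (C'.e l))) c0 N0 M0 := by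
  letI := SCData.algOver k C'
  haveI : IsScalarTower k P' C'.Alg := SCData.algOver_tower k C'
  let Ψ0 : C'.Alg ≃+* A := SCData.semiEquiv C' θ.toRingEquiv b ho hc
  have hΨa : ∀ p, Ψ0 (algebraMap P' C'.Alg p) = algebraMap P A (θ.symm p) := fun p =>
    SCData.semiEquiv_algebraMap C' θ.toRingEquiv b ho hc p
  have hΨe : ∀ l, Ψ0 (C'.e l) = b l := fun l => SCData.semiEquiv_e C' θ.toRingEquiv b ho hc l
  let Ψ : C'.Alg ≃ₐ[k] A := AlgEquiv.ofRingEquiv (f := Ψ0) (fun c => by
    rw [IsScalarTower.algebraMap_apply k P' C'.Alg, hΨa, AlgEquiv.commutes,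
      ← IsScalarTower.algebraMap_apply])
  have hΨ : ∀ x, Ψ x = Ψ0 x := fun _ => rfl
  haveI : IsDomain C'.Alg := Ψ0.toMulEquiv.isDomain A
  have hd : ∀ i x, Ψ.symm x = 0 → Ψ.symm (D i x) = 0 := by
    intro i x hx
    have : x = 0 := by simpa using hx
    rw [this]; simp
  let D' : Fin 2 → Derivation k C'.Alg C'.Alg := fun i =>
    Derivation.liftOfSurjective (f := Ψ.symm) Ψ.symm.surjective (d := D i) (hd i)
  have hD' : ∀ i a, D' i (Ψ.symm a) = Ψ.symm (D i a) := fun i a =>
    Derivation.liftOfSurjective_apply (f := Ψ.symm) Ψ.symm.surjective (hd i) a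
  have hD'' : ∀ i y, Ψ (D' i y) = D i (Ψ y) := by
    intro i y
    obtain ⟨a, rfl⟩ := Ψ.symm.surjective y
    rw [hD', AlgEquiv.apply_symm_apply, AlgEquiv.apply_symm_apply]
  let ev' : C'.Alg →ₐ[k] k := ev.comp (Ψ : C'.Alg →ₐ[k] A)
  have hev' : ∀ y, ev' y = ev (Ψ y) := fun _ => rfl
  have hsa : ∀ p, Ψ.symm (algebraMap P A (θ.symm p)) = algebraMap P' C'.Alg p := by
    intro p
    rw [AlgEquiv.symm_apply_eq, hΨ, hΨa]
  obtain ⟨c0, hpkg⟩ := lztPkg_of_formal base hcomm C'.e D' ev'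
    (fun a => by rw [hev', hΨ, hΨa]; exact ev_x a)
    (fun i y => by rw [hev', hD'']; exact ev_D i _)
    N0
    (fun a => by
      have h1 := lzt_map_mem_span (Ψ.symm : A →+* C'.Alg) _
        {m : C'.Alg | ∃ g h, m = D' 0 g * D' 1 h - D' 0 h * D' 1 g} ?_ (minors a)
      · rw [map_pow] at h1
        have h2 : (Ψ.symm : A →+* C'.Alg) (algebraMap P A (θ.symm (base.x a)))
            = algebraMap P' C'.Alg (base.x a) := hsa _
        rw [h2] at h1
        exact h1
      · rintro _ ⟨g, h, rfl⟩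
        refine ⟨Ψ.symm g, Ψ.symm h, ?_⟩
        rw [hD', hD', hD', hD']
        simp)
    M0
    (fun y hy => by
      have h1 := lzt_map_mem_span (Ψ.symm : A →+* C'.Alg) _
        (Set.range fun a => algebraMap P' C'.Alg (base.x a)) ?_ (nil (Ψ y) hy)
      · rw [map_pow] at h1
        have h2 : (Ψ.symm : A →+* C'.Alg) (Ψ y) = y := Ψ.symm_apply_apply y
        rw [h2] at h1
        exact h1
      · rintro _ ⟨a, rfl⟩
        exact ⟨a, (hsa _).symm⟩)
  exact ⟨ev', c0, fun p => by rw [hev', hΨ, hΨa], fun l => by rw [hev', hΨ, hΨe], hpkg⟩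

end

end Claimed.Agent.R246
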