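import Mathlib
import Claimed.Agent.R246.FC
import Claimed.Agent.R246.T.Step0
import Claimed.Agent.R246.T.BaseT
import Claimed.Agent.R246.T.BasisOne
import Claimed.Agent.R246.T.CO
import Claimed.Agent.R246.T.PE
import Claimed.Agent.R246.T.LDJac

/-!
# Row 246, Theorem T, STEP0: from the formal certificate to lattice data over `ℂ⟦t⟧⟦s⟧`, regular in `s`,
with the package `LztPkg`
-/

set_option autoImplicit false
set_option linter.unusedSectionVars false

namespace Claimed.Agent.R246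

open scoped PowerSeries
open Polynomial in
/-- `L4` implies that the resultant of `Pi` and `Pi'` does not vanish -/
theorem lzt_resultant_ne_zero {P : Type*} [CommRing P] [IsDomain P] [CharZero P] {n : ℕ} [NeZero n]
    (Pi A B : P[X]) (Δ : P) (hm : Pi.Monic) (hn : Pi.natDegree = n) (hΔ : Δ ≠ 0)
    (h : A * Pi + B * derivative Pi = C Δ) :
    resultant Pi (derivative Pi) n (n - 1) ≠ 0 := by
  let K := FractionRing P
  let φ : P →+* K := algebraMap P K
  have hφ : Function.Injective φ := IsFractionRing.injective P K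
  intro h0
  have h1 : resultant (Pi.map φ) ((derivative Pi).map φ) n (n - 1) = 0 := by
    rw [resultant_map_map, h0, map_zero]
  have hd1 : (Pi.map φ).natDegree = n := by rw [hm.natDegree_map, hn]
  have hn0 : 0 < n := Nat.pos_of_ne_zero (NeZero.ne n)
  have hd2 : ((derivative Pi).map φ).natDegree = n - 1 := by
    rw [← derivative_map, natDegree_derivative, hd1]
  have hcop : IsCoprime (Pi.map φ) ((derivative Pi).map φ) := by
    have hΔ' : φ Δ ≠ 0 := by
      intro hz
      exact hΔ (hφ (by rw [hz, map_zero]))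
    refine ⟨C (φ Δ)⁻¹ * A.map φ, C (φ Δ)⁻¹ * B.map φ, ?_⟩
    have h2 := congrArg (Polynomial.map φ) h
    rw [Polynomial.map_add, Polynomial.map_mul, Polynomial.map_mul, Polynomial.map_C] at h2
    calc C (φ Δ)⁻¹ * A.map φ * Pi.map φ + C (φ Δ)⁻¹ * B.map φ * (derivative Pi).map φ
        = C (φ Δ)⁻¹ * (A.map φ * Pi.map φ + B.map φ * (derivative Pi).map φ) := by ring
      _ = 1 := by rw [h2, ← C_mul, inv_mul_cancel₀ hΔ', C_1]
  have h3 := resultant_ne_zero _ _ hcop
  rw [hd1, hd2] at h3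
  exact h3 h1

/-- abbreviation for `ℂ⟦t⟧⟦s⟧` -/
abbrev PHc : Type := (ℂ⟦X⟧)⟦X⟧

theorem algebraMap_PHc (c : ℂ) : algebraMap ℂ PHc c = PowerSeries.C (PowerSeries.C c) := by
  rw [PowerSeries.algebraMap_apply, PowerSeries.algebraMap_apply]
  simp

/-- **STEP0.** -/
theorem lzt_step0 {A : Type} [CommRing A] [IsDomain A] [Algebra ℂ A] [Algebra P2h A]
    [IsScalarTower ℂ P2h A] [Module.Free P2h A] [Module.Finite P2h A] (fc : FormalCert A) :
    ∃ (n : ℕ) (_ : NeZero n) (D0 : LD.Data PHc n),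
      ((PowerSeries.X * D0.g * Polynomial.resultant D0.Pi (Polynomial.derivative D0.Pi) n (n - 1)
        : PHc).map (IsLocalRing.residue ℂ⟦X⟧) ≠ 0) ∧
      letI := SCData.algOver ℂ D0.sc
      ∃ (ev' : D0.sc.Alg →ₐ[ℂ] ℂ) (c0 N0 M0 : ℕ),
        (∀ p : PHc, ev' (algebraMap PHc D0.sc.Alg p)
          = PowerSeries.constantCoeff (PowerSeries.constantCoeff p)) ∧
        LztPkg (Fin n) (jacMat D0.sc.e (dsBaseT ℂ).d) (ev' : D0.sc.Alg →+* ℂ)
          (fun a => algebraMap PHc D0.sc.Alg ((dsBaseT ℂ).x a))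
          (fun l => D0.sc.e l - algebraMap ℂ D0.sc.Alg (ev' (D0.sc.e l))) c0 N0 M0 := by
  classical
  -- a basis containing `1`
  have hev : ∀ p : P2h, ¬ IsUnit p → (fc.ev : A →+* ℂ) (algebraMap P2h A p) = 0 := by
    intro p hp
    have hm : p ∈ IsLocalRing.maximalIdeal P2h := (IsLocalRing.mem_maximalIdeal p).mpr hp
    rw [frp_maximalIdeal_mv2, Ideal.mem_span_pair] at hm
    obtain ⟨a, b, rfl⟩ := hm
    have h0 := fc.ev_X 0
    have h1 := fc.ev_X 1
    simp [h0, h1]
  obtain ⟨n, hn, b, hb0⟩ := lzt_exists_basis_one (fc.ev : A →+* ℂ) hev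
  -- lattice data
  haveI : IsDomain P2h := NoZeroDivisors.to_isDomain _
  haveI : CharZero P2h := charZero_of_injective_algebraMap (algebraMap ℂ P2h).injective
  obtain ⟨R, th, hu, hg, hΔ, hch, -, -, -, -⟩ := LD.exists_rawData b hb0
  have hres := lzt_resultant_ne_zero R.Pi R.A R.B R.Delta R.monic R.natDegree_eq hΔ R.L4
  set G : P2h := MvPowerSeries.X 0 * R.g
    * Polynomial.resultant R.Pi (Polynomial.derivative R.Pi) n (n - 1) with hG
  have hX0 : (MvPowerSeries.X 0 : P2h) ≠ 0 := by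
    intro h
    have h2 := congrArg (T.tbeta ℂ) h
    rw [T.tbeta_X_zero, map_zero] at h2
    exact PowerSeries.X_ne_zero h2
  have hG0 : G ≠ 0 := mul_ne_zero (mul_ne_zero hX0 hg) hres
  obtain ⟨l, hl⟩ := T.exists_tau_regular' ℂ (T.tbeta ℂ G) (by simpa using hG0)
  let θ : P2h ≃ₐ[ℂ] PHc := (T.tbeta ℂ).trans (T.tau ℂ l)
  have hθ : ∀ p, θ p = T.tau ℂ l (T.tbeta ℂ p) := fun _ => rfl
  have hθ0 : θ (MvPowerSeries.X 0) = PowerSeries.X := by
    rw [hθ, T.tbeta_X_zero, T.tau_X]
  have hθ1 : θ (MvPowerSeries.X 1 - MvPowerSeries.C l * MvPowerSeries.X 0)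
      = PowerSeries.C PowerSeries.X := by
    rw [map_sub, map_mul, hθ0, hθ, hθ, T.tbeta_X_one, T.tau_C_X, T.tbeta_C]
    have : T.tau ℂ l (PowerSeries.C (PowerSeries.C l)) = PowerSeries.C (PowerSeries.C l) := by
      have := (T.tau ℂ l).commutes l
      rwa [algebraMap_PHc] at this
    rw [this]
    ring
  let R' : LD.RawData PHc n := R.map (θ : P2h →+* PHc)
  have hinj : Function.Injective (θ : P2h →+* PHc) := θ.injective
  let D0 : LD.Data PHc n := R'.toData 1
    (by change (θ : P2h →+* PHc) R.u * 1 = 1; rw [hu]; simp)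
    (by change (θ : P2h →+* PHc) R.g ≠ 0; exact fun h => hg (hinj (by rw [h, map_zero])))
    (by change (θ : P2h →+* PHc) R.Delta ≠ 0; exact fun h => hΔ (hinj (by rw [h, map_zero])))
  have hD0g : D0.g = θ R.g := rfl
  have hD0Pi : D0.Pi = R.Pi.map (θ : P2h →+* PHc) := rfl
  have hD0c : ∀ i j k, D0.sc.c i j k = θ (b.repr (b i * b j) k) := by
    intro i j k
    change 1 * (θ : P2h →+* PHc) (R.ch i j k) = _
    rw [one_mul, hch]
    rfl
  refine ⟨n, hn, D0, ?_, ?_⟩
  · have h1 : (PowerSeries.X * D0.g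
        * Polynomial.resultant D0.Pi (Polynomial.derivative D0.Pi) n (n - 1) : PHc)
        = T.tau ℂ l (T.tbeta ℂ G) := by
      rw [← hθ, hG, map_mul, map_mul, hθ0, hD0g, hD0Pi, Polynomial.derivative_map,
        Polynomial.resultant_map_map]
      rfl
    rw [h1]
    exact hl
  · -- the certificate in the new coordinates
    have hs0 : θ.symm ((dsBaseT ℂ).x 0) = MvPowerSeries.X 0 := by
      rw [AlgEquiv.symm_apply_eq, hθ0]; rfl
    have hs1 : θ.symm ((dsBaseT ℂ).x 1) = MvPowerSeries.X 1 - MvPowerSeries.C l * MvPowerSeries.X 0 := by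
      rw [AlgEquiv.symm_apply_eq, hθ1]; rfl
    set x : Fin 2 → A := fun j => algebraMap P2h A (MvPowerSeries.X j) with hx
    have hx1 : algebraMap P2h A (MvPowerSeries.X 1 - MvPowerSeries.C l * MvPowerSeries.X 0)
        = x 1 - algebraMap P2h A (MvPowerSeries.C l) * x 0 := by
      rw [map_sub, map_mul]
    have hmem : ∀ a, algebraMap P2h A (θ.symm ((dsBaseT ℂ).x a)) ∈ Ideal.span (Set.range x) := by
      intro a
      fin_cases a
      · change algebraMap P2h A (θ.symm ((dsBaseT ℂ).x 0)) ∈ _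
        rw [hs0]
        exact Ideal.subset_span ⟨0, rfl⟩
      · change algebraMap P2h A (θ.symm ((dsBaseT ℂ).x 1)) ∈ _
        rw [hs1, hx1]
        exact Ideal.sub_mem _ (Ideal.subset_span ⟨1, rfl⟩)
          (Ideal.mul_mem_left _ _ (Ideal.subset_span ⟨0, rfl⟩))
    have hker : Ideal.span (Set.range x) ≤ RingHom.ker (fc.ev : A →+* ℂ) := by
      rw [Ideal.span_le]
      rintro _ ⟨j, rfl⟩
      exact fc.ev_X j
    obtain ⟨ev', c0, hevp, -, hpkg⟩ := lztPkg_of_formal_semi (dsBaseT ℂ) (dsBaseT_comm ℂ) θ b D0.sc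
      hb0 hD0c fc.D fc.ev (fun a => hker (hmem a)) fc.ev_D (2 * fc.N0)
      (fun a => by
        obtain ⟨Y, hY⟩ := lzt_pow_two_mul x (hmem a) fc.N0
        rw [hY]
        exact Ideal.sum_mem _ fun j _ => Ideal.mul_mem_left _ _ (fc.minors j))
      fc.M0
      (fun y hy => by
        refine Ideal.span_le.mpr ?_ (fc.nil y hy)
        rintro _ ⟨j, rfl⟩
        fin_cases j
        · refine Ideal.subset_span ⟨0, ?_⟩
          change algebraMap P2h A (θ.symm ((dsBaseT ℂ).x 0)) = _
          rw [hs0]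
          rfl
        · have e1 : algebraMap P2h A (MvPowerSeries.X 1)
              = algebraMap P2h A (θ.symm ((dsBaseT ℂ).x 1))
                + algebraMap P2h A (MvPowerSeries.C l) * algebraMap P2h A (θ.symm ((dsBaseT ℂ).x 0)) := by
            rw [hs0, hs1, map_sub, map_mul]
            ring
          change algebraMap P2h A (MvPowerSeries.X 1) ∈ _
          rw [e1]
          exact Ideal.add_mem _ (Ideal.subset_span ⟨1, rfl⟩)
            (Ideal.mul_mem_left _ _ (Ideal.subset_span ⟨0, rfl⟩)))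
    refine ⟨ev', c0, 2 * fc.N0, fc.M0, ?_, hpkg⟩
    intro p
    letI := SCData.algOver ℂ D0.sc
    haveI : IsScalarTower ℂ PHc D0.sc.Alg := SCData.algOver_tower ℂ D0.sc
    set c : ℂ := PowerSeries.constantCoeff (PowerSeries.constantCoeff p) with hc
    have hm : p - algebraMap ℂ PHc c ∈ IsLocalRing.maximalIdeal PHc := by
      rw [IsLocalRing.mem_maximalIdeal, mem_nonunits_iff, PowerSeries.isUnit_iff_constantCoeff,
        PowerSeries.isUnit_iff_constantCoeff, isUnit_iff_ne_zero, not_not]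
      rw [algebraMap_PHc, map_sub, map_sub]
      simp [hc]
    rw [frp_maximalIdeal_nested, Ideal.mem_span_pair] at hm
    obtain ⟨a, a', ha⟩ := hm
    have hp : p = algebraMap ℂ PHc c + (a * PowerSeries.X + a' * PowerSeries.C PowerSeries.X) := by
      rw [ha]; ring
    have e0 : ev' (algebraMap PHc D0.sc.Alg PowerSeries.X) = 0 := hpkg.ev_x 0
    have e1 : ev' (algebraMap PHc D0.sc.Alg (PowerSeries.C PowerSeries.X)) = 0 := hpkg.ev_x 1
    conv_lhs => rw [hp]
    simp only [map_add, map_mul, e0, e1, mul_zero, add_zero]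
    rw [← IsScalarTower.algebraMap_apply, AlgHom.commutes]
    simp

end Claimed.Agent.R246
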