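import Claimed.Agent.R246.T.Main2
import Claimed.Agent.R246.T.Step0Main

/-!
# Row 246: THEOREM T  (`FormalCert A` ⟹ frozen S0485)   (final assembly, helper615)

`theoremT`: a domain `A`, finite free over `ℂ⟦X₀,X₁⟧`, with a formal certificate, gives `LZGoal` (= the frozen S0485,
`LZGoal.frozen` in `R246/Local.lean`).   Modules: STEP0 (372), STEP1 (72), LDAR (516), STEP2 (344), TFINAL (473, 344).
-/

set_option autoImplicit false
set_option linter.unusedSectionVars false

namespace Claimed.Agent.R246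

open Matrix IsLocalRing T
open scoped Polynomial PowerSeries

theorem tStep0 : TStep0 := by
  intro A _ _ _ _ _ _ _ F
  obtain ⟨n, hn, D0, hreg, H⟩ := lzt_step0 F
  refine ⟨n, hn, D0, hreg, ?_⟩
  let _ := D0.sc.algOver ℂ
  obtain ⟨ev, c0, N0, M0, hev, pkg⟩ := H
  refine ⟨(ev : D0.sc.Alg →+* ℂ), c0, N0, M0, hev, ?_⟩
  have hd : (dsBaseT ℂ).d = ![tds ℂ, tdt ℂ] := by
    funext a
    fin_cases a <;> rfl
  have hx : (dsBaseT ℂ).x = tqP ℂ := by
    funext a
    fin_cases a <;> rfl
  rw [hd, hx] at pkg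
  exact pkg

/-- **THEOREM T.** -/
theorem theoremT (A : Type) [CommRing A] [IsDomain A] [Algebra ℂ A] [Algebra P2h A]
    [IsScalarTower ℂ P2h A] [Module.Free P2h A] [Module.Finite P2h A] (F : FormalCert A) : LZGoal :=
  theoremT_of tStep0 tData1 tStep2 A F

end Claimed.Agent.R246
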